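import Crest.Agent.R72.Defs

/-! # R72 task Calderon: a discrete Calderón reproducing formula -/

set_option autoImplicit false

namespace Crest.Agent.R72

open Matrix Finset

namespace Calderon

open Polynomial

/-- sup bound on the coefficients -/
def Li (p : ℝ[X]) (c : ℝ) : Prop := ∀ i, |p.coeff i| ≤ c

/-- multiplication by `p` has norm at most `c` for the sup norm of the coefficients -/
def Op (p : ℝ[X]) (c : ℝ) : Prop := ∀ q b, Li q b → Li (p * q) (c * b)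

variable {p q : ℝ[X]} {a b c : ℝ}

theorem Li.nonneg (h : Li p c) : 0 ≤ c := (abs_nonneg _).trans (h 0)

theorem Li.mono (h : Li p a) (hab : a ≤ b) : Li p b := fun i => (h i).trans hab

theorem Li.add (h : Li p a) (h' : Li q b) : Li (p + q) (a + b) := fun i => by
  rw [coeff_add]; exact (abs_add_le _ _).trans (add_le_add (h i) (h' i))

theorem Li.sum {ι : Type*} (s : Finset ι) {f : ι → ℝ[X]} (h : ∀ i ∈ s, Li (f i) a) :
    Li (∑ i ∈ s, f i) (s.card * a) := fun n => by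
  rw [finsetSum_coeff]
  refine (abs_sum_le_sum_abs _ _).trans ?_
  have := Finset.sum_le_card_nsmul s (fun i => |(f i).coeff n|) a fun i hi => h i hi n
  simpa using this

theorem Op.mono (h : Op p a) (hab : a ≤ b) : Op p b := fun q c hq =>
  (h q c hq).mono (mul_le_mul_of_nonneg_right hab hq.nonneg)

theorem Op.add (h : Op p a) (h' : Op q b) : Op (p + q) (a + b) := fun r c hr => by
  rw [add_mul, add_mul]; exact (h r c hr).add (h' r c hr)

theorem Op.mul (h : Op p a) (h' : Op q b) : Op (p * q) (a * b) := fun r c hr => by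
  rw [mul_assoc, mul_assoc]; exact h _ _ (h' r c hr)

theorem op_C (a : ℝ) : Op (C a) |a| := fun q b hq i => by
  rw [coeff_C_mul, abs_mul]; exact mul_le_mul_of_nonneg_left (hq i) (abs_nonneg a)

theorem op_C' (ha : 0 ≤ a) : Op (C a) a := (op_C a).mono (abs_of_nonneg ha).le

theorem op_one : Op 1 1 := fun q b hq => by simpa using hq

theorem Op.neg (h : Op p a) : Op (-p) a := fun q b hq i => by
  rw [neg_mul, coeff_neg, abs_neg]; exact h q b hq i

theorem Op.sub (h : Op p a) (h' : Op q b) : Op (p - q) (a + b) := by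
  rw [sub_eq_add_neg]; exact h.add h'.neg

theorem op_X_pow (n : ℕ) : Op (X ^ n) 1 := fun q b hq i => by
  rw [coeff_X_pow_mul', one_mul]
  split_ifs
  · exact hq _
  · simpa using hq.nonneg

theorem Op.pow (h : Op p 1) (n : ℕ) : Op (p ^ n) 1 := by
  induction n with
  | zero => simpa using op_one
  | succ n ih => simpa [pow_succ] using ih.mul h

theorem Op.sum {ι : Type*} (s : Finset ι) {f : ι → ℝ[X]} (h : ∀ i ∈ s, Op (f i) a) :
    Op (∑ i ∈ s, f i) (s.card * a) := fun q b hq => by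
  rw [Finset.sum_mul, mul_assoc]
  exact Li.sum s fun i hi => h i hi q b hq

/-- `1 + X + ⋯ + X^(j-1)` -/
noncomputable def geom (j : ℕ) : ℝ[X] := ∑ i ∈ range j, X ^ i

theorem geom_mul (j : ℕ) : (1 - X) * geom j = 1 - X ^ j := mul_neg_geom_sum X j

theorem op_geom (j : ℕ) : Op (geom j) j := by
  simpa [geom] using Op.sum (range j) (f := fun i => (X : ℝ[X]) ^ i) fun i _ => op_X_pow i

theorem li_geom (j : ℕ) : Li (geom j) 1 := fun i => by
  simp only [geom, finsetSum_coeff, coeff_X_pow, Finset.sum_ite_eq]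
  split_ifs <;> simp

theorem deg_geom (j : ℕ) : (geom j).natDegree ≤ j :=
  natDegree_sum_le_of_forall_le _ _ fun i hi => by
    rw [natDegree_X_pow]; exact (Finset.mem_range.1 hi).le

theorem geom_two_mul (N : ℕ) : geom (2 * N) = geom N * (1 + X ^ N) := by
  rw [geom, two_mul, Finset.sum_range_add, mul_add, mul_one, geom, Finset.sum_mul]
  simp only [pow_add, mul_comm]

/-- the averaging polynomial -/
noncomputable def w (N : ℕ) : ℝ[X] := C (N : ℝ)⁻¹ * geom N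

/-- `(1 - w N) / (N (1 - X))` -/
noncomputable def pp (N : ℕ) : ℝ[X] := C (N : ℝ)⁻¹ * (C (N : ℝ)⁻¹ * ∑ j ∈ range N, geom j)

noncomputable def mu (N : ℕ) : ℝ[X] := C (1 / 2) * (1 + X ^ N)

noncomputable def nu (N : ℕ) : ℝ[X] := C (1 / 2) * (1 - X ^ N)

noncomputable def S5 (x : ℝ[X]) : ℝ[X] := 1 + x + x ^ 2 + x ^ 3 + x ^ 4

variable {N : ℕ}

theorem C_inv_mul (hN : N ≠ 0) : (C (N : ℝ)⁻¹ : ℝ[X]) * C (N : ℝ) = 1 := by
  rw [← C_mul, inv_mul_cancel₀ (by exact_mod_cast hN), C_1]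

theorem half_mul : (C (1 / 2) : ℝ[X]) * 2 = 1 := by
  rw [show (2 : ℝ[X]) = C 2 from rfl, ← C_mul]; norm_num

theorem pp_mul (hN : N ≠ 0) : (1 - X) * pp N = C (N : ℝ)⁻¹ * (1 - w N) := by
  have h : (1 - X) * ∑ j ∈ range N, geom j = C (N : ℝ) - geom N := by
    rw [Finset.mul_sum]
    simp only [geom_mul, Finset.sum_sub_distrib]
    simp [geom]
  have h2 := C_inv_mul hN
  unfold pp w
  linear_combination (C (N : ℝ)⁻¹ * C (N : ℝ)⁻¹) * h + C (N : ℝ)⁻¹ * h2

theorem w_two_mul : w (2 * N) = w N * mu N := by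
  unfold w mu
  rw [geom_two_mul]
  push_cast
  rw [mul_inv, C_mul, one_div]
  ring

theorem op_w (hN : N ≠ 0) : Op (w N) 1 := by
  have := (op_C' (a := (N : ℝ)⁻¹) (by positivity)).mul (op_geom N)
  rwa [inv_mul_cancel₀ (by exact_mod_cast hN)] at this

theorem op_mu : Op (mu N) 1 := by
  have := (op_C' (a := 1 / 2) (by norm_num)).mul (op_one.add (op_X_pow N))
  exact this.mono (by norm_num)

theorem op_S5 (h : Op p 1) : Op (S5 p) 5 :=
  ((((op_one.add h).add (h.pow 2)).add (h.pow 3)).add (h.pow 4)).mono (by norm_num)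

theorem op_pp (hN : N ≠ 0) : Op (pp N) 1 := by
  have h0 : (N : ℝ) ≠ 0 := by exact_mod_cast hN
  have h1 : Op (∑ j ∈ range N, geom j) ((range N).card * N) :=
    Op.sum _ fun j hj => (op_geom j).mono (by exact_mod_cast (Finset.mem_range.1 hj).le)
  have h2 := op_C' (a := (N : ℝ)⁻¹) (by positivity)
  refine (h2.mul (h2.mul h1)).mono (le_of_eq ?_)
  rw [Finset.card_range]; field_simp

theorem li_pp (hN : N ≠ 0) : Li (pp N) (N : ℝ)⁻¹ := by
  have h0 : (N : ℝ) ≠ 0 := by exact_mod_cast hN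
  have h1 : Li (∑ j ∈ range N, geom j) ((range N).card * 1) := Li.sum _ fun j _ => li_geom j
  have h2 := op_C' (a := (N : ℝ)⁻¹) (by positivity)
  refine (h2 _ _ (h2 _ _ h1)).mono (le_of_eq ?_)
  rw [Finset.card_range]; field_simp

theorem op_D_pp (hN : N ≠ 0) : Op ((1 - X) * pp N) (2 * (N : ℝ)⁻¹) := by
  rw [pp_mul hN]
  exact ((op_C' (a := (N : ℝ)⁻¹) (by positivity)).mul (op_one.sub (op_w hN))).mono
    (le_of_eq (by ring))

theorem deg_mul {m n : ℕ} (h : p.natDegree ≤ m) (h' : q.natDegree ≤ n) :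
    (p * q).natDegree ≤ m + n := natDegree_mul_le.trans (add_le_add h h')

theorem deg_pow {m : ℕ} (h : p.natDegree ≤ m) (n : ℕ) : (p ^ n).natDegree ≤ n * m :=
  natDegree_pow_le.trans (Nat.mul_le_mul_left n h)

theorem deg_w : (w N).natDegree ≤ N := (natDegree_C_mul_le _ _).trans (deg_geom N)

theorem deg_pp : (pp N).natDegree ≤ N :=
  (natDegree_C_mul_le _ _).trans ((natDegree_C_mul_le _ _).trans
    (natDegree_sum_le_of_forall_le _ _ fun j hj =>
      (deg_geom j).trans (Finset.mem_range.1 hj).le))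

theorem deg_mu : (mu N).natDegree ≤ N :=
  (natDegree_C_mul_le _ _).trans (natDegree_add_le_of_degree_le (by simp) (by simp))

theorem deg_S5 {m : ℕ} (h : p.natDegree ≤ m) : (S5 p).natDegree ≤ 4 * m := by
  unfold S5
  refine natDegree_add_le_of_degree_le (natDegree_add_le_of_degree_le
    (natDegree_add_le_of_degree_le (natDegree_add_le_of_degree_le (by simp) ?_) ?_) ?_) ?_
  · omega
  · exact (deg_pow h 2).trans (by omega)
  · exact (deg_pow h 3).trans (by omega)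
  · exact deg_pow h 4

/-- `1 - w^5` -/
noncomputable def AA (N : ℕ) : ℝ[X] := 1 - w N ^ 5

theorem op_AA (hN : N ≠ 0) : Op (AA N) 2 := (op_one.sub ((op_w hN).pow 5)).mono (by norm_num)

theorem deg_AA : (AA N).natDegree ≤ 5 * N :=
  (natDegree_sub_le_of_le (by simp : (1 : ℝ[X]).natDegree ≤ 0) (deg_pow deg_w 5)).trans (by simp)

theorem eval_AA (hN : N ≠ 0) : (AA N).eval 1 = 0 := by
  have h0 : (N : ℝ) ≠ 0 := by exact_mod_cast hN
  simp [AA, w, geom, eval_finsetSum, h0]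

/-- `AA N / (N (1 - X))` -/
noncomputable def PP (N : ℕ) : ℝ[X] := S5 (w N) * pp N

theorem AA_eq (hN : N ≠ 0) : AA N = C (N : ℝ) * (1 - X) * PP N := by
  have h1 := pp_mul hN
  have h2 := C_inv_mul hN
  unfold AA PP S5
  linear_combination (-(C (N : ℝ)) * (1 + w N + w N ^ 2 + w N ^ 3 + w N ^ 4)) * h1
    - (1 - w N ^ 5) * h2

/-- the size conditions on the factors `P`, `P'` -/
structure Good (N : ℕ) (P : ℝ[X]) : Prop where
  op : Op P 20
  li : Li P (20 * (N : ℝ)⁻¹)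
  opD : Op ((1 - X) * P) (20 * (N : ℝ)⁻¹)
  deg : P.natDegree ≤ 10 * N

theorem good_aux (hN : N ≠ 0) (ha : 0 ≤ a) :
    Op (C a * PP N) (a * 5) ∧ Li (C a * PP N) (a * 5 * (N : ℝ)⁻¹) ∧
      Op ((1 - X) * (C a * PP N)) (a * 10 * (N : ℝ)⁻¹) ∧ (C a * PP N).natDegree ≤ 5 * N := by
  have h1 := op_C' ha
  have h2 := op_S5 (op_w hN)
  refine ⟨(h1.mul (h2.mul (op_pp hN))).mono (le_of_eq (by ring)),
    (h1 _ _ (h2 _ _ (li_pp hN))).mono (le_of_eq (by ring)), ?_, ?_⟩
  · have : (1 - X) * (C a * PP N) = C a * (S5 (w N) * ((1 - X) * pp N)) := by unfold PP; ring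
    rw [this]
    exact (h1.mul (h2.mul (op_D_pp hN))).mono (le_of_eq (by ring))
  · exact (natDegree_C_mul_le _ _).trans ((deg_mul (deg_S5 deg_w) deg_pp).trans (by omega))

theorem good1 (hN : N ≠ 0) : Good N (C 2 * PP N) := by
  obtain ⟨h1, h2, h3, h4⟩ := good_aux (a := 2) hN (by norm_num)
  have : 0 ≤ (N : ℝ)⁻¹ := by positivity
  exact ⟨h1.mono (by norm_num), h2.mono (by nlinarith), h3.mono (by nlinarith),
    h4.trans (by omega)⟩

theorem good2 (hN : N ≠ 0) : Good N (C 4 * PP (2 * N)) := by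
  obtain ⟨h1, h2, h3, h4⟩ := good_aux (a := 4) (N := 2 * N) (by omega) (by norm_num)
  have : 0 ≤ (N : ℝ)⁻¹ := by positivity
  have e : ((2 * N : ℕ) : ℝ)⁻¹ = 2⁻¹ * (N : ℝ)⁻¹ := by push_cast; rw [mul_inv]
  rw [e] at h2 h3
  exact ⟨h1.mono (by norm_num), h2.mono (by nlinarith), h3.mono (by nlinarith),
    h4.trans (by omega)⟩

/-- the size conditions on the kernels -/
structure Ker (N : ℕ) (c : ℝ) (e : ℝ[X]) : Prop where
  li : Li e (c * (N : ℝ)⁻¹)
  liD : Li ((1 - X) * e) (c * (N : ℝ)⁻¹ * (N : ℝ)⁻¹)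
  deg : e.natDegree ≤ 64 * N
  ev : e.eval 1 = 0

theorem Ker.add (h : Ker N a p) (h' : Ker N b q) : Ker N (a + b) (p + q) :=
  ⟨(h.li.add h'.li).mono (le_of_eq (by ring)),
    by rw [mul_add]; exact (h.liD.add h'.liD).mono (le_of_eq (by ring)),
    natDegree_add_le_of_degree_le h.deg h'.deg, by rw [eval_add, h.ev, h'.ev, add_zero]⟩

theorem ker_term {P Q A : ℝ[X]} (hP : Good N P) (hQ : Good N Q) (hA : Op A 2)
    (hd : A.natDegree ≤ 10 * N) (he : A.eval 1 = 0) : Ker N 4000 (S5 (mu N) * (P * Q * A)) := by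
  have hS := op_S5 (op_mu (N := N))
  refine ⟨?_, ?_, ?_, by simp [he]⟩
  · have : S5 (mu N) * (P * Q * A) = S5 (mu N) * P * A * Q := by ring
    rw [this]
    exact (((hS.mul hP.op).mul hA) _ _ hQ.li).mono (le_of_eq (by ring))
  · have : (1 - X) * (S5 (mu N) * (P * Q * A)) = S5 (mu N) * ((1 - X) * P) * A * Q := by ring
    rw [this]
    exact (((hS.mul hP.opD).mul hA) _ _ hQ.li).mono (le_of_eq (by ring))
  · exact (deg_mul (deg_S5 deg_mu) (deg_mul (deg_mul hP.deg hQ.deg) hd)).trans (by omega)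

/-- the Calderón kernel -/
noncomputable def eta (N : ℕ) : ℝ[X] :=
  S5 (mu N) * (C 2 * PP N * (C 2 * PP N) * AA N) +
    S5 (mu N) * (C 2 * PP N * (C 2 * PP N) * AA (2 * N)) +
    S5 (mu N) * (C 2 * PP N * (C 4 * PP (2 * N)) * AA (2 * N)) +
    S5 (mu N) * (C 4 * PP (2 * N) * (C 4 * PP (2 * N)) * AA (2 * N))

theorem ker_eta (hN : N ≠ 0) : Ker N 16000 (eta N) := by
  have h2 : 2 * N ≠ 0 := by omega
  have d1 : (AA N).natDegree ≤ 10 * N := deg_AA.trans (by omega)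
  have d2 : (AA (2 * N)).natDegree ≤ 10 * N := deg_AA.trans (by omega)
  have := (((ker_term (good1 hN) (good1 hN) (op_AA hN) d1 (eval_AA hN)).add
    (ker_term (good1 hN) (good1 hN) (op_AA h2) d2 (eval_AA h2))).add
    (ker_term (good1 hN) (good2 hN) (op_AA h2) d2 (eval_AA h2))).add
    (ker_term (good2 hN) (good2 hN) (op_AA h2) d2 (eval_AA h2))
  norm_num at this
  exact this

theorem ring_aux {R : Type*} [CommRing R] {w ν E P P' A B S : R} (hA : A = E * P)
    (hB : B = E * P') (hν : ν = E * w) (hBA : B - A = w ^ 5 * ν * S) :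
    B ^ 4 - A ^ 4 = (S * (P * P * A) + S * (P * P * B) + S * (P * P' * B) + S * (P' * P' * B)) *
      ((w * ν) * ((w * ν) * (w * ν))) := by
  have : B ^ 4 - A ^ 4 = (B - A) * (A ^ 3 + A ^ 2 * B + A * B ^ 2 + B ^ 3) := by ring
  rw [this, hBA]
  subst hA hB hν
  ring

theorem eta_spec (hN : N ≠ 0) :
    AA (2 * N) ^ 4 - AA N ^ 4 = eta N * ((w N * nu N) * ((w N * nu N) * (w N * nu N))) := by
  have hh := half_mul
  have h2 : (C 2 : ℝ[X]) = 2 := rfl
  have h4 : (C 4 : ℝ[X]) = 4 := rfl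
  refine ring_aux (E := C (1 / 2) * C (N : ℝ) * (1 - X)) ?_ ?_ ?_ ?_
  · rw [AA_eq hN, h2]
    linear_combination (-(C (N : ℝ) * (1 - X) * PP N)) * hh
  · rw [AA_eq (by omega : 2 * N ≠ 0), h4]
    push_cast
    rw [C_mul, h2]
    linear_combination (-(2 * C (N : ℝ) * (1 - X) * PP (2 * N))) * hh
  · have h1 := geom_mul N
    have h3 := C_inv_mul hN
    unfold nu w
    linear_combination (-(C (1 / 2))) * h1 - C (1 / 2) * (1 - X) * geom N * h3
  · have : nu N = 1 - mu N := by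
      unfold nu mu
      linear_combination hh
    unfold AA
    rw [w_two_mul, this]
    unfold S5
    ring

theorem AA_one : AA 1 = 0 := by simp [AA, w, geom]

theorem telescope (K : ℕ) : AA (2 ^ K) ^ 4 = ∑ k ∈ range K,
    eta (2 ^ k) * ((w (2 ^ k) * nu (2 ^ k)) * ((w (2 ^ k) * nu (2 ^ k)) *
      (w (2 ^ k) * nu (2 ^ k)))) := by
  induction K with
  | zero => simp [AA_one]
  | succ K ih =>
    rw [Finset.sum_range_succ, ← ih, ← eta_spec (by positivity), pow_succ' 2 K]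
    ring

section act
variable {G : Type*} [CommRing G]

/-- the shift -/
def T (G : Type*) [CommRing G] : Module.End ℝ (G → ℝ) where
  toFun Φ y := Φ (y + 1)
  map_add' _ _ := rfl
  map_smul' _ _ := rfl

theorem T_pow (i : ℕ) (Φ : G → ℝ) (y : G) : (T G ^ i) Φ y = Φ (y + i) := by
  induction i generalizing y with
  | zero => simp
  | succ i ih =>
    rw [pow_succ', Module.End.mul_apply]
    show (T G ^ i) Φ (y + 1) = _
    rw [ih]
    push_cast
    congr 1
    ring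

theorem act_apply {n : ℕ} (h : p.natDegree < n) (Φ : G → ℝ) (y : G) :
    aeval (T G) p Φ y = ∑ i ∈ range n, p.coeff i * Φ (y + i) := by
  rw [aeval_eq_sum_range' h, LinearMap.sum_apply, Finset.sum_apply]
  simp [T_pow]

theorem act_w (k : ℕ) (Φ : G → ℝ) : aeval (T G) (w (2 ^ k)) Φ = avg k Φ := by
  funext y
  simp only [w, geom, map_mul, map_sum, map_pow, aeval_X, aeval_C, avg, Module.End.mul_apply,
    Module.algebraMap_end_apply, LinearMap.sum_apply, Pi.smul_apply, Finset.sum_apply, T_pow,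
    smul_eq_mul, ← Finset.mul_sum]
  push_cast
  ring

theorem act_h (k : ℕ) (Φ : G → ℝ) : aeval (T G) (w (2 ^ k) * nu (2 ^ k)) Φ = haar k Φ := by
  funext y
  rw [mul_comm, map_mul, Module.End.mul_apply, act_w]
  simp only [nu, map_mul, map_sub, map_one, map_pow, aeval_X, aeval_C, haar, Module.End.mul_apply,
    Module.algebraMap_end_apply, LinearMap.sub_apply, Pi.smul_apply, Pi.sub_apply, T_pow,
    smul_eq_mul, Module.End.one_apply]
  push_cast
  ring

end act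

theorem avg_const (K : ℕ) (Φ : ZMod (2 ^ K) → ℝ) (y : ZMod (2 ^ K)) :
    avg K Φ y = (∑ z, Φ z) / 2 ^ K := by
  unfold avg
  congr 1
  refine Finset.sum_nbij' (fun j => y + (j : ZMod (2 ^ K))) (fun z => (z - y).val) ?_ ?_ ?_ ?_ ?_
  · intro j _; simp
  · intro z _; simpa using ZMod.val_lt _
  · intro j hj
    have hj' : j < 2 ^ K := by simpa using hj
    simp [ZMod.val_cast_of_lt hj']
  · intro z _; simp
  · intro j _; rfl

theorem sum_Icc_int (n : ℕ) (f : ℤ → ℝ) :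
    ∑ x ∈ Icc (0 : ℤ) n, f x = ∑ i ∈ range (n + 1), f i := by
  refine Finset.sum_nbij' (fun x => x.toNat) (fun i => (i : ℤ)) ?_ ?_ ?_ ?_ ?_
  · intro x hx
    simp only [Finset.mem_Icc, Finset.mem_range] at hx ⊢
    omega
  · intro x hx
    simp only [Finset.mem_Icc, Finset.mem_range] at hx ⊢
    omega
  · intro x hx
    simp only [Finset.mem_Icc] at hx
    omega
  · intro i _; simp
  · intro x hx
    simp only [Finset.mem_Icc] at hx
    rw [Int.toNat_of_nonneg hx.1]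

/-- the kernel as a function on the integers -/
noncomputable def etaZ (k : ℕ) (x : ℤ) : ℝ := if 0 ≤ x then (eta (2 ^ k)).coeff x.toNat else 0

theorem etaZ_nat (k i : ℕ) : etaZ k i = (eta (2 ^ k)).coeff i := by simp [etaZ]

theorem etaOK : EtaOK 16000 etaZ := by
  have hk : ∀ k, Ker (2 ^ k) 16000 (eta (2 ^ k)) := fun k => ker_eta (by positivity)
  refine ⟨by norm_num, ?_, ?_, ?_, ?_⟩
  · intro k x hx
    unfold etaZ at hx
    split_ifs at hx with h
    · refine ⟨h, ?_⟩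
      have h1 := (le_natDegree_of_ne_zero hx).trans (hk k).deg
      have h2 : ((x.toNat : ℕ) : ℤ) ≤ ((64 * 2 ^ k : ℕ) : ℤ) := by exact_mod_cast h1
      rw [Int.toNat_of_nonneg h] at h2
      exact_mod_cast h2
    · exact absurd rfl hx
  · intro k x
    unfold etaZ
    split_ifs with h
    · refine ((hk k).li _).trans (le_of_eq ?_)
      push_cast; ring
    · rw [abs_zero]; positivity
  · intro k x
    have e : (16000 : ℝ) * ((2 ^ k : ℕ) : ℝ)⁻¹ * ((2 ^ k : ℕ) : ℝ)⁻¹ = 16000 / 4 ^ k := by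
      push_cast
      rw [show (4 : ℝ) = 2 * 2 by norm_num, mul_pow]
      field_simp
    have hD := (hk k).liD
    rw [e, sub_mul, one_mul] at hD
    rcases lt_trichotomy x (-1) with h | rfl | h
    · have h1 : ¬ 0 ≤ x + 1 := by omega
      have h2 : ¬ 0 ≤ x := by omega
      simp only [etaZ, if_neg h1, if_neg h2, sub_zero, abs_zero]
      positivity
    · simpa [etaZ] using hD 0
    · obtain ⟨i, rfl⟩ := Int.eq_ofNat_of_zero_le (by omega : 0 ≤ x)
      have := hD (i + 1)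
      rw [coeff_sub, coeff_X_mul] at this
      rw [show (i : ℤ) + 1 = ((i + 1 : ℕ) : ℤ) by push_cast; rfl, etaZ_nat, etaZ_nat]
      exact this
  · intro k
    rw [show (64 * 2 ^ k : ℤ) = ((64 * 2 ^ k : ℕ) : ℤ) by push_cast; rfl, sum_Icc_int]
    have := (hk k).ev
    rw [eval_eq_sum_range' (Nat.lt_succ_of_le (hk k).deg)] at this
    simpa [etaZ_nat] using this

end Calderon

open Calderon Polynomial in
/-- Work in `ℝ[z]`; a polynomial `p` acts on `Φ : G → ℝ` by `(p • Φ) y = ∑_i p_i Φ (y + i)` (a ring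
homomorphism, `Polynomial.aeval` of the shift).  Let `N = 2^k`, `Z = z^N`,
`w_k = N⁻¹ (1 + z + … + z^{N-1})` (acts as `avg k`), `μ = (1+Z)/2`, `ν = (1-Z)/2 = (N/2) (1-z) w_k`;
`w_{k+1} = w_k μ`, `haar k` acts as `h_k = w_k ν`.  Put `ρ_k = w_k^5`, `a_k = 1 - (1-ρ_k)^4`, so `a_0 = 1` and
`a_K` is a multiple of `w_K`, which maps every `Φ` on `ZMod (2^K)` to a constant.  With `A = 1-ρ_k`,
`B = 1-ρ_{k+1}`: `a_k - a_{k+1} = B⁴ - A⁴ = (ρ_k - ρ_{k+1}) (A³ + A²B + AB² + B³)`,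
`ρ_k - ρ_{k+1} = w_k^5 ν (1+μ+μ²+μ³+μ⁴)`.  As `ρ(1) = 1`, `A = (N/2)(1-z) P`, `B = (N/2)(1-z) P'` where the
coefficients of `P, P'` are `2/N` times tail sums of the probability vectors `ρ_k, ρ_{k+1}` (so `0 ≤ P_i ≤ 2/N`,
degree `< 10 N`, `ℓ¹` norm `≤ 20`, `‖(1-z) P‖₁ ≤ 4/N`).  Hence `a_k - a_{k+1} = h_k³ η_k` with
`η_k = (1+μ+…+μ⁴) (P P A + P P B + P P' B + P' P' B)`, of degree `≤ 34 N`, `η_k(1) = 0`,
`‖η_k‖_∞ ≲ 1/N` and `‖(1-z) η_k‖_∞ ≲ 1/N²` by `‖f g‖_∞ ≤ ‖f‖₁ ‖g‖_∞`, `‖f g‖₁ ≤ ‖f‖₁ ‖g‖₁`.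
Take `η k x = coeff η_k x.toNat` for `x ≥ 0` and `0` for `x < 0`. -/
theorem calderon : ∃ (C : ℝ) (η : ℕ → ℤ → ℝ), EtaOK C η ∧
    ∀ (K : ℕ) (Φ : ZMod (2 ^ K) → ℝ), ∃ e : ℝ, ∀ y : ZMod (2 ^ K),
      Φ y = e + ∑ k ∈ range K, ∑ x ∈ Icc (0 : ℤ) (64 * 2 ^ k),
        η k x * haar k (haar k (haar k Φ)) (y + (x : ZMod (2 ^ K))) := by
  refine ⟨16000, etaZ, etaOK, fun K Φ => ?_⟩
  obtain ⟨r, hr⟩ : ∃ r : ℝ[X], 1 = w (2 ^ K) * r + AA (2 ^ K) ^ 4 :=
    ⟨w (2 ^ K) ^ 4 * (1 + AA (2 ^ K) + AA (2 ^ K) ^ 2 + AA (2 ^ K) ^ 3), by unfold AA; ring⟩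
  refine ⟨(∑ z, aeval (T (ZMod (2 ^ K))) r Φ z) / 2 ^ K, fun y => ?_⟩
  have h1 : Φ y = aeval (T (ZMod (2 ^ K))) (1 : ℝ[X]) Φ y := by simp
  rw [h1, hr, telescope, map_add, map_mul, LinearMap.add_apply, Pi.add_apply,
    Module.End.mul_apply, act_w, avg_const, map_sum, LinearMap.sum_apply, Finset.sum_apply]
  congr 1
  refine Finset.sum_congr rfl fun k _ => ?_
  rw [map_mul, map_mul _ (w (2 ^ k) * nu (2 ^ k)), map_mul _ (w (2 ^ k) * nu (2 ^ k)),
    Module.End.mul_apply, Module.End.mul_apply, Module.End.mul_apply, act_h, act_h, act_h,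
    act_apply (Nat.lt_succ_of_le (ker_eta (N := 2 ^ k) (by positivity)).deg),
    show (64 * 2 ^ k : ℤ) = ((64 * 2 ^ k : ℕ) : ℤ) by push_cast; rfl, sum_Icc_int]
  simp [etaZ_nat]

end Crest.Agent.R72
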