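import Mathlib

/-!
# R72 (triangular Hilbert transform, S0095-S0097): definitions

All matrices are real and square.  `psi T = tr T^{3/2}` is the Bellman potential.
-/

set_option autoImplicit false

namespace Crest.Agent.R72

open Matrix Finset
open scoped MatrixOrder ENNReal

section Mat
variable {ι : Type*} [Fintype ι] [DecidableEq ι]

/-- positive semidefinite square root -/
noncomputable def rt (T : Matrix ι ι ℝ) : Matrix ι ι ℝ := CFC.sqrt T

/-- `psi T = tr T^{3/2}` -/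
noncomputable def psi (T : Matrix ι ι ℝ) : ℝ := trace (rt T * rt T * rt T)

/-- midpoint Jensen gap of `psi` -/
noncomputable def gap (a a' : Matrix ι ι ℝ) : ℝ :=
  psi a / 2 + psi a' / 2 - psi ((1 / 2 : ℝ) • (a + a'))

/-- Bregman divergence of `psi` (the derivative of `psi` at `m` is `3/2 * rt m`) -/
noncomputable def breg (a m : Matrix ι ι ℝ) : ℝ :=
  psi a - psi m - 3 / 2 * trace (rt m * (a - m))

/-- `QB m E t`: the quadratic form `sup_Y 2 tr(E Y) - 2 tr(√m Y²)` is at most `t` -/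
def QB (m E : Matrix ι ι ℝ) (t : ℝ) : Prop :=
  ∀ Y : Matrix ι ι ℝ, Yᵀ = Y → 2 * trace (E * Y) - 2 * trace (rt m * Y * Y) ≤ t

/-- `W^{1/2}` as a diagonal matrix -/
noncomputable def dsq (W : ι → ℝ) : Matrix ι ι ℝ := diagonal fun i => √(W i)

/-- `W^{1/2} S W^{1/2}` -/
noncomputable def cj (W : ι → ℝ) (S : Matrix ι ι ℝ) : Matrix ι ι ℝ := dsq W * S * dsq W

/-- `Psi S W = psi (W^{1/2} S W^{1/2})` -/
noncomputable def Psi (S : Matrix ι ι ℝ) (W : ι → ℝ) : ℝ := psi (cj W S)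

/-- weighted Gram matrix `xᵀ W x` -/
def gram (x : Matrix ι ι ℝ) (W : ι → ℝ) : Matrix ι ι ℝ := xᵀ * diagonal W * x

/-- Jensen gap of `Psi S ·` at the two weights `P`, `M` -/
noncomputable def gapW (S : Matrix ι ι ℝ) (P M : ι → ℝ) : ℝ :=
  Psi S P / 2 + Psi S M / 2 - Psi S (fun i => (P i + M i) / 2)

/-- sum of the cubes of the entries -/
noncomputable def cub (x : Matrix ι ι ℝ) : ℝ := ∑ u, ∑ v, |x u v| ^ 3

end Mat

section Avg
variable {G : Type*} [CommRing G]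

/-- average of `g` over the window `p, p+1, …, p+2^k-1` -/
noncomputable def avg (k : ℕ) (g : G → ℝ) (p : G) : ℝ :=
  (∑ j ∈ range (2 ^ k), g (p + (j : G))) / 2 ^ k

/-- Haar difference of two adjacent window averages -/
noncomputable def haar (k : ℕ) (g : G → ℝ) (p : G) : ℝ :=
  (avg k g p - avg k g (p + 2 ^ k)) / 2

/-- `m²` dominates the uncentred window maximal function of `f²` -/
def IsMaj (f m : G → ℝ) : Prop :=
  (∀ z, 0 ≤ m z) ∧ ∀ (j i : ℕ) (z : G), i < 2 ^ j → avg j (fun t => f t ^ 2) (z - (i : G)) ≤ m z ^ 2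

end Avg

section Win
variable {G : Type*} [CommRing G] [Fintype G] [DecidableEq G]

/-- normalised window `2^{-k} ∑_{j<2^k} δ_{p+j}` -/
noncomputable def win (k : ℕ) (p : G) : G → ℝ :=
  fun x => (∑ j ∈ range (2 ^ k), if p + (j : G) = x then (1 : ℝ) else 0) / 2 ^ k

/-- Haar window -/
noncomputable def hw (k : ℕ) (p : G) : G → ℝ :=
  fun x => (win k p x - win k (p + 2 ^ k) x) / 2

/-- the plane potential: `S`-windows of scale `j`, `W`-window of scale `k`, on the plane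
`p₀ + p₁ + p₂ = c` -/
noncomputable def Fp (j k : ℕ) (x y : Matrix G G ℝ) (c : G) : ℝ :=
  ∑ p₀ : G, ∑ p₁ : G, Psi (gram x (win j p₀) + gram y (win j (c - p₀ - p₁))) (win k p₁)

/-- the pure potential of one kernel -/
noncomputable def pure (j k : ℕ) (x : Matrix G G ℝ) : ℝ :=
  ∑ p₀ : G, ∑ p₁ : G, Psi (gram x (win j p₀)) (win k p₁)

/-- the total `W`-splitting gap on the plane `p₀ + p₁ + p₂ = c` -/
noncomputable def Gap (k : ℕ) (x y : Matrix G G ℝ) (c : G) : ℝ :=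
  ∑ p₀ : G, ∑ p₁ : G, gapW (gram x (win (k + 2) p₀) + gram y (win (k + 2) (c - p₀ - p₁)))
    (win k p₁) (win k (p₁ + 2 ^ k))

/-- the local trilinear form at scale `k` and offset `o` -/
noncomputable def loc (k : ℕ) (a b c : Matrix G G ℝ) (o : G) : ℝ :=
  ∑ p₀ : G, ∑ p₁ : G,
    trace (diagonal (hw k p₀) * a * diagonal (hw k p₁) * b * diagonal (hw k (o - p₀ - p₁)) * c)

end Win

section Zeta

/-- the four size conditions on the Calderón kernels `η k` -/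
structure EtaOK (C : ℝ) (η : ℕ → ℤ → ℝ) : Prop where
  nonneg : 0 ≤ C
  supp : ∀ k x, η k x ≠ 0 → 0 ≤ x ∧ x ≤ 64 * 2 ^ k
  size : ∀ k x, |η k x| ≤ C / 2 ^ k
  lip : ∀ k x, |η k (x + 1) - η k x| ≤ C / 4 ^ k
  mean : ∀ k, ∑ x ∈ Icc (0 : ℤ) (64 * 2 ^ k), η k x = 0

/-- `η k` folded against the odd kernel `1/(τ+1/2)` -/
noncomputable def zeta (η : ℕ → ℤ → ℝ) (k : ℕ) (c : ℤ) (t : ℕ) : ℝ :=
  (η k (c - t) - η k (c + 1 + t)) / ((t : ℝ) + 1 / 2)

/-- partial sums of `zeta` -/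
noncomputable def Zs (η : ℕ → ℤ → ℝ) (k : ℕ) (c : ℤ) (s : ℕ) : ℝ :=
  ∑ t ∈ range s, zeta η k c t

/-- the offsets of level `l` at scale `k` -/
noncomputable def band (k l : ℕ) : Finset ℤ :=
  (Icc (-(2 : ℤ) ^ (k + l + 9)) (2 ^ (k + l + 9))).filter fun c => l = 0 ∨ 2 ^ (k + l + 8) < |c|

/-- reference radius of level `l` at scale `k` -/
def Tref (k l : ℕ) : ℕ := 2 ^ (k + l + 10)

end Zeta

section Disc

/-- the sampled annular transform, radii `e ≤ R` (integers), phase `γ` -/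
noncomputable def beta (γ : ℝ) (f g : ℤ → ℤ → ℂ) (e R : ℕ) (i j : ℤ) : ℂ :=
  ∑ t ∈ Ico e R, (f (i + t) j * g i (j + t) / (((t : ℝ) + γ : ℝ) : ℂ)
    + f (i - 1 - t) j * g i (j - 1 - t) / ((-1 - (t : ℝ) + γ : ℝ) : ℂ))

/-- the sampled disjoint-annulus count -/
noncomputable def discCount (n : ℕ) (γ : ℝ) (f g : ℤ → ℤ → ℂ) (i j : ℤ) : ℝ≥0∞ :=
  ⨆ (m : ℕ) (_ : m ≤ n) (e : Fin m → ℕ) (R : Fin m → ℕ) (_ : ∀ a, 1 ≤ e a ∧ e a < R a)
    (_ : ∀ a a', a ≠ a' → R a ≤ e a' ∨ R a' ≤ e a),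
    ∑ a, ‖beta γ f g (e a) (R a) i j‖ₑ

/-- discrete Haar sign on a block of length `2^(k+1)` -/
noncomputable def sg (k i : ℕ) : ℝ := if i < 2 ^ k then 1 else -1

/-- discrete dyadic local form on blocks of length `2^(k+1)` with indices `n₀, n₁, n₂` -/
noncomputable def dloc (k n₀ n₁ n₂ : ℕ) (a b c : ℕ → ℕ → ℝ) : ℝ :=
  (∑ i ∈ range (2 ^ (k + 1)), ∑ j ∈ range (2 ^ (k + 1)), ∑ l ∈ range (2 ^ (k + 1)),
    a (2 ^ (k + 1) * n₀ + i) (2 ^ (k + 1) * n₁ + j) * b (2 ^ (k + 1) * n₁ + j) (2 ^ (k + 1) * n₂ + l)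
      * c (2 ^ (k + 1) * n₂ + l) (2 ^ (k + 1) * n₀ + i) * (sg k i * sg k j * sg k l)) / 2 ^ (k + 1)

end Disc

end Crest.Agent.R72
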