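import Crest.Agent.R72.Defs

/-! # R72 task Zeta: size estimates for the folded kernels -/

set_option autoImplicit false

namespace Crest.Agent.R72

open Matrix Finset

theorem band_card_le (k l : ℕ) : ((band k l).card : ℝ) ≤ 2048 * 2 ^ (k + l) := by
  have h1 : (band k l).card ≤ (Icc (-(2 : ℤ) ^ (k + l + 9)) (2 ^ (k + l + 9))).card :=
    card_filter_le _ _
  have h2 : (((Icc (-(2 : ℤ) ^ (k + l + 9)) (2 ^ (k + l + 9))).card : ℕ) : ℤ) =
      2 * 2 ^ (k + l + 9) + 1 := by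
    rw [Int.card_Icc, Int.toNat_of_nonneg (by
      have : (0 : ℤ) < 2 ^ (k + l + 9) := by positivity
      linarith)]
    ring
  have h3 : ((band k l).card : ℤ) ≤ 2048 * 2 ^ (k + l) := by
    have h4 : (1 : ℤ) ≤ 2 ^ (k + l) := one_le_pow₀ (by norm_num)
    have h5 : ((band k l).card : ℤ) ≤ 2 * 2 ^ (k + l + 9) + 1 := by
      rw [← h2]; exact_mod_cast h1
    rw [pow_add] at h5
    norm_num at h5
    linarith
  exact_mod_cast h3

theorem le_band_card (k l : ℕ) : (2 : ℝ) ^ (k + l) ≤ (band k l).card := by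
  have h0 : (0 : ℤ) < 2 ^ (k + l) := by positivity
  have e8 : (2 : ℤ) ^ (k + l + 8) = 256 * 2 ^ (k + l) := by ring
  have e9 : (2 : ℤ) ^ (k + l + 9) = 512 * 2 ^ (k + l) := by ring
  have h1 : Ioc ((2 : ℤ) ^ (k + l + 8)) (2 ^ (k + l + 9)) ⊆ band k l := by
    intro c hc
    rw [mem_Ioc] at hc
    rw [band, mem_filter, mem_Icc]
    refine ⟨⟨by linarith [hc.1], hc.2⟩, Or.inr (lt_of_lt_of_le hc.1 (le_abs_self c))⟩
  have h2 := card_le_card h1
  rw [Int.card_Ioc, e8, e9] at h2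
  have h3 : (2 : ℤ) ^ (k + l) ≤ (band k l).card := by omega
  exact_mod_cast h3

theorem abs_le_of_mem_band {k l : ℕ} {c : ℤ} (h : c ∈ band k l) : |c| ≤ 2 ^ (k + (l + 9)) := by
  rw [band, mem_filter, mem_Icc] at h
  rw [← add_assoc]
  exact abs_le.2 h.1

/-- the bands of levels `≤ L` partition an interval -/
theorem sum_band (k L : ℕ) (g : ℤ → ℝ) :
    ∑ l ∈ range (L + 1), ∑ c ∈ band k l, g c =
      ∑ c ∈ Icc (-(2 : ℤ) ^ (k + L + 9)) (2 ^ (k + L + 9)), g c := by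
  induction L with
  | zero => simp [band]
  | succ L ih =>
    rw [sum_range_succ, ih,
      ← sum_filter_add_sum_filter_not (Icc (-(2 : ℤ) ^ (k + (L + 1) + 9)) (2 ^ (k + (L + 1) + 9)))
        (fun c => |c| ≤ 2 ^ (k + L + 9))]
    have h0 : (0 : ℤ) < 2 ^ (k + L + 9) := by positivity
    have h1 : (2 : ℤ) ^ (k + (L + 1) + 9) = 2 * 2 ^ (k + L + 9) := by ring
    have h2 : (2 : ℤ) ^ (k + (L + 1) + 8) = 2 ^ (k + L + 9) := by ring
    congr 2
    · ext c
      rw [mem_filter, mem_Icc, mem_Icc, abs_le, h1]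
      constructor
      · intro h
        exact ⟨⟨by linarith [h.1], by linarith [h.2]⟩, h⟩
      · exact fun h => h.2
    · ext c
      rw [band, mem_filter, mem_filter, h2, not_le]
      simp

namespace Zeta

variable {C : ℝ} {η : ℕ → ℤ → ℝ}

theorem lipN (hη : EtaOK C η) (k : ℕ) (x : ℤ) (m : ℕ) :
    |η k (x + m) - η k x| ≤ m * (C / 4 ^ k) := by
  induction m with
  | zero => simp
  | succ m ih =>
    have h := hη.lip k (x + m)
    have e : η k (x + ((m + 1 : ℕ) : ℤ)) - η k x =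
        (η k (x + m + 1) - η k (x + m)) + (η k (x + m) - η k x) := by
      push_cast
      rw [← add_assoc]
      ring
    rw [e]
    refine (abs_add_le _ _).trans ?_
    push_cast
    linarith

theorem zeta_le_sq (hη : EtaOK C η) (k : ℕ) (c : ℤ) (t : ℕ) :
    |zeta η k c t| ≤ 2 * C / (2 ^ k) ^ 2 := by
  have h := lipN hη k (c - t) (2 * t + 1)
  have e : c - t + ((2 * t + 1 : ℕ) : ℤ) = c + 1 + t := by push_cast; ring
  rw [e, abs_sub_comm] at h
  have ht : (0 : ℝ) < (t : ℝ) + 1 / 2 := by positivity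
  have e4 : ((2 : ℝ) ^ k) ^ 2 = 4 ^ k := by rw [← pow_mul, mul_comm, pow_mul]; norm_num
  rw [zeta, abs_div, abs_of_pos ht, div_le_iff₀ ht, e4]
  refine h.trans_eq ?_
  push_cast
  ring

/-- the numerator of `zeta` -/
def num (η : ℕ → ℤ → ℝ) (k : ℕ) (c : ℤ) (t : ℕ) : ℝ := η k (c - t) - η k (c + 1 + t)

theorem num_le (hη : EtaOK C η) (k : ℕ) (c : ℤ) (t : ℕ) : |num η k c t| ≤ 2 * (C / 2 ^ k) := by
  have h1 := hη.size k (c - t)
  have h2 := hη.size k (c + 1 + t)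
  refine (abs_sub _ _).trans ?_
  linarith

theorem num_supp (hη : EtaOK C η) {k : ℕ} {c : ℤ} {t : ℕ} (h : num η k c t ≠ 0) :
    |c| - (64 * 2 ^ k + 1) ≤ t ∧ (t : ℤ) ≤ |c| + (64 * 2 ^ k + 1) := by
  have ht : (0 : ℤ) ≤ t := Int.natCast_nonneg t
  have hN : (0 : ℤ) < 2 ^ k := by positivity
  by_cases h1 : η k (c - t) = 0
  · have h2 : η k (c + 1 + t) ≠ 0 := fun h2 => h (by rw [num, h1, h2, sub_zero])
    obtain ⟨h3, h4⟩ := hη.supp k _ h2
    rcases abs_cases c with h5 | h5 <;> constructor <;> linarith [h5.1, h5.2]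
  · obtain ⟨h3, h4⟩ := hη.supp k _ h1
    rcases abs_cases c with h5 | h5 <;> constructor <;> linarith [h5.1, h5.2]

theorem zeta_eq (η : ℕ → ℤ → ℝ) (k : ℕ) (c : ℤ) (t : ℕ) :
    zeta η k c t = num η k c t / ((t : ℝ) + 1 / 2) := rfl

theorem sum_eq_zero_of_subset (hη : EtaOK C η) (k : ℕ) (S : Finset ℤ)
    (hS : Icc (0 : ℤ) (64 * 2 ^ k) ⊆ S) : ∑ x ∈ S, η k x = 0 := by
  rw [← hη.mean k]
  symm
  refine sum_subset hS fun x _ hx => ?_
  by_contra h
  exact hx (mem_Icc.2 (hη.supp k x h))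

theorem sum_num (hη : EtaOK C η) {k : ℕ} {c : ℤ} (hc : 512 * 2 ^ k ≤ |c|) {s : ℕ}
    (hs : |c| + (64 * 2 ^ k + 1) < s) : ∑ t ∈ range s, num η k c t = 0 := by
  have hN : (0 : ℤ) < 2 ^ k := by positivity
  simp only [num]
  rw [sum_sub_distrib]
  rcases abs_cases c with h5 | h5
  · rw [h5.1] at hc hs
    have h1 : ∑ t ∈ range s, η k (c - t) = 0 := by
      rw [← sum_image (s := range s) (g := fun t : ℕ => c - (t : ℤ)) (f := η k)
        (fun a _ b _ h => by simpa using h)]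
      refine sum_eq_zero_of_subset hη k _ fun x hx => ?_
      rw [mem_Icc] at hx
      refine mem_image.2 ⟨(c - x).toNat, mem_range.2 (by omega), by omega⟩
    have h2 : ∑ t ∈ range s, η k (c + 1 + t) = 0 := by
      refine sum_eq_zero fun t _ => ?_
      by_contra h
      have := (hη.supp k _ h).2
      have ht : (0 : ℤ) ≤ t := Int.natCast_nonneg t
      linarith
    rw [h1, h2, sub_zero]
  · rw [h5.1] at hc hs
    have h1 : ∑ t ∈ range s, η k (c - t) = 0 := by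
      refine sum_eq_zero fun t _ => ?_
      by_contra h
      have := (hη.supp k _ h).1
      have ht : (0 : ℤ) ≤ t := Int.natCast_nonneg t
      linarith
    have h2 : ∑ t ∈ range s, η k (c + 1 + t) = 0 := by
      rw [← sum_image (s := range s) (g := fun t : ℕ => c + 1 + (t : ℤ)) (f := η k)
        (fun a _ b _ h => by simpa using h)]
      refine sum_eq_zero_of_subset hη k _ fun x hx => ?_
      rw [mem_Icc] at hx
      refine mem_image.2 ⟨(x - c - 1).toNat, mem_range.2 (by omega), by omega⟩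
    rw [h1, h2, sub_zero]

/-- a sum of terms supported near `|c|` -/
theorem sum_near (k : ℕ) (c : ℤ) (s : ℕ) (f : ℕ → ℝ) (M : ℝ) (hM : 0 ≤ M)
    (h0 : ∀ t : ℕ, f t ≠ 0 → |c| - (64 * 2 ^ k + 1) ≤ t ∧ (t : ℤ) ≤ |c| + (64 * 2 ^ k + 1))
    (h1 : ∀ t : ℕ, |c| - (64 * 2 ^ k + 1) ≤ t → (t : ℤ) ≤ |c| + (64 * 2 ^ k + 1) → f t ≤ M) :
    ∑ t ∈ range s, f t ≤ 131 * 2 ^ k * M := by
  set S := (range s).filter
    fun t : ℕ => |c| - (64 * 2 ^ k + 1) ≤ t ∧ (t : ℤ) ≤ |c| + (64 * 2 ^ k + 1) with hS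
  have e : ∑ t ∈ range s, f t = ∑ t ∈ S, f t :=
    (sum_filter_of_ne fun t _ h => h0 t h).symm
  have hcard : (S.card : ℝ) ≤ 131 * 2 ^ k := by
    have h2 : S.card ≤ (Icc (|c| - (64 * 2 ^ k + 1)) (|c| + (64 * 2 ^ k + 1))).card := by
      refine card_le_card_of_injOn (fun t : ℕ => (t : ℤ)) (fun t ht => ?_)
        (fun a _ b _ h => by simpa using h)
      exact mem_coe.2 (mem_Icc.2 (mem_filter.1 (mem_coe.1 ht)).2)
    have hN : (1 : ℤ) ≤ 2 ^ k := one_le_pow₀ (by norm_num)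
    have h3 : (S.card : ℤ) ≤ 131 * 2 ^ k := by
      rw [Int.card_Icc] at h2
      omega
    exact_mod_cast h3
  rw [e]
  refine (sum_le_card_nsmul S f M fun t ht => ?_).trans ?_
  · exact h1 t (mem_filter.1 ht).2.1 (mem_filter.1 ht).2.2
  · rw [nsmul_eq_mul]
    exact mul_le_mul_of_nonneg_right hcard hM

theorem near_real {k : ℕ} {c : ℤ} (hc : 512 * 2 ^ k ≤ |c|) {t : ℕ}
    (h1 : |c| - (64 * 2 ^ k + 1) ≤ t) (h2 : (t : ℤ) ≤ |c| + (64 * 2 ^ k + 1)) :
    (512 * 2 ^ k : ℝ) ≤ |(c : ℝ)| ∧ |(c : ℝ)| / 2 ≤ (t : ℝ) + 1 / 2 ∧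
      |(|(c : ℝ)| - t)| ≤ 65 * 2 ^ k := by
  have hN : (1 : ℝ) ≤ 2 ^ k := one_le_pow₀ (by norm_num)
  have hc' : (512 * 2 ^ k : ℝ) ≤ |(c : ℝ)| := by exact_mod_cast hc
  have h1' : |(c : ℝ)| - (64 * 2 ^ k + 1) ≤ t := by exact_mod_cast h1
  have h2' : (t : ℝ) ≤ |(c : ℝ)| + (64 * 2 ^ k + 1) := by exact_mod_cast h2
  refine ⟨hc', by linarith, abs_le.2 ⟨by linarith, by linarith⟩⟩

theorem sum_abs_zeta (hη : EtaOK C η) {k : ℕ} {c : ℤ} (hc : 512 * 2 ^ k ≤ |c|) (s : ℕ) :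
    ∑ t ∈ range s, |zeta η k c t| ≤ 524 * C / |(c : ℝ)| := by
  have hC := hη.nonneg
  have hc' : (512 * 2 ^ k : ℝ) ≤ |(c : ℝ)| := by exact_mod_cast hc
  have hc0 : (0 : ℝ) < |(c : ℝ)| := lt_of_lt_of_le (by positivity) hc'
  refine (sum_near k c s _ (2 * (C / 2 ^ k) / (|(c : ℝ)| / 2)) (by positivity)
    (fun t ht => num_supp hη fun h => ht (by rw [zeta_eq, h, zero_div, abs_zero]))
    fun t h1 h2 => ?_).trans_eq ?_
  · obtain ⟨-, h3, -⟩ := near_real hc h1 h2
    rw [zeta_eq, abs_div, abs_of_pos (by positivity : (0 : ℝ) < (t : ℝ) + 1 / 2)]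
    exact div_le_div₀ (by positivity) (num_le hη k c t) (by positivity) h3
  · field_simp
    ring

theorem abs_Zs_full (hη : EtaOK C η) {k : ℕ} {c : ℤ} (hc : 512 * 2 ^ k ≤ |c|) {s : ℕ}
    (hs : |c| + (64 * 2 ^ k + 1) < s) :
    |Zs η k c s| ≤ 34060 * C * 2 ^ k / |(c : ℝ)| ^ 2 := by
  have hC := hη.nonneg
  have hc' : (512 * 2 ^ k : ℝ) ≤ |(c : ℝ)| := by exact_mod_cast hc
  have hc0 : (0 : ℝ) < |(c : ℝ)| := lt_of_lt_of_le (by positivity) hc'
  have e : Zs η k c s =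
      ∑ t ∈ range s, num η k c t * (1 / ((t : ℝ) + 1 / 2) - 1 / (|(c : ℝ)| + 1 / 2)) := by
    simp only [mul_sub, sum_sub_distrib, ← sum_mul, sum_num hη hc hs, zero_mul, sub_zero, Zs,
      zeta_eq]
    exact sum_congr rfl fun t _ => by ring
  rw [e]
  refine (abs_sum_le_sum_abs _ _).trans ?_
  refine (sum_near k c s _ (2 * (C / 2 ^ k) * (65 * 2 ^ k / (|(c : ℝ)| / 2 * |(c : ℝ)|)))
    (by positivity)
    (fun t ht => num_supp hη fun h => ht (by rw [h, zero_mul, abs_zero]))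
    fun t h1 h2 => ?_).trans_eq ?_
  · obtain ⟨-, h3, h4⟩ := near_real hc h1 h2
    rw [abs_mul]
    refine mul_le_mul (num_le hη k c t) ?_ (abs_nonneg _) (by positivity)
    have ht : (0 : ℝ) < (t : ℝ) + 1 / 2 := by positivity
    have e2 : 1 / ((t : ℝ) + 1 / 2) - 1 / (|(c : ℝ)| + 1 / 2) =
        (|(c : ℝ)| - t) / (((t : ℝ) + 1 / 2) * (|(c : ℝ)| + 1 / 2)) := by
      field_simp
      ring
    rw [e2, abs_div, abs_of_pos (by positivity : 0 < ((t : ℝ) + 1 / 2) * (|(c : ℝ)| + 1 / 2))]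
    exact div_le_div₀ (by positivity) h4 (by positivity)
      (mul_le_mul h3 (by linarith) hc0.le ht.le)
  · field_simp
    ring

theorem band_lower {k l : ℕ} (hl : l ≠ 0) {c : ℤ} (hc : c ∈ band k l) :
    256 * 2 ^ (k + l) < |c| ∧ 512 * 2 ^ k ≤ |c| := by
  rw [band, mem_filter] at hc
  have h1 : (2 : ℤ) ^ (k + l + 8) < |c| := hc.2.resolve_left hl
  rw [pow_add _ _ 8] at h1
  have h2 : (2 : ℤ) * 2 ^ k ≤ 2 ^ (k + l) := by
    rw [mul_comm, ← pow_succ]
    exact pow_le_pow_right₀ (by norm_num) (by omega)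
  constructor <;> linarith

theorem two_pow_le {k l : ℕ} (hl : l ≠ 0) : (2 : ℤ) * 2 ^ k ≤ 2 ^ (k + l) := by
  rw [mul_comm, ← pow_succ]
  exact pow_le_pow_right₀ (by norm_num) (by omega)

theorem sum_scales (s l K : ℕ) :
    ∑ k ∈ range K, (if s < Tref k l then ((s : ℝ) + 1) / 2 ^ (k + l) else 0) ≤ 2048 := by
  have key : ∑ k ∈ range K, (if s < Tref k l then ((s : ℝ) + 1) / 2 ^ (k + l) else 0) ≤
      2048 - 2 * min 1024 (((s : ℝ) + 1) / 2 ^ (K + l)) := by
    induction K with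
    | zero =>
      have := min_le_left (1024 : ℝ) (((s : ℝ) + 1) / 2 ^ (0 + l))
      simp only [range_zero, sum_empty]
      linarith
    | succ K ih =>
      rw [sum_range_succ]
      have hp : (0 : ℝ) < 2 ^ (K + l) := by positivity
      have e : ((s : ℝ) + 1) / 2 ^ (K + 1 + l) = ((s : ℝ) + 1) / 2 ^ (K + l) / 2 := by
        rw [show K + 1 + l = K + l + 1 by ring, pow_succ, div_div]
      split_ifs with h
      · have h1 : ((s : ℝ) + 1) / 2 ^ (K + l) ≤ 1024 := by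
          rw [div_le_iff₀ hp]
          have : s + 1 ≤ 2 ^ (K + l + 10) := h
          have h2 : ((s : ℝ) + 1) ≤ 2 ^ (K + l + 10) := by exact_mod_cast this
          rw [pow_add _ _ 10] at h2
          linarith
        rw [min_eq_right h1] at ih
        have := min_le_right (1024 : ℝ) (((s : ℝ) + 1) / 2 ^ (K + 1 + l))
        linarith
      · have h1 : 1024 ≤ ((s : ℝ) + 1) / 2 ^ (K + l) := by
          rw [le_div_iff₀ hp]
          have : 2 ^ (K + l + 10) ≤ s := not_lt.1 h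
          have h2 : (2 : ℝ) ^ (K + l + 10) ≤ s := by exact_mod_cast this
          rw [pow_add _ _ 10] at h2
          linarith
        rw [min_eq_left h1] at ih
        have := min_le_left (1024 : ℝ) (((s : ℝ) + 1) / 2 ^ (K + 1 + l))
        linarith
  have : (0 : ℝ) ≤ min 1024 (((s : ℝ) + 1) / 2 ^ (K + l)) := le_min (by norm_num) (by positivity)
  linarith

theorem Z2 (hη : EtaOK C η) (k l : ℕ) (c : ℤ) (hc : c ∈ band k l) :
    ∑ t ∈ range (Tref k l), |zeta η k c t| ≤ 2048 * C / 2 ^ (k + l) := by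
  have hC := hη.nonneg
  rcases eq_or_ne l 0 with rfl | hl
  · refine (sum_le_card_nsmul _ _ _ fun t _ => zeta_le_sq hη k c t).trans_eq ?_
    rw [card_range, nsmul_eq_mul, Tref]
    push_cast
    field_simp
    ring
  · obtain ⟨h1, h2⟩ := band_lower hl hc
    have h3 : (256 * 2 ^ (k + l) : ℝ) ≤ |(c : ℝ)| := by exact_mod_cast h1.le
    refine (sum_abs_zeta hη h2 _).trans ?_
    refine (div_le_div_of_nonneg_left (by positivity) (by positivity) h3).trans ?_
    rw [div_le_div_iff₀ (by positivity) (by positivity)]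
    have : (0 : ℝ) ≤ C * 2 ^ (k + l) := by positivity
    nlinarith

theorem full_le (hη : EtaOK C η) {k l : ℕ} (hl : l ≠ 0) {c : ℤ} (hc : c ∈ band k l) {s : ℕ}
    (hs : |c| + (64 * 2 ^ k + 1) < s) : |Zs η k c s| ≤ C / (2 ^ (k + l) * 2 ^ l) := by
  have hC := hη.nonneg
  obtain ⟨h1, h2⟩ := band_lower hl hc
  have h3 : (256 * 2 ^ (k + l) : ℝ) ≤ |(c : ℝ)| := by exact_mod_cast h1.le
  refine (abs_Zs_full hη h2 hs).trans ?_
  refine (div_le_div_of_nonneg_left (by positivity) (by positivity)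
    (pow_le_pow_left₀ (by positivity) h3 2)).trans ?_
  rw [div_le_div_iff₀ (by positivity) (by positivity), pow_add]
  have : (0 : ℝ) ≤ C * (2 ^ k * 2 ^ l) ^ 2 := by positivity
  nlinarith

theorem Z1 (hη : EtaOK C η) (k l : ℕ) :
    ∑ c ∈ band k l, |Zs η k c (Tref k l)| ≤ 2048 * 2048 * C / 2 ^ l := by
  have hC := hη.nonneg
  rcases eq_or_ne l 0 with rfl | hl
  · refine (sum_le_card_nsmul _ _ (2048 * C / 2 ^ (k + 0)) fun c hc =>
      (abs_sum_le_sum_abs _ _).trans (Z2 hη k 0 c hc)).trans ?_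
    rw [nsmul_eq_mul]
    refine (mul_le_mul_of_nonneg_right (band_card_le k 0) (by positivity)).trans_eq ?_
    field_simp
  · refine (sum_le_card_nsmul _ _ (C / (2 ^ (k + l) * 2 ^ l)) fun c hc =>
      full_le hη hl hc ?_).trans ?_
    · have h1 := abs_le_of_mem_band hc
      have h2 := two_pow_le (k := k) hl
      have h3 : (1 : ℤ) ≤ 2 ^ k := one_le_pow₀ (by norm_num)
      rw [← add_assoc, pow_add _ _ 9] at h1
      rw [Tref]
      push_cast
      rw [pow_add _ _ 10]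
      linarith
    · rw [nsmul_eq_mul]
      refine (mul_le_mul_of_nonneg_right (band_card_le k l) (by positivity)).trans ?_
      have e : (2048 : ℝ) * 2 ^ (k + l) * (C / (2 ^ (k + l) * 2 ^ l)) = 2048 * C / 2 ^ l := by
        field_simp
      rw [e]
      exact div_le_div_of_nonneg_right (by linarith) (by positivity)

theorem Z3_level (hη : EtaOK C η) {k l : ℕ} (hl : l ≠ 0) (s : ℕ) :
    ∑ c ∈ band k l, |Zs η k c (s + 1)| ≤
      (((s : ℝ) + 1) / 2 ^ (k + l)) * (32 * C / 2 ^ l) := by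
  have hC := hη.nonneg
  have hN : (1 : ℤ) ≤ 2 ^ k := one_le_pow₀ (by norm_num)
  have h2 := two_pow_le (k := k) hl
  have hzero : ∀ c : ℤ, (s : ℤ) < |c| - (64 * 2 ^ k + 1) → Zs η k c (s + 1) = 0 := by
    intro c hc
    refine sum_eq_zero fun t ht => ?_
    rw [zeta_eq]
    have : num η k c t = 0 := by
      by_contra h
      have h1 := (num_supp hη h).1
      have h3 : (t : ℤ) ≤ s := by exact_mod_cast Nat.lt_succ_iff.1 (mem_range.1 ht)
      linarith
    rw [this, zero_div]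
  by_cases hs : (s : ℤ) < 128 * 2 ^ (k + l)
  · rw [sum_eq_zero fun c hc => ?_]
    · positivity
    · rw [hzero c (by linarith [(band_lower hl hc).1]), abs_zero]
  · have hs' : (128 : ℝ) ≤ ((s : ℝ) + 1) / 2 ^ (k + l) := by
      rw [le_div_iff₀ (by positivity)]
      have : (128 * 2 ^ (k + l) : ℝ) ≤ s := by exact_mod_cast not_lt.1 hs
      linarith
    set S := Icc ((s : ℤ) - (64 * 2 ^ k + 1)) (s + (64 * 2 ^ k + 1)) ∪
      Icc (-((s : ℤ) + (64 * 2 ^ k + 1))) (-((s : ℤ) - (64 * 2 ^ k + 1))) with hS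
    have hcard : (S.card : ℝ) ≤ 262 * 2 ^ k := by
      have h3 := card_union_le (Icc ((s : ℤ) - (64 * 2 ^ k + 1)) (s + (64 * 2 ^ k + 1)))
        (Icc (-((s : ℤ) + (64 * 2 ^ k + 1))) (-((s : ℤ) - (64 * 2 ^ k + 1))))
      rw [Int.card_Icc, Int.card_Icc, ← hS] at h3
      have h4 : (S.card : ℤ) ≤ 262 * 2 ^ k := by omega
      exact_mod_cast h4
    have hpt : ∀ c ∈ band k l, |Zs η k c (s + 1)| ≤ C / (2 ^ (k + l) * 2 ^ l) +
        if c ∈ S then 3 * C / 2 ^ (k + l) else 0 := by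
      intro c hc
      obtain ⟨h1, h3⟩ := band_lower hl hc
      have hp : (0 : ℝ) ≤ C / (2 ^ (k + l) * 2 ^ l) := by positivity
      split_ifs with h
      · have h4 : (256 * 2 ^ (k + l) : ℝ) ≤ |(c : ℝ)| := by exact_mod_cast h1.le
        have h5 : |Zs η k c (s + 1)| ≤ 3 * C / 2 ^ (k + l) := by
          refine (abs_sum_le_sum_abs _ _).trans ((sum_abs_zeta hη h3 _).trans ?_)
          refine (div_le_div_of_nonneg_left (by positivity) (by positivity) h4).trans ?_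
          rw [div_le_div_iff₀ (by positivity) (by positivity)]
          have : (0 : ℝ) ≤ C * 2 ^ (k + l) := by positivity
          nlinarith
        linarith
      · rw [add_zero]
        rw [hS, mem_union, mem_Icc, mem_Icc] at h
        by_cases h4 : (s : ℤ) < |c| - (64 * 2 ^ k + 1)
        · rw [hzero c h4, abs_zero]
          exact hp
        · refine full_le hη hl hc ?_
          push_cast
          rcases abs_cases c with h5 | h5 <;> omega
    refine (sum_le_sum hpt).trans ?_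
    rw [sum_add_distrib, sum_const, nsmul_eq_mul, sum_ite_mem, sum_const, nsmul_eq_mul]
    have h5 : ((band k l ∩ S).card : ℝ) ≤ 262 * 2 ^ k :=
      le_trans (by exact_mod_cast card_le_card inter_subset_right) hcard
    have h6 := mul_le_mul_of_nonneg_right (band_card_le k l)
      (by positivity : (0 : ℝ) ≤ C / (2 ^ (k + l) * 2 ^ l))
    have h7 := mul_le_mul_of_nonneg_right h5 (by positivity : (0 : ℝ) ≤ 3 * C / 2 ^ (k + l))
    have e1 : (2048 : ℝ) * 2 ^ (k + l) * (C / (2 ^ (k + l) * 2 ^ l)) = 2048 * (C / 2 ^ l) := by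
      field_simp
    have e2 : (262 : ℝ) * 2 ^ k * (3 * C / 2 ^ (k + l)) = 786 * (C / 2 ^ l) := by
      rw [pow_add]
      field_simp
      ring
    have h8 := mul_le_mul_of_nonneg_right hs' (by positivity : (0 : ℝ) ≤ 32 * C / 2 ^ l)
    have e3 : (128 : ℝ) * (32 * C / 2 ^ l) = 4096 * (C / 2 ^ l) := by ring
    have h9 : (0 : ℝ) ≤ C / 2 ^ l := by positivity
    linarith

theorem Z3_zero (hη : EtaOK C η) (k s : ℕ) :
    ∑ c ∈ band k 0, |Zs η k c (s + 1)| ≤ (((s : ℝ) + 1) / 2 ^ (k + 0)) * (4096 * C / 2 ^ 0) := by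
  have hC := hη.nonneg
  refine (sum_le_card_nsmul _ _ (((s : ℝ) + 1) * (2 * C / (2 ^ k) ^ 2)) fun c _ =>
    (abs_sum_le_sum_abs _ _).trans ?_).trans ?_
  · refine (sum_le_card_nsmul _ _ _ fun t _ => zeta_le_sq hη k c t).trans_eq ?_
    rw [card_range, nsmul_eq_mul]
    push_cast
    rfl
  · rw [nsmul_eq_mul]
    refine (mul_le_mul_of_nonneg_right (band_card_le k 0) (by positivity)).trans_eq ?_
    simp only [add_zero, pow_zero]
    field_simp
    ring

theorem Z3 (hη : EtaOK C η) (l s K : ℕ) :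
    ∑ k ∈ range K, ∑ c ∈ band k l, (if s < Tref k l then |Zs η k c (s + 1)| else 0) ≤
      2048 * (4096 * C / 2 ^ l) := by
  have hC := hη.nonneg
  refine le_trans (sum_le_sum fun k _ => ?_) ((sum_mul _ _ _).symm.trans_le
    (mul_le_mul_of_nonneg_right (sum_scales s l K) (by positivity)))
  split_ifs with h
  · rcases eq_or_ne l 0 with rfl | hl
    · exact Z3_zero hη k s
    · refine (Z3_level hη hl s).trans (mul_le_mul_of_nonneg_left ?_ (by positivity))
      exact div_le_div_of_nonneg_right (by linarith) (by positivity)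
  · simp

end Zeta

theorem zeta_eq_zero {C : ℝ} {η : ℕ → ℤ → ℝ} (hη : EtaOK C η) {k l : ℕ} {c : ℤ}
    (hc : c ∈ band k l) {t : ℕ} (ht : Tref k l ≤ t) : zeta η k c t = 0 := by
  rw [Zeta.zeta_eq]
  have : Zeta.num η k c t = 0 := by
    by_contra h
    have h1 := (Zeta.num_supp hη h).2
    have h2 := abs_le_of_mem_band hc
    have h3 : (2 : ℤ) ^ (k + l + 10) ≤ t := by exact_mod_cast ht
    have h4 : (2 : ℤ) ^ k ≤ 2 ^ (k + l) := pow_le_pow_right₀ (by norm_num) (by omega)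
    have h5 : (1 : ℤ) ≤ 2 ^ k := one_le_pow₀ (by norm_num)
    rw [← add_assoc, pow_add _ _ 9] at h2
    rw [pow_add _ _ 10] at h3
    linarith
  rw [this, zero_div]

/-- Let `N = 2^k`.
* Always `|zeta k c t| ≤ 2 C / N²` (`lip` used `2t+1` times).
* `zeta k c t ≠ 0` forces `||c| - t| ≤ 64 N + 1`; so for `l ≥ 1` (`|c| > 512 N·2^(l-1)`) there are at most
  `130 N + 2` nonzero terms, each `≤ 2 (C/N) / (|c|/2)`.  This gives (Z2).
* (Z1): for `l = 0` use (Z2) and `band_card_le`.  For `l ≥ 1`, `c > 0`: only `η k (c - t)` contributes,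
  `Zs k c T = ∑_x η k x / (c - x + ½) = ∑_x η k x (1/(c - x + ½) - 1/(c + ½))` (`mean`), which is
  `≲ N / c²`; symmetric for `c < 0` (`t = x - c - 1`).
* (Z3): `l = 0`: `|Zs k c (s+1)| ≤ 2 C (s+1) / N²`, and `∑_{k : s < 1024 N} (s+1)/N ≤ 2048`.
  `l ≥ 1`: `Zs k c (s+1) = 0` unless `s ≥ |c| - 64 N - 1 ≥ 2^(k+l+7)`, so at most three `k` contribute;
  for such `k`, `Zs k c (s+1) = Zs k c T` if `s > |c| + 64 N` (use (Z1)) and there are at most `4 (64 N + 2)`
  other `c` with a nonzero value, each bounded by (Z2). -/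
theorem zeta_bounds {C : ℝ} {η : ℕ → ℤ → ℝ} (hη : EtaOK C η) : ∃ C' : ℝ, 0 ≤ C' ∧
    (∀ k l, ∑ c ∈ band k l, |Zs η k c (Tref k l)| ≤ C' / 2 ^ l) ∧
    (∀ k l, ∀ c ∈ band k l, ∑ t ∈ range (Tref k l), |zeta η k c t| ≤ C' / 2 ^ (k + l)) ∧
    (∀ l s K, ∑ k ∈ range K, ∑ c ∈ band k l,
      (if s < Tref k l then |Zs η k c (s + 1)| else 0) ≤ C' / 2 ^ l) := by
  have hC := hη.nonneg
  refine ⟨2048 * 4096 * C, by positivity, fun k l => (Zeta.Z1 hη k l).trans ?_,
    fun k l c hc => (Zeta.Z2 hη k l c hc).trans ?_, fun l s K => (Zeta.Z3 hη l s K).trans_eq ?_⟩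
  · exact div_le_div_of_nonneg_right (by linarith) (by positivity)
  · exact div_le_div_of_nonneg_right (by linarith) (by positivity)
  · ring

end Crest.Agent.R72
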