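import Crest.Agent.R72.Key
import Crest.Agent.R72.Zeta

/-! # R72 task DiscLevel: the two estimates at one level `l` -/

set_option autoImplicit false

namespace Crest.Agent.R72

open Matrix Finset

theorem loc_smul {G : Type*} [CommRing G] [Fintype G] [DecidableEq G] (k : ℕ) (s : ℝ)
    (a b c : Matrix G G ℝ) (o : G) : loc k (s • a) b c o = s * loc k a b c o := by
  unfold loc
  simp only [Matrix.mul_smul, Matrix.smul_mul, trace_smul, smul_eq_mul, mul_sum]

theorem loc_add {G : Type*} [CommRing G] [Fintype G] [DecidableEq G] (k : ℕ)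
    (a a' b c : Matrix G G ℝ) (o : G) :
    loc k (a + a') b c o = loc k a b c o + loc k a' b c o := by
  unfold loc
  simp only [Matrix.mul_add, Matrix.add_mul, trace_add, sum_add_distrib]

namespace DiscLevel

theorem cub_nonneg {ι : Type*} [Fintype ι] (x : Matrix ι ι ℝ) : 0 ≤ cub x :=
  sum_nonneg fun _ _ => sum_nonneg fun _ _ => by positivity

theorem band_nonempty (k l : ℕ) : (band k l).Nonempty := by
  have h := le_band_card k l
  have h2 : (0 : ℝ) < 2 ^ (k + l) := by positivity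
  have h3 : (0 : ℝ) < (band k l).card := lt_of_lt_of_le h2 h
  exact card_pos.1 (by exact_mod_cast h3)

theorem Tref_mono (l : ℕ) : Monotone fun k => Tref k l := fun _ _ h =>
  Nat.pow_le_pow_right (by norm_num) (by omega)

theorem abs_sub_le_Ico (f : ℕ → ℝ) {a b : ℕ} (h : a ≤ b) :
    |f b - f a| ≤ ∑ t ∈ Ico a b, |f (t + 1) - f t| := by
  rw [← sum_Ico_sub f h]
  exact abs_sum_le_sum_abs _ _

theorem var_comp (f : ℕ → ℝ) {T : ℕ → ℕ} (hT : Monotone T) (K : ℕ) :
    ∑ k ∈ range K, |f (T (k + 1)) - f (T k)| ≤ ∑ t ∈ range (T K), |f (t + 1) - f t| := by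
  induction K with
  | zero => simp only [range_zero, sum_empty]; exact sum_nonneg fun _ _ => abs_nonneg _
  | succ K ih =>
    have h := hT (Nat.le_succ K)
    rw [sum_range_succ, ← sum_range_add_sum_Ico _ h]
    exact add_le_add ih (abs_sub_le_Ico f h)

theorem abel (z f : ℕ → ℝ) (T : ℕ) :
    ∑ t ∈ range T, z t * (f t - f T) =
      - ∑ s ∈ range T, (f (s + 1) - f s) * ∑ t ∈ range (s + 1), z t := by
  induction T with
  | zero => simp
  | succ T ih =>
    have e : ∀ t ∈ range (T + 1), z t * (f t - f (T + 1)) =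
        z t * (f t - f T) - (f (T + 1) - f T) * z t := fun t _ => by ring
    rw [sum_congr rfl e, sum_sub_distrib, ← mul_sum, sum_range_succ (fun t => z t * (f t - f T)),
      ih, sum_range_succ (fun s => (f (s + 1) - f s) * ∑ t ∈ range (s + 1), z t)]
    ring

theorem avg_step {β : Type*} (B : Finset β) (g y : β → ℝ) (w δ : ℝ) (hw : 0 < w)
    (h1 : w ≤ B.card) (h2 : (B.card : ℝ) ≤ 2048 * w) (hg : ∀ o ∈ B, 0 ≤ g o)
    (hy : ∀ o ∈ B, 0 ≤ y o) (hδ : ∀ o ∈ B, g o - y o ≤ δ) :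
    (∑ o ∈ B, g o) / w ≤ 2048 * (δ + (∑ o ∈ B, y o) / w) := by
  have hc : (0 : ℝ) < B.card := lt_of_lt_of_le hw h1
  have hG : 0 ≤ ∑ o ∈ B, g o := sum_nonneg hg
  have hY : 0 ≤ ∑ o ∈ B, y o := sum_nonneg hy
  have a1 : ∑ o ∈ B, g o - ∑ o ∈ B, y o ≤ B.card * δ := by
    rw [← sum_sub_distrib, ← nsmul_eq_mul, ← sum_const]
    exact sum_le_sum hδ
  have a2 : (∑ o ∈ B, g o) / B.card ≤ δ + (∑ o ∈ B, y o) / B.card := by
    rw [div_le_iff₀ hc, add_mul, div_mul_cancel₀ _ hc.ne']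
    linarith
  have a3 : (∑ o ∈ B, y o) / B.card ≤ (∑ o ∈ B, y o) / w := div_le_div_of_nonneg_left hY hw h1
  have a4 : (∑ o ∈ B, g o) / w ≤ 2048 * ((∑ o ∈ B, g o) / B.card) := by
    rw [← mul_div_assoc, div_le_div_iff₀ hw hc]
    nlinarith
  linarith

theorem cut_var (a : ℕ → ℝ) (K : ℕ) :
    |(if 0 < K then a 0 else 0)| + ∑ k ∈ range K,
      |(if k + 1 < K then a (k + 1) else 0) - (if k < K then a k else 0)| ≤
      2 * ∑ k ∈ range K, |a k| := by
  set a' : ℕ → ℝ := fun k => if k < K then a k else 0 with ha'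
  have h1 : ∑ k ∈ range K, |a' k| = ∑ k ∈ range K, |a k| :=
    sum_congr rfl fun k hk => by simp [ha', mem_range.1 hk]
  have h2 : ∑ k ∈ range (K + 1), |a' k| = ∑ k ∈ range K, |a k| := by
    rw [sum_range_succ, h1]; simp [ha']
  have h3 : ∑ k ∈ range K, |a' (k + 1) - a' k| ≤ ∑ k ∈ range K, (|a' (k + 1)| + |a' k|) :=
    sum_le_sum fun k _ => abs_sub _ _
  rw [sum_range_succ'] at h2
  rw [sum_add_distrib] at h3
  change |a' 0| + ∑ k ∈ range K, |a' (k + 1) - a' k| ≤ _
  linarith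

end DiscLevel

open DiscLevel

/-- Main term.  For each `k` choose `c_k ∈ band k l` maximising `|loc k (..) b c c_k|`; by (Z1) the sum is
`≤ C'/2^l ∑_k |loc k (d m(T k l)) b c c_k|`.  Apply `key` at level `l+9` with `lam = 1/√n`,
`a k = lam • d m(Tref k l)`, `V = lam (1 + 2n) |d|` (`Tref k l` increases with `k`, so the variation of
`k ↦ m (Tref k l)` is at most the total variation `2n`). -/
theorem level_main {C : ℝ} {η : ℕ → ℤ → ℝ} (hη : EtaOK C η) : ∃ C₁ : ℝ, 0 ≤ C₁ ∧
    ∀ (G : Type) [CommRing G] [Fintype G] [DecidableEq G] (K n l : ℕ), 1 ≤ n →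
      ∀ (d b c : Matrix G G ℝ) (m : G → G → ℕ → ℝ), (∀ u v t, |m u v t| ≤ 1) →
      (∀ u v T, ∑ t ∈ range T, |m u v (t + 1) - m u v t| ≤ 2 * n) →
      ∑ k ∈ range K, ∑ o ∈ band k l,
          |Zs η k o (Tref k l)| * |loc k (Matrix.of fun u v => d u v * m u v (Tref k l)) b c (o : G)|
        ≤ C₁ * √n * (((l : ℝ) + 1) * (4 / 5) ^ l) * (cub d + cub b + cub c) := by
  obtain ⟨C', hC', Z1, -, -⟩ := zeta_bounds hη
  obtain ⟨Ck, hCk, hkey⟩ := key
  refine ⟨10 * C' * Ck * (1 + 6 * Ck), by positivity, ?_⟩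
  intro G _ _ _ K n l hn d b c m hm hv
  obtain ⟨M, hM, hMd, hk⟩ := hkey G d b c
  set N := cub d + cub b + cub c with hN
  have hN0 : 0 ≤ N := add_nonneg (add_nonneg (cub_nonneg _) (cub_nonneg _)) (cub_nonneg _)
  set A : ℕ → Matrix G G ℝ := fun k => Matrix.of fun u v => d u v * m u v (Tref k l) with hA
  have hex : ∀ k, ∃ o ∈ band k l, ∀ o' ∈ band k l,
      |loc k (A k) b c (o' : G)| ≤ |loc k (A k) b c (o : G)| := fun k =>
    exists_max_image _ (fun o : ℤ => |loc k (A k) b c (o : G)|) (band_nonempty k l)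
  choose o ho hmax using hex
  have hn' : (1 : ℝ) ≤ n := by exact_mod_cast hn
  have hs1 : 1 ≤ √(n : ℝ) := Real.one_le_sqrt.2 hn'
  have hs0 : 0 < √(n : ℝ) := by linarith
  have hss : √(n : ℝ) * √(n : ℝ) = n := Real.mul_self_sqrt (by linarith)
  set lam : ℝ := 1 / √(n : ℝ) with hlam
  have hlam0 : 0 < lam := by positivity
  have hlam1 : lam ≤ 1 := by rw [hlam, div_le_one hs0]; exact hs1
  have hls : lam * √(n : ℝ) = 1 := by rw [hlam]; field_simp
  have hlam2 : lam * lam * n = 1 := by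
    rw [← hss]; calc lam * lam * (√(n : ℝ) * √(n : ℝ)) = (lam * √(n : ℝ)) * (lam * √(n : ℝ)) := by ring
      _ = 1 := by rw [hls, one_mul]
  have hK := hk K (l + 9) lam (fun k => lam • A k) (fun u v => lam * (1 + 2 * n) * |d u v|) o
    hlam0.le
    (by
      intro k u v
      simp only [hA, Matrix.smul_apply, Matrix.of_apply, smul_eq_mul, abs_mul, abs_of_pos hlam0]
      exact mul_le_mul_of_nonneg_left
        (mul_le_of_le_one_right (abs_nonneg _) (hm u v _)) hlam0.le)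
    (by
      intro u v
      simp only [hA, Matrix.smul_apply, Matrix.of_apply, smul_eq_mul, ← mul_sub, abs_mul,
        abs_of_pos hlam0, ← mul_sum]
      have h1 := (var_comp (m u v) (Tref_mono l) K).trans (hv u v _)
      have h2 := hm u v (Tref 0 l)
      have h3 : 0 ≤ lam * |d u v| := by positivity
      nlinarith [mul_le_mul_of_nonneg_left h1 h3, mul_le_mul_of_nonneg_left h2 h3])
    (fun k => abs_le_of_mem_band (ho k))
  simp only [loc_smul, abs_mul, abs_of_pos hlam0, ← mul_sum] at hK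
  have hV : ∑ u, ∑ v, lam * (1 + 2 * n) * |d u v| * M u v ≤ lam * (1 + 2 * n) * (Ck * N) := by
    simp only [mul_assoc (lam * (1 + 2 * (n : ℝ))), ← mul_sum]
    exact mul_le_mul_of_nonneg_left hMd (by positivity)
  set S := ∑ k ∈ range K, |loc k (A k) b c (o k : G)| with hS
  have hS0 : 0 ≤ S := sum_nonneg fun _ _ => abs_nonneg _
  have hl0 : (0 : ℝ) ≤ l := Nat.cast_nonneg l
  have h1 : lam * (1 + lam) * ∑ u, ∑ v, lam * (1 + 2 * n) * |d u v| * M u v ≤ 6 * Ck * N := by
    refine (mul_le_mul_of_nonneg_left hV (by positivity)).trans ?_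
    have e : lam * (1 + lam) * (lam * (1 + 2 * n) * (Ck * N)) =
        (1 + lam) * (lam * lam + 2 * (lam * lam * n)) * (Ck * N) := by ring
    rw [e, hlam2]
    have a1 : lam * lam ≤ 1 := by nlinarith
    have a2 : (1 + lam) * (lam * lam + 2 * 1) ≤ 2 * 3 :=
      mul_le_mul (by linarith) (by linarith) (by positivity) (by norm_num)
    nlinarith [mul_le_mul_of_nonneg_right a2 (mul_nonneg hCk hN0)]
  have h2 : lam * S ≤ Ck * (10 * ((l : ℝ) + 1)) * ((1 + 6 * Ck) * N) := by
    refine hK.trans ?_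
    push_cast
    refine mul_le_mul (mul_le_mul_of_nonneg_left (by linarith) hCk) (by linarith) ?_
      (by positivity)
    refine add_nonneg hN0 (mul_nonneg (by positivity) ?_)
    exact sum_nonneg fun u _ => sum_nonneg fun v _ => mul_nonneg (by positivity) (hM u v)
  have h3 : S ≤ √(n : ℝ) * (Ck * (10 * ((l : ℝ) + 1)) * ((1 + 6 * Ck) * N)) := by
    calc S = √(n : ℝ) * (lam * S) := by rw [← mul_assoc, mul_comm _ lam, hls, one_mul]
      _ ≤ _ := mul_le_mul_of_nonneg_left h2 hs0.le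
  have h4 : C' / 2 ^ l ≤ C' * (4 / 5) ^ l := by
    rw [div_eq_mul_inv, ← inv_pow]
    exact mul_le_mul_of_nonneg_left (pow_le_pow_left₀ (by norm_num) (by norm_num) l) hC'
  calc ∑ k ∈ range K, ∑ o' ∈ band k l, |Zs η k o' (Tref k l)| * |loc k (A k) b c (o' : G)|
      ≤ ∑ k ∈ range K, C' / 2 ^ l * |loc k (A k) b c (o k : G)| := by
        refine sum_le_sum fun k _ => ?_
        refine le_trans (sum_le_sum fun o' ho' =>
          mul_le_mul_of_nonneg_left (hmax k o' ho') (abs_nonneg _)) ?_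
        rw [← sum_mul]
        exact mul_le_mul_of_nonneg_right (Z1 k l) (abs_nonneg _)
    _ = C' / 2 ^ l * S := by rw [hS, mul_sum]
    _ ≤ C' * (4 / 5) ^ l * (√(n : ℝ) * (Ck * (10 * ((l : ℝ) + 1)) * ((1 + 6 * Ck) * N))) :=
        mul_le_mul h4 h3 hS0 (by positivity)
    _ = _ := by ring

/-- Error term.  Let `e k o u v = ∑_{t<T} zeta k o t (m t - m T)`, `T = Tref k l`.  By (Z2)
`2^(k+l) |e| ≤ 2 C'`; by Abel summation `e = -∑_{s<T} (m (s+1) - m s) Zs k o (s+1)`, so (Z3) gives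
`∑_k ∑_o |e k o u v| ≤ 2 n C' / 2^l`.  Put `λ = (5/4)^l / √n`, `a k o = λ 2^(k+l) d e k o`, `lam = 2 C' λ`,
`g k o = |loc k (a k o) b c o|`, `y k o = C (l+10) lam (1+lam) · 2 ∑ |a k o u v| M u v` (`C, M` from `key`).
Choose `o_k ∈ band k l` maximising `g k o - y k o`; `key` at level `l+9` for the kernels `a k o_k` (`k < K`),
`0` (`k ≥ K`), `V = 2 ∑_{k<K} |a k o_k|`, gives `∑_k (g k o_k - y k o_k) ≤ C (l+10) N`, hence
`∑_k avg_o g k o ≤ C (l+10) N + ∑_k avg_o y k o`.  Use `2^(k+l) ≤ card (band k l) ≤ 2048 · 2^(k+l)` and divide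
by `λ`: the result is `≲ (l+1) N (1/λ + lam (1+lam) n 2^{-l}) ≲ (l+1) √n (4/5)^l N`
(`λ n 2^{-l} = √n (5/8)^l`, `λ² n 2^{-l} = (25/32)^l`). -/
theorem level_err {C : ℝ} {η : ℕ → ℤ → ℝ} (hη : EtaOK C η) : ∃ C₂ : ℝ, 0 ≤ C₂ ∧
    ∀ (G : Type) [CommRing G] [Fintype G] [DecidableEq G] (K n l : ℕ), 1 ≤ n →
      ∀ (d b c : Matrix G G ℝ) (m : G → G → ℕ → ℝ), (∀ u v t, |m u v t| ≤ 1) →
      (∀ u v T, ∑ t ∈ range T, |m u v (t + 1) - m u v t| ≤ 2 * n) →
      ∑ k ∈ range K, ∑ o ∈ band k l,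
          |loc k (Matrix.of fun u v => d u v *
            ∑ t ∈ range (Tref k l), zeta η k o t * (m u v t - m u v (Tref k l))) b c (o : G)|
        ≤ C₂ * √n * (((l : ℝ) + 1) * (4 / 5) ^ l) * (cub d + cub b + cub c) := by
  obtain ⟨C', hC', -, Z2, Z3⟩ := zeta_bounds hη
  obtain ⟨Ck, hCk, hkey⟩ := key
  refine ⟨2048 * 10 * Ck * (1 + 4 * C' * Ck * (2 * C' + 4 * C' ^ 2)), by positivity, ?_⟩
  intro G _ _ _ K n l hn d b c m hm hv
  obtain ⟨M, hM, hMd, hk⟩ := hkey G d b c
  set N := cub d + cub b + cub c with hN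
  have hN0 : 0 ≤ N := add_nonneg (add_nonneg (cub_nonneg _) (cub_nonneg _)) (cub_nonneg _)
  set e : ℕ → ℤ → G → G → ℝ := fun k o u v =>
    ∑ t ∈ range (Tref k l), zeta η k o t * (m u v t - m u v (Tref k l)) with he
  set E : ℕ → ℤ → Matrix G G ℝ := fun k o => Matrix.of fun u v => d u v * e k o u v with hE
  have e1 : ∀ k, ∀ o ∈ band k l, ∀ u v, 2 ^ (k + l) * |e k o u v| ≤ 2 * C' := by
    intro k o ho u v
    have h1 : |e k o u v| ≤ 2 * ∑ t ∈ range (Tref k l), |zeta η k o t| := by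
      rw [mul_sum]
      refine (abs_sum_le_sum_abs _ _).trans (sum_le_sum fun t _ => ?_)
      rw [abs_mul, mul_comm]
      refine mul_le_mul_of_nonneg_right ((abs_sub _ _).trans ?_) (abs_nonneg _)
      linarith [hm u v t, hm u v (Tref k l)]
    have h2 := Z2 k l o ho
    rw [le_div_iff₀ (by positivity)] at h2
    have h3 : (0 : ℝ) < 2 ^ (k + l) := by positivity
    nlinarith
  have e2 : ∀ u v, ∑ k ∈ range K, ∑ o ∈ band k l, |e k o u v| ≤ 2 * n * (C' / 2 ^ l) := by
    intro u v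
    have h1 : ∀ k ∈ range K, ∀ o, |e k o u v| ≤ ∑ s ∈ range (Tref K l),
        |m u v (s + 1) - m u v s| * if s < Tref k l then |Zs η k o (s + 1)| else 0 := by
      intro k hk o
      have hT : Tref k l ≤ Tref K l := Tref_mono l (mem_range.1 hk).le
      simp only [he]
      rw [abel (zeta η k o) (m u v), abs_neg]
      refine (abs_sum_le_sum_abs _ _).trans ?_
      refine le_trans (le_of_eq (sum_congr rfl fun s hs => ?_))
        (sum_le_sum_of_subset_of_nonneg (range_subset_range.2 hT) fun s _ _ => ?_)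
      · rw [if_pos (mem_range.1 hs), abs_mul]; rfl
      · refine mul_nonneg (abs_nonneg _) ?_
        split_ifs
        · exact abs_nonneg _
        · exact le_rfl
    calc ∑ k ∈ range K, ∑ o ∈ band k l, |e k o u v|
        ≤ ∑ k ∈ range K, ∑ o ∈ band k l, ∑ s ∈ range (Tref K l),
          |m u v (s + 1) - m u v s| * if s < Tref k l then |Zs η k o (s + 1)| else 0 :=
          sum_le_sum fun k hk => sum_le_sum fun o _ => h1 k hk o
      _ = ∑ s ∈ range (Tref K l), |m u v (s + 1) - m u v s| * ∑ k ∈ range K, ∑ o ∈ band k l,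
          if s < Tref k l then |Zs η k o (s + 1)| else 0 := by
          simp only [mul_sum]
          rw [sum_comm (s := range (Tref K l))]
          exact sum_congr rfl fun k _ => sum_comm
      _ ≤ ∑ s ∈ range (Tref K l), |m u v (s + 1) - m u v s| * (C' / 2 ^ l) :=
          sum_le_sum fun s _ => mul_le_mul_of_nonneg_left (Z3 l s K) (abs_nonneg _)
      _ ≤ 2 * n * (C' / 2 ^ l) := by
          rw [← sum_mul]
          exact mul_le_mul_of_nonneg_right (hv u v _) (by positivity)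
  have hn' : (1 : ℝ) ≤ n := by exact_mod_cast hn
  have hs1 : 1 ≤ √(n : ℝ) := Real.one_le_sqrt.2 hn'
  have hs0 : 0 < √(n : ℝ) := by linarith
  have hss : √(n : ℝ) * √(n : ℝ) = n := Real.mul_self_sqrt (by linarith)
  set L : ℝ := (5 / 4) ^ l / √(n : ℝ) with hL
  have hL0 : 0 < L := by positivity
  set lam : ℝ := 2 * C' * L with hlam
  have hlam0 : 0 ≤ lam := by positivity
  set κ : ℝ := Ck * (((l + 9 : ℕ) : ℝ) + 1) * (lam * (1 + lam)) with hκ
  have hκ0 : 0 ≤ κ := by positivity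
  set a : ℕ → ℤ → Matrix G G ℝ := fun k o => (L * 2 ^ (k + l)) • E k o with ha
  have habs : ∀ k o u v, |a k o u v| = L * 2 ^ (k + l) * (|d u v| * |e k o u v|) := by
    intro k o u v
    have : (0 : ℝ) < L * 2 ^ (k + l) := by positivity
    simp only [ha, hE, Matrix.smul_apply, Matrix.of_apply, smul_eq_mul]
    rw [abs_mul, abs_of_pos this, abs_mul]
  set g : ℕ → ℤ → ℝ := fun k o => |loc k (a k o) b c (o : G)| with hg
  set y : ℕ → ℤ → ℝ := fun k o => κ * (2 * ∑ u, ∑ v, |a k o u v| * M u v) with hy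
  have hy0 : ∀ k o, 0 ≤ y k o := fun k o => mul_nonneg hκ0 (mul_nonneg (by norm_num)
    (sum_nonneg fun u _ => sum_nonneg fun v _ => mul_nonneg (abs_nonneg _) (hM u v)))
  have hex : ∀ k, ∃ o ∈ band k l, ∀ o' ∈ band k l, g k o' - y k o' ≤ g k o - y k o := fun k =>
    exists_max_image _ (fun o : ℤ => g k o - y k o) (band_nonempty k l)
  choose o ho hmax using hex
  have hK := hk K (l + 9) lam (fun k => if k < K then a k (o k) else 0)
    (fun u v => 2 * ∑ k ∈ range K, |a k (o k) u v|) o hlam0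
    (by
      intro k u v
      split_ifs
      · rw [habs]
        have h1 := e1 k (o k) (ho k) u v
        have h2 : 0 ≤ L * |d u v| := by positivity
        have h3 := mul_le_mul_of_nonneg_left h1 h2
        rw [hlam]
        linarith
      · simp only [Matrix.zero_apply, abs_zero]; positivity)
    (by
      intro u v
      have := cut_var (fun k => a k (o k) u v) K
      simpa only [ite_apply, Matrix.zero_apply, apply_ite (fun x : Matrix G G ℝ => x u v)]
        using this)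
    (fun k => abs_le_of_mem_band (ho k))
  have hK1 : ∑ k ∈ range K, g k (o k) ≤
      Ck * (((l + 9 : ℕ) : ℝ) + 1) * N + ∑ k ∈ range K, y k (o k) := by
    have h1 : ∑ k ∈ range K, g k (o k) =
        ∑ k ∈ range K, |loc k (if k < K then a k (o k) else 0) b c (o k : G)| :=
      sum_congr rfl fun k hk => by rw [if_pos (mem_range.1 hk)]
    have h2 : ∑ k ∈ range K, y k (o k) =
        κ * ∑ u, ∑ v, (2 * ∑ k ∈ range K, |a k (o k) u v|) * M u v := by
      simp only [hy, ← mul_sum, mul_assoc, sum_mul]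
      congr 2
      rw [sum_comm]
      exact sum_congr rfl fun u _ => sum_comm
    rw [h1, h2]
    refine hK.trans (le_of_eq ?_)
    rw [hκ]; ring
  have hstep : ∀ k ∈ range K, L * ∑ o' ∈ band k l, |loc k (E k o') b c (o' : G)| ≤
      2048 * ((g k (o k) - y k (o k)) +
        κ * (2 * L) * ∑ o' ∈ band k l, ∑ u, ∑ v, |d u v| * M u v * |e k o' u v|) := by
    intro k _
    have hw : (0 : ℝ) < 2 ^ (k + l) := by positivity
    have h1 := avg_step (band k l) (g k) (y k) (2 ^ (k + l)) (g k (o k) - y k (o k)) hw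
      (le_band_card k l) (band_card_le k l) (fun _ _ => abs_nonneg _) (fun o' _ => hy0 k o')
      (hmax k)
    have h2 : (∑ o' ∈ band k l, g k o') / 2 ^ (k + l) =
        L * ∑ o' ∈ band k l, |loc k (E k o') b c (o' : G)| := by
      rw [div_eq_iff hw.ne', mul_sum, sum_mul]
      refine sum_congr rfl fun o' _ => ?_
      simp only [hg, ha]
      rw [loc_smul, abs_mul, abs_of_pos (by positivity)]
      ring
    have h3 : (∑ o' ∈ band k l, y k o') / 2 ^ (k + l) =
        κ * (2 * L) * ∑ o' ∈ band k l, ∑ u, ∑ v, |d u v| * M u v * |e k o' u v| := by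
      rw [div_eq_iff hw.ne', mul_sum, sum_mul]
      refine sum_congr rfl fun o' _ => ?_
      simp only [hy, habs, mul_sum, sum_mul]
      exact sum_congr rfl fun u _ => sum_congr rfl fun v _ => by ring
    rwa [h2, h3] at h1
  have hsum : ∑ k ∈ range K, ∑ o' ∈ band k l, ∑ u, ∑ v, |d u v| * M u v * |e k o' u v| ≤
      2 * n * (C' / 2 ^ l) * (Ck * N) := by
    have h1 : ∑ k ∈ range K, ∑ o' ∈ band k l, ∑ u, ∑ v, |d u v| * M u v * |e k o' u v| =
        ∑ u, ∑ v, |d u v| * M u v * ∑ k ∈ range K, ∑ o' ∈ band k l, |e k o' u v| := by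
      simp only [mul_sum]
      rw [sum_comm (s := univ)]
      simp only [sum_comm (s := univ) (t := range K)]
      refine sum_congr rfl fun k _ => ?_
      simp only [sum_comm (s := univ) (t := band k l)]
      exact sum_congr rfl fun o' _ => sum_comm
    rw [h1]
    refine le_trans (sum_le_sum fun u _ => sum_le_sum fun v _ =>
      mul_le_mul_of_nonneg_left (e2 u v) (mul_nonneg (abs_nonneg _) (hM u v))) ?_
    simp only [← sum_mul]
    rw [mul_comm]
    exact mul_le_mul_of_nonneg_left hMd (by positivity)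
  set S := ∑ k ∈ range K, ∑ o' ∈ band k l, |loc k (E k o') b c (o' : G)| with hS
  have htot : L * S ≤ 2048 * (Ck * (((l + 9 : ℕ) : ℝ) + 1) * N +
      κ * (2 * L) * (2 * n * (C' / 2 ^ l) * (Ck * N))) := by
    rw [hS, mul_sum]
    refine (sum_le_sum hstep).trans ?_
    rw [← mul_sum, sum_add_distrib, sum_sub_distrib, ← mul_sum _ _ (κ * (2 * L))]
    have := mul_le_mul_of_nonneg_left hsum (show 0 ≤ κ * (2 * L) by positivity)
    linarith
  set ρ : ℝ := √(n : ℝ) * (4 / 5) ^ l with hρ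
  have hρ0 : 0 < ρ := by positivity
  have hρL : ρ * L = 1 := by
    rw [hρ, hL, mul_assoc, ← mul_div_assoc, ← mul_pow]
    norm_num
    field_simp
  have b1 : L * n / 2 ^ l ≤ ρ := by
    have : L * n / 2 ^ l = √(n : ℝ) * (5 / 8) ^ l := by
      rw [hL, show ((5 : ℝ) / 8) = (5 / 4) / 2 by norm_num, div_pow (5 / 4 : ℝ) 2]
      nth_rewrite 2 [← hss]
      field_simp
    rw [this, hρ]
    exact mul_le_mul_of_nonneg_left (pow_le_pow_left₀ (by norm_num) (by norm_num) l) hs0.le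
  have b2 : L * L * n / 2 ^ l ≤ ρ := by
    have : L * L * n / 2 ^ l = (25 / 32) ^ l := by
      rw [hL, show ((25 : ℝ) / 32) = (5 / 4) * (5 / 4) / 2 by norm_num, div_pow _ (2 : ℝ), mul_pow]
      nth_rewrite 3 [← hss]
      field_simp
    rw [this, hρ]
    refine (pow_le_pow_left₀ (by norm_num) (by norm_num : (25 / 32 : ℝ) ≤ 4 / 5) l).trans ?_
    exact le_mul_of_one_le_left (by positivity) hs1
  have b3 : lam * (1 + lam) * n / 2 ^ l ≤ (2 * C' + 4 * C' ^ 2) * ρ := by
    have : lam * (1 + lam) * n / 2 ^ l =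
        2 * C' * (L * n / 2 ^ l) + 4 * C' ^ 2 * (L * L * n / 2 ^ l) := by rw [hlam]; ring
    rw [this, add_mul]
    exact add_le_add (mul_le_mul_of_nonneg_left b1 (by positivity))
      (mul_le_mul_of_nonneg_left b2 (by positivity))
  have hl0 : (0 : ℝ) ≤ l := Nat.cast_nonneg l
  have hl : (((l + 9 : ℕ) : ℝ) + 1) ≤ 10 * ((l : ℝ) + 1) := by push_cast; linarith
  have hfin : S ≤ 2048 * (Ck * (((l + 9 : ℕ) : ℝ) + 1) * N) *
      (ρ + 4 * C' * Ck * (lam * (1 + lam) * n / 2 ^ l)) := by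
    calc S = ρ * (L * S) := by rw [← mul_assoc, hρL, one_mul]
      _ ≤ ρ * (2048 * (Ck * (((l + 9 : ℕ) : ℝ) + 1) * N +
          κ * (2 * L) * (2 * n * (C' / 2 ^ l) * (Ck * N)))) :=
          mul_le_mul_of_nonneg_left htot hρ0.le
      _ = 2048 * (Ck * (((l + 9 : ℕ) : ℝ) + 1) * N) *
          (ρ + (ρ * L) * (4 * C' * Ck * (lam * (1 + lam) * n / 2 ^ l))) := by
          rw [hκ]; ring
      _ = _ := by rw [hρL, one_mul]
  calc S ≤ _ := hfin
    _ ≤ 2048 * (Ck * (10 * ((l : ℝ) + 1)) * N) *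
        (ρ + 4 * C' * Ck * ((2 * C' + 4 * C' ^ 2) * ρ)) := by gcongr
    _ = _ := by rw [hρ]; ring

end Crest.Agent.R72
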