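import Crest.Agent.R72.DiscLevel
import Crest.Agent.R72.Calderon

/-! # R72 task DiscT: the discrete dual estimate on `ZMod (2^K)` -/

set_option autoImplicit false

namespace Crest.Agent.R72

open Matrix Finset

namespace DiscT

theorem geom_sum_le (L : ℕ) : ∑ l ∈ range L, ((l : ℝ) + 1) * (4 / 5) ^ l ≤ 25 := by
  have h : ∑ l ∈ range L, ((l : ℝ) + 1) * (4 / 5) ^ l = 25 - (5 * L + 25) * (4 / 5) ^ L := by
    induction L with
    | zero => simp
    | succ L ih => rw [Finset.sum_range_succ, ih]; push_cast; ring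
  rw [h]
  have : (0 : ℝ) ≤ (5 * L + 25) * (4 / 5) ^ L := by positivity
  linarith

theorem cub_nonneg {ι : Type*} [Fintype ι] [DecidableEq ι] (x : Matrix ι ι ℝ) : 0 ≤ cub x := by
  unfold cub
  positivity

variable {C : ℝ} {η : ℕ → ℤ → ℝ}

theorem sum_shift (hη : EtaOK C η) (k : ℕ) (s B : ℤ) (h1 : -B ≤ s) (h2 : s + 64 * 2 ^ k ≤ B)
    (g : ℤ → ℝ) :
    ∑ x ∈ Icc (0 : ℤ) (64 * 2 ^ k), η k x * g (s + x) = ∑ o ∈ Icc (-B) B, η k (o - s) * g o := by
  have e : ∑ x ∈ Icc (0 : ℤ) (64 * 2 ^ k), η k x * g (s + x)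
      = ∑ o ∈ Icc s (s + 64 * 2 ^ k), η k (o - s) * g o := by
    refine Finset.sum_nbij' (fun x => s + x) (fun o => o - s) ?_ ?_ ?_ ?_ ?_
    · intro x hx
      simp only [Finset.mem_Icc] at hx ⊢
      omega
    · intro x hx
      simp only [Finset.mem_Icc] at hx ⊢
      omega
    · intro x _; simp
    · intro x _; simp
    · intro x _; simp
  rw [e]
  refine Finset.sum_subset (Finset.Icc_subset_Icc h1 h2) fun o _ ho => ?_
  have : η k (o - s) = 0 := by
    by_contra hne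
    have := hη.supp k _ hne
    exact ho (Finset.mem_Icc.2 ⟨by omega, by omega⟩)
  rw [this, zero_mul]

theorem bound_aux (k L t : ℕ) (ht : t < 2 ^ L) :
    (t : ℤ) + 1 + 64 * 2 ^ k ≤ 2 ^ (k + L + 9) := by
  have h1 : (t : ℤ) + 1 ≤ 2 ^ L := by exact_mod_cast ht
  have h2 : (1 : ℤ) ≤ 2 ^ k := one_le_pow₀ (by norm_num)
  have h3 : (1 : ℤ) ≤ 2 ^ L := one_le_pow₀ (by norm_num)
  rw [pow_add, pow_add]
  nlinarith

/-- the folded reproducing formula at one radius -/
theorem fold {G : Type*} [CommRing G] (hη : EtaOK C η) (K L : ℕ) (Φ : G → ℝ) (Ψ : ℕ → G → ℝ)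
    (e : ℝ) (h : ∀ y : G, Φ y = e + ∑ k ∈ range K, ∑ x ∈ Icc (0 : ℤ) (64 * 2 ^ k),
      η k x * Ψ k (y + (x : G))) (t : ℕ) (ht : t < 2 ^ L) :
    (Φ t - Φ (-1 - t)) / ((t : ℝ) + 1 / 2) = ∑ k ∈ range K,
      ∑ o ∈ Icc (-(2 : ℤ) ^ (k + L + 9)) (2 ^ (k + L + 9)), zeta η k o t * Ψ k (o : G) := by
  rw [h t, h (-1 - t), add_sub_add_left_eq_sub, ← Finset.sum_sub_distrib, Finset.sum_div]
  refine Finset.sum_congr rfl fun k _ => ?_
  have hb := bound_aux k L t ht
  have hp : (0 : ℤ) < 2 ^ k := by positivity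
  have ht0 : (0 : ℤ) ≤ t := by positivity
  have e1 := sum_shift hη k t (2 ^ (k + L + 9)) (by omega) (by omega) fun o => Ψ k (o : G)
  have e2 := sum_shift hη k (-1 - t) (2 ^ (k + L + 9)) (by omega) (by omega)
    fun o => Ψ k (o : G)
  push_cast at e1 e2
  rw [e1, e2, ← Finset.sum_sub_distrib, Finset.sum_div]
  refine Finset.sum_congr rfl fun o _ => ?_
  unfold zeta
  rw [show o - (-1 - (t : ℤ)) = o + 1 + t by ring]
  ring

/-- the splitting of the multiplier on a band -/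
theorem split (hη : EtaOK C η) {k l : ℕ} {o : ℤ} (ho : o ∈ band k l) (T₀ : ℕ) (m : ℕ → ℝ)
    (hm : ∀ t, T₀ ≤ t → m t = 0) :
    ∑ t ∈ range T₀, m t * zeta η k o t = Zs η k o (Tref k l) * m (Tref k l) +
      ∑ t ∈ range (Tref k l), zeta η k o t * (m t - m (Tref k l)) := by
  have e1 : ∑ t ∈ range T₀, m t * zeta η k o t
      = ∑ t ∈ range (T₀ + Tref k l), m t * zeta η k o t := by
    refine Finset.sum_subset (Finset.range_mono (by omega)) fun t _ ht => ?_
    rw [hm t (by simpa using ht), zero_mul]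
  have e2 : ∑ t ∈ range (Tref k l), m t * zeta η k o t
      = ∑ t ∈ range (T₀ + Tref k l), m t * zeta η k o t := by
    refine Finset.sum_subset (Finset.range_mono (by omega)) fun t _ ht => ?_
    rw [zeta_eq_zero hη ho (by simpa using ht), mul_zero]
  rw [e1, ← e2, Zs, Finset.sum_mul, ← Finset.sum_add_distrib]
  exact Finset.sum_congr rfl fun t _ => by ring

/-- the pointwise expansion -/
theorem expand {G : Type*} [CommRing G] (hη : EtaOK C η) (K T₀ : ℕ) (Φ : G → ℝ)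
    (Ψ : ℕ → G → ℝ) (e : ℝ) (h : ∀ y : G, Φ y = e + ∑ k ∈ range K,
      ∑ x ∈ Icc (0 : ℤ) (64 * 2 ^ k), η k x * Ψ k (y + (x : G))) (m : ℕ → ℝ)
    (hm : ∀ t, T₀ ≤ t → m t = 0) :
    ∑ t ∈ range T₀, m t / ((t : ℝ) + 1 / 2) * (Φ t - Φ (-1 - t)) =
      ∑ l ∈ range (T₀ + 1), ∑ k ∈ range K, ∑ o ∈ band k l,
        (Zs η k o (Tref k l) * m (Tref k l) +
          ∑ t ∈ range (Tref k l), zeta η k o t * (m t - m (Tref k l))) * Ψ k (o : G) := by
  have e1 : ∀ t ∈ range T₀, m t / ((t : ℝ) + 1 / 2) * (Φ t - Φ (-1 - t)) =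
      ∑ k ∈ range K, ∑ o ∈ Icc (-(2 : ℤ) ^ (k + T₀ + 9)) (2 ^ (k + T₀ + 9)),
        m t * zeta η k o t * Ψ k (o : G) := by
    intro t ht
    have ht' : t < 2 ^ T₀ := (Finset.mem_range.1 ht).trans Nat.lt_two_pow_self
    have := fold hη K T₀ Φ Ψ e h t ht'
    rw [show m t / ((t : ℝ) + 1 / 2) * (Φ t - Φ (-1 - t))
      = m t * ((Φ t - Φ (-1 - t)) / ((t : ℝ) + 1 / 2)) by ring, this, Finset.mul_sum]
    refine Finset.sum_congr rfl fun k _ => ?_
    rw [Finset.mul_sum]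
    exact Finset.sum_congr rfl fun o _ => by ring
  rw [Finset.sum_congr rfl e1, Finset.sum_comm, Finset.sum_comm (s := range (T₀ + 1))]
  refine Finset.sum_congr rfl fun k _ => ?_
  rw [Finset.sum_comm, ← sum_band k T₀ fun o => ∑ t ∈ range T₀, m t * zeta η k o t * Ψ k (o : G)]
  refine Finset.sum_congr rfl fun l _ => Finset.sum_congr rfl fun o ho => ?_
  rw [← Finset.sum_mul, split hη ho T₀ m hm]

end DiscT

open DiscT in
/-- For fixed `u, v` let `Φ τ = b v (τ-u-v) * c (τ-u-v) u` and apply `calderon` at `y = t` and at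
`y = -1-t`; the constants `e` cancel.  With `Ψ_k = haar k (haar k (haar k Φ))`,
`∑_{t<T₀} m t/(t+½) (Φ t - Φ (-1-t)) = ∑_{k<K} ∑_{o} (∑_{t<T₀} m t * zeta η k o t) Ψ_k o`, `o` over
`Icc (-2^(k+L+9)) (2^(k+L+9))` for any `L` with `T₀ ≤ 2^L`.  Split into bands (`sum_band`); for `o ∈ band k l`,
`∑_{t<T₀} m t zeta = ∑_{t<T} m t zeta = Zs T * m T + ∑_{t<T} zeta (m t - m T)`, `T = Tref k l`
(`zeta_eq_zero` and `m t = 0` for `t ≥ T₀`).  Multiply by `d u v`, sum, use `loc_eq_haar`, `level_main`,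
`level_err` and `∑_l (l+1) (4/5)^l ≤ 25`. -/
theorem discT : ∃ C : ℝ, 0 ≤ C ∧ ∀ (K n T₀ : ℕ), 1 ≤ n →
    ∀ (d b c : Matrix (ZMod (2 ^ K)) (ZMod (2 ^ K)) ℝ) (m : ZMod (2 ^ K) → ZMod (2 ^ K) → ℕ → ℝ),
      (∀ u v t, |m u v t| ≤ 1) → (∀ u v t, T₀ ≤ t → m u v t = 0) →
      (∀ u v T, ∑ t ∈ range T, |m u v (t + 1) - m u v t| ≤ 2 * n) →
      |∑ u, ∑ v, d u v * ∑ t ∈ range T₀, m u v t / ((t : ℝ) + 1 / 2) *
          (b v ((t : ZMod (2 ^ K)) - u - v) * c ((t : ZMod (2 ^ K)) - u - v) u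
            - b v (-1 - (t : ZMod (2 ^ K)) - u - v) * c (-1 - (t : ZMod (2 ^ K)) - u - v) u)|
        ≤ C * √n * (cub d + cub b + cub c) := by
  obtain ⟨C, η, hη, hcal⟩ := calderon
  obtain ⟨C₁, hC₁, h₁⟩ := level_main hη
  obtain ⟨C₂, hC₂, h₂⟩ := level_err hη
  refine ⟨25 * (C₁ + C₂), by positivity, fun K n T₀ hn d b c m hm1 hm0 hmv => ?_⟩
  have key1 : ∀ u v : ZMod (2 ^ K), ∑ t ∈ range T₀, m u v t / ((t : ℝ) + 1 / 2) *
          (b v ((t : ZMod (2 ^ K)) - u - v) * c ((t : ZMod (2 ^ K)) - u - v) u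
            - b v (-1 - (t : ZMod (2 ^ K)) - u - v) * c (-1 - (t : ZMod (2 ^ K)) - u - v) u)
      = ∑ l ∈ range (T₀ + 1), ∑ k ∈ range K, ∑ o ∈ band k l,
        (Zs η k o (Tref k l) * m u v (Tref k l) +
          ∑ t ∈ range (Tref k l), zeta η k o t * (m u v t - m u v (Tref k l))) *
          haar k (haar k (haar k fun τ => b v (τ - u - v) * c (τ - u - v) u))
            (o : ZMod (2 ^ K)) := by
    intro u v
    obtain ⟨e, he⟩ := hcal K fun τ => b v (τ - u - v) * c (τ - u - v) u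
    exact expand hη K T₀ (fun τ => b v (τ - u - v) * c (τ - u - v) u)
      (fun k => haar k (haar k (haar k fun τ => b v (τ - u - v) * c (τ - u - v) u))) e he
      (m u v) (hm0 u v)
  have key2 : ∑ u, ∑ v, d u v * ∑ t ∈ range T₀, m u v t / ((t : ℝ) + 1 / 2) *
          (b v ((t : ZMod (2 ^ K)) - u - v) * c ((t : ZMod (2 ^ K)) - u - v) u
            - b v (-1 - (t : ZMod (2 ^ K)) - u - v) * c (-1 - (t : ZMod (2 ^ K)) - u - v) u)
      = ∑ l ∈ range (T₀ + 1), ∑ k ∈ range K, ∑ o ∈ band k l,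
        (Zs η k o (Tref k l) *
            loc k (Matrix.of fun u v => d u v * m u v (Tref k l)) b c (o : ZMod (2 ^ K)) +
          loc k (Matrix.of fun u v => d u v *
            ∑ t ∈ range (Tref k l), zeta η k o t * (m u v t - m u v (Tref k l))) b c
            (o : ZMod (2 ^ K))) := by
    simp only [key1, loc_eq_haar, Matrix.of_apply]
    simp only [Finset.mul_sum (s := range (T₀ + 1)), Finset.mul_sum (s := range K),
      Finset.mul_sum (s := band _ _)]
    rw [Finset.sum_congr rfl fun u _ => Finset.sum_comm, Finset.sum_comm]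
    refine Finset.sum_congr rfl fun l _ => ?_
    rw [Finset.sum_congr rfl fun u _ => Finset.sum_comm, Finset.sum_comm]
    refine Finset.sum_congr rfl fun k _ => ?_
    rw [Finset.sum_congr rfl fun u _ => Finset.sum_comm, Finset.sum_comm]
    refine Finset.sum_congr rfl fun o _ => ?_
    rw [Finset.mul_sum, ← Finset.sum_add_distrib]
    refine Finset.sum_congr rfl fun u _ => ?_
    rw [Finset.mul_sum, ← Finset.sum_add_distrib]
    exact Finset.sum_congr rfl fun v _ => by ring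
  rw [key2]
  have hN : 0 ≤ cub d + cub b + cub c := by
    have := cub_nonneg d
    have := cub_nonneg b
    have := cub_nonneg c
    positivity
  calc _ ≤ ∑ l ∈ range (T₀ + 1), (C₁ + C₂) * √n * (cub d + cub b + cub c) *
        (((l : ℝ) + 1) * (4 / 5) ^ l) := by
        refine (Finset.abs_sum_le_sum_abs _ _).trans (Finset.sum_le_sum fun l _ => ?_)
        have a1 := h₁ (ZMod (2 ^ K)) K n l hn d b c m hm1 hmv
        have a2 := h₂ (ZMod (2 ^ K)) K n l hn d b c m hm1 hmv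
        refine le_trans ?_ ((add_le_add a1 a2).trans (le_of_eq (by ring)))
        rw [← Finset.sum_add_distrib]
        refine (Finset.abs_sum_le_sum_abs _ _).trans (Finset.sum_le_sum fun k _ => ?_)
        rw [← Finset.sum_add_distrib]
        refine (Finset.abs_sum_le_sum_abs _ _).trans (Finset.sum_le_sum fun o _ => ?_)
        rw [← abs_mul]
        exact abs_add_le _ _
    _ ≤ (C₁ + C₂) * √n * (cub d + cub b + cub c) * 25 := by
        rw [← Finset.mul_sum]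
        exact mul_le_mul_of_nonneg_left (geom_sum_le _) (by positivity)
    _ = _ := by ring

end Crest.Agent.R72
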