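import Crest.Agent.R72.Win

/-! # R72 task Jump: changing the kernel, and the telescoping of the gaps -/

set_option autoImplicit false

namespace Crest.Agent.R72

open Matrix Finset
open scoped MatrixOrder

variable {G : Type*} [CommRing G] [Fintype G] [DecidableEq G]

namespace Jump

theorem entry (P W : G → ℝ) (x : Matrix G G ℝ) (u v : G) :
    (dsq P * x * dsq W) u v = √(P u) * x u v * √(W v) := by
  simp [dsq, Matrix.mul_diagonal, Matrix.diagonal_mul]

theorem gram_eq {P : G → ℝ} (hP : ∀ i, 0 ≤ P i) (W : G → ℝ) (x : Matrix G G ℝ) :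
    (dsq P * x * dsq W)ᵀ * (dsq P * x * dsq W) = cj W (gram x P) := by
  rw [cj, gram, ← dsq_mul_dsq hP]
  simp only [Matrix.transpose_mul, dsq_symm, Matrix.mul_assoc]

theorem cj_gram_diag {W : G → ℝ} (hW : ∀ i, 0 ≤ W i) (P : G → ℝ) (x : Matrix G G ℝ) (v : G) :
    cj W (gram x P) v v = W v * ∑ u, P u * x u v ^ 2 := by
  have h : gram x P v v = ∑ u, P u * x u v ^ 2 := by
    rw [gram, Matrix.mul_apply]
    refine Finset.sum_congr rfl fun u _ => ?_
    rw [Matrix.mul_diagonal, Matrix.transpose_apply]; ring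
  rw [cj, entry, h]
  have := Real.mul_self_sqrt (hW v)
  linear_combination (∑ u, P u * x u v ^ 2) * this

/-- a window average of `f²` is controlled by the majorant at any point of the window -/
theorem win_maj {k : ℕ} {p z : G} (hz : win k p z ≠ 0) {f g m : G → ℝ} {lam : ℝ}
    (hm : IsMaj g m) (hf : ∀ w, |f w| ≤ lam * |g w|) :
    ∑ w, win k p w * f w ^ 2 ≤ (lam * m z) ^ 2 := by
  obtain ⟨i, hi, rfl⟩ := win_ne_zero hz
  have h1 := hm.2 k i (p + i) hi
  rw [add_sub_cancel_right, ← sum_win_mul] at h1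
  calc ∑ w, win k p w * f w ^ 2 ≤ ∑ w, lam ^ 2 * (win k p w * g w ^ 2) := by
        refine Finset.sum_le_sum fun w _ => ?_
        have h2 : f w ^ 2 ≤ (lam * |g w|) ^ 2 := by
          rw [← sq_abs (f w)]
          exact pow_le_pow_left₀ (abs_nonneg _) (hf w) 2
        rw [mul_pow, sq_abs] at h2
        nlinarith [win_nonneg k p w]
    _ = lam ^ 2 * ∑ w, win k p w * g w ^ 2 := by rw [Finset.mul_sum]
    _ ≤ lam ^ 2 * m (p + i) ^ 2 := mul_le_mul_of_nonneg_left h1 (sq_nonneg _)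
    _ = _ := by ring

/-- the third window -/
theorem win_third {j k : ℕ} (hj : k ≤ j) (hj' : j ≤ k + 1) {o : ℤ} (ho : -5 * 2 ^ k ≤ o)
    (ho' : o ≤ 0) {p₀ p₁ u v : G} (hu : win j p₀ u ≠ 0) (hv : win k p₁ v ≠ 0) {g m : G → ℝ}
    (hm : IsMaj g m) :
    ∑ w, win j ((o : G) - p₀ - p₁) w * g w ^ 2 ≤ (4 * m (-u - v)) ^ 2 := by
  obtain ⟨i, hi, rfl⟩ := win_ne_zero hu
  obtain ⟨i', hi', rfl⟩ := win_ne_zero hv
  have hjk : 2 ^ j ≤ 2 * 2 ^ k := by
    rw [← pow_succ']; exact Nat.pow_le_pow_right (by norm_num) hj'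
  have hc : ((2 ^ k : ℕ) : ℤ) = 2 ^ k := by push_cast; rfl
  obtain ⟨s, hs⟩ := Int.eq_ofNat_of_zero_le (a := o + i + i' + 5 * 2 ^ k) (by omega)
  have h16 : 2 ^ (k + 4) = 16 * 2 ^ k := by ring
  have hle : s + 2 ^ j ≤ 2 ^ (k + 4) := by omega
  have h1 := avg_le hle ((o : G) - p₀ - p₁) (g := fun t => g t ^ 2) fun _ => sq_nonneg _
  have h2 := hm.2 (k + 4) (5 * 2 ^ k) (-(p₀ + i) - (p₁ + i')) (by omega)
  have hsG : (s : G) = o + i + i' + 5 * 2 ^ k := by
    have := congrArg (Int.cast : ℤ → G) hs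
    push_cast at this
    exact this.symm
  have e : (o : G) - p₀ - p₁ - (s : G) = -(p₀ + i) - (p₁ + i') - ((5 * 2 ^ k : ℕ) : G) := by
    rw [hsG]; push_cast; ring
  rw [e] at h1
  rw [sum_win_mul]
  have h3 : (2 : ℝ) ^ k ≤ 2 ^ j := pow_le_pow_right₀ (by norm_num) hj
  have h4 : (0 : ℝ) < 2 ^ k := by positivity
  have h5 : (2 : ℝ) ^ (k + 4) = 16 * 2 ^ k := by ring
  have h6 : 0 ≤ avg j (fun t => g t ^ 2) ((o : G) - p₀ - p₁) := by
    unfold avg; positivity
  rw [h5] at h1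
  refine le_of_mul_le_mul_left ?_ h4
  nlinarith

theorem row_le {k : ℕ} {p₁ v : G} (hv : win k p₁ v ≠ 0) {P : G → ℝ} (hP : ∀ i, 0 ≤ P i)
    {x : Matrix G G ℝ} {u : G} {g m : G → ℝ} {lam : ℝ} (hlam : 0 ≤ lam) (hm : IsMaj g m)
    (hx : ∀ w, |x u w| ≤ lam * |g w|) :
    √(∑ w, (dsq P * x * dsq (win k p₁)) u w ^ 2) ≤ √(P u) * (lam * m v) := by
  have h0 : 0 ≤ lam * m v := mul_nonneg hlam (hm.1 v)
  refine Real.sqrt_le_iff.2 ⟨mul_nonneg (Real.sqrt_nonneg _) h0, ?_⟩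
  have e : ∑ w, (dsq P * x * dsq (win k p₁)) u w ^ 2 = P u * ∑ w, win k p₁ w * x u w ^ 2 := by
    rw [Finset.mul_sum]
    refine Finset.sum_congr rfl fun w _ => ?_
    rw [entry, mul_pow, mul_pow, Real.sq_sqrt (hP u), Real.sq_sqrt (win_nonneg k p₁ w)]
    ring
  rw [e, mul_pow, Real.sq_sqrt (hP u)]
  exact mul_le_mul_of_nonneg_left (win_maj hv hm hx) (hP u)

end Jump

open Jump in
/-- For each `(p₀, p₁)`, `p₂ = o - p₀ - p₁`, apply `psi_jump_entry` with
`A = dsq (win j p₀) * x * dsq (win k p₁)`, `A'` the same with `x'`, `Z = cj (win k p₁) (gram y (win j p₂))`.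
Where `win j p₀ u ≠ 0 ≠ win k p₁ v` (`u = p₀ + i`, `v = p₁ + i'`):
`∑_w A u w ^2 ≤ win j p₀ u * lam² * (m₂ u v)²`, and
`T' v v ≤ win k p₁ v * (lam² (m₁ v u)² + 16 (my v (-u-v))²)` because the window of scale `j` at
`p₂ = (-u-v) + (o + i + i')` lies in the window of scale `k+4` at `(-u-v) - 5·2^k` (`avg_le`).
Then sum over `p₀, p₁` with `sum_win_left`. -/
theorem Fp_jump (j k : ℕ) (hj : k ≤ j) (hj' : j ≤ k + 1) (o : ℤ) (ho : -5 * 2 ^ k ≤ o) (ho' : o ≤ 0)
    (x x' y d : Matrix G G ℝ) (lam : ℝ) (hlam : 0 ≤ lam) (m₁ m₂ my : G → G → ℝ)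
    (hm₁ : ∀ v, IsMaj (fun u => d u v) (m₁ v)) (hm₂ : ∀ u, IsMaj (fun v => d u v) (m₂ u))
    (hmy : ∀ v, IsMaj (fun w => y w v) (my v))
    (hx : ∀ u v, |x u v| ≤ lam * |d u v|) (hx' : ∀ u v, |x' u v| ≤ lam * |d u v|) :
    Fp j k x' y (o : G) - Fp j k x y (o : G) ≤
      3 * lam * ∑ u, ∑ v, |x' u v - x u v| * (m₂ u v * (lam * m₁ v u + 4 * my v (-u - v))) := by
  set c : G → G → ℝ := fun u v =>
    |x' u v - x u v| * (m₂ u v * (lam * m₁ v u + 4 * my v (-u - v))) with hc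
  have key : ∀ p₀ p₁ : G,
      Psi (gram x' (win j p₀) + gram y (win j ((o : G) - p₀ - p₁))) (win k p₁) -
        Psi (gram x (win j p₀) + gram y (win j ((o : G) - p₀ - p₁))) (win k p₁) ≤
      3 * lam * ∑ u, ∑ v, win j p₀ u * win k p₁ v * c u v := by
    intro p₀ p₁
    have hP := win_nonneg j p₀
    have hW := win_nonneg k p₁
    have h := psi_jump_entry (dsq (win j p₀) * x * dsq (win k p₁))
      (dsq (win j p₀) * x' * dsq (win k p₁))
      (cj_nonneg (win k p₁) (gram_nonneg y (win_nonneg j ((o : G) - p₀ - p₁))))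
    rw [gram_eq hP, gram_eq hP] at h
    rw [Psi, Psi, cj_add, cj_add]
    refine h.trans ?_
    rw [show 3 * lam = 3 / 2 * (2 * lam) by ring, mul_assoc (3 / 2 : ℝ)]
    refine mul_le_mul_of_nonneg_left ?_ (by norm_num)
    rw [Finset.mul_sum]
    refine Finset.sum_le_sum fun u _ => ?_
    rw [Finset.mul_sum]
    refine Finset.sum_le_sum fun v _ => ?_
    have e : |(dsq (win j p₀) * x' * dsq (win k p₁)) u v - (dsq (win j p₀) * x * dsq (win k p₁)) u v|
        = √(win j p₀ u) * √(win k p₁ v) * |x' u v - x u v| := by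
      rw [entry, entry, show √(win j p₀ u) * x' u v * √(win k p₁ v) -
        √(win j p₀ u) * x u v * √(win k p₁ v) = √(win j p₀ u) * √(win k p₁ v) * (x' u v - x u v)
        by ring, abs_mul, abs_of_nonneg (by positivity)]
    rw [e]
    by_cases hu : win j p₀ u = 0
    · simp [hu]
    by_cases hv : win k p₁ v = 0
    · simp [hv]
    have r1 := row_le hv hP hlam (hm₂ u) (hx u)
    have r2 := row_le hv hP hlam (hm₂ u) (hx' u)
    have a1 : 0 ≤ lam * m₁ v u := mul_nonneg hlam ((hm₁ v).1 u)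
    have a2 : 0 ≤ 4 * my v (-u - v) := mul_nonneg (by norm_num) ((hmy v).1 _)
    have a3 : 0 ≤ lam * m₂ u v := mul_nonneg hlam ((hm₂ u).1 v)
    have r3 : √((cj (win k p₁) (gram x' (win j p₀)) +
        cj (win k p₁) (gram y (win j ((o : G) - p₀ - p₁)))) v v) ≤
        √(win k p₁ v) * (lam * m₁ v u + 4 * my v (-u - v)) := by
      refine Real.sqrt_le_iff.2 ⟨by positivity, ?_⟩
      rw [Matrix.add_apply, cj_gram_diag hW, cj_gram_diag hW, mul_pow, Real.sq_sqrt (hW v),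
        ← mul_add]
      refine mul_le_mul_of_nonneg_left ?_ (hW v)
      have b1 := win_maj hu (f := fun w => x' w v) (hm₁ v) fun w => hx' w v
      have b2 := win_third hj hj' ho ho' hu hv (hmy v)
      nlinarith [mul_nonneg a1 a2]
    calc _ ≤ √(win j p₀ u) * √(win k p₁ v) * |x' u v - x u v| *
          (√(win j p₀ u) * (lam * m₂ u v) + √(win j p₀ u) * (lam * m₂ u v)) *
          (√(win k p₁ v) * (lam * m₁ v u + 4 * my v (-u - v))) := by
          gcongr
      _ = 2 * lam * ((√(win j p₀ u) * √(win j p₀ u)) * (√(win k p₁ v) * √(win k p₁ v)) *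
          c u v) := by
          simp only [hc]; ring
      _ = _ := by rw [Real.mul_self_sqrt (hP u), Real.mul_self_sqrt (hW v)]
  have hsum : ∑ p₀ : G, ∑ p₁ : G, ∑ u, ∑ v, win j p₀ u * win k p₁ v * c u v =
      ∑ u, ∑ v, c u v := by
    calc ∑ p₀ : G, ∑ p₁ : G, ∑ u, ∑ v, win j p₀ u * win k p₁ v * c u v
        = ∑ p₀ : G, ∑ u, ∑ v, ∑ p₁ : G, win j p₀ u * win k p₁ v * c u v := by
          refine Finset.sum_congr rfl fun p₀ _ => ?_
          rw [Finset.sum_comm]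
          exact Finset.sum_congr rfl fun u _ => Finset.sum_comm
      _ = ∑ u, ∑ v, ∑ p₀ : G, ∑ p₁ : G, win j p₀ u * win k p₁ v * c u v := by
          rw [Finset.sum_comm]
          exact Finset.sum_congr rfl fun u _ => Finset.sum_comm
      _ = _ := by
          refine Finset.sum_congr rfl fun u _ => Finset.sum_congr rfl fun v _ => ?_
          simp only [← Finset.sum_mul, ← Finset.mul_sum, sum_win_left, one_mul]
  rw [← hsum, Fp, Fp, ← Finset.sum_sub_distrib, Finset.mul_sum]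
  refine Finset.sum_le_sum fun p₀ _ => ?_
  rw [← Finset.sum_sub_distrib, Finset.mul_sum]
  exact Finset.sum_le_sum fun p₁ _ => key p₀ p₁

/-- `Fp_jump` with `y = 0`, `my = 0` -/
theorem pure_jump (k : ℕ) (x x' d : Matrix G G ℝ) (lam : ℝ) (hlam : 0 ≤ lam) (m₁ m₂ : G → G → ℝ)
    (hm₁ : ∀ v, IsMaj (fun u => d u v) (m₁ v)) (hm₂ : ∀ u, IsMaj (fun v => d u v) (m₂ u))
    (hx : ∀ u v, |x u v| ≤ lam * |d u v|) (hx' : ∀ u v, |x' u v| ≤ lam * |d u v|) :
    pure k k x' - pure k k x ≤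
      3 * lam * ∑ u, ∑ v, |x' u v - x u v| * (m₂ u v * (lam * m₁ v u)) := by
  have h := Fp_jump k k le_rfl (Nat.le_succ k) 0 (by
      have : (0 : ℤ) < 2 ^ k := by positivity
      omega) le_rfl x x' 0 d lam hlam m₁ m₂ (fun _ _ => 0) hm₁ hm₂
    (fun v => ⟨fun _ => le_rfl, fun j i z _ => by simp [avg]⟩) hx hx'
  simpa only [Fp_zero_right, mul_zero, add_zero] using h

/-- telescoping with a kernel that changes from scale to scale -/
theorem telescope (φ : ℕ → Matrix G G ℝ → ℝ) (P : Matrix G G ℝ → Prop) (w : G → G → ℝ)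
    (hw : ∀ u v, 0 ≤ w u v) (hφ : ∀ k x, 0 ≤ φ k x) (h0 : P 0)
    (hjump : ∀ k x x', P x → P x' → φ k x' - φ k x ≤ ∑ u, ∑ v, |x' u v - x u v| * w u v)
    (K : ℕ) (x : ℕ → Matrix G G ℝ) (hx : ∀ k, P (x k)) (V : G → G → ℝ)
    (hV : ∀ u v, |x 0 u v| + ∑ k ∈ range K, |x (k + 1) u v - x k u v| ≤ V u v) :
    ∑ k ∈ range K, (φ k (x k) - φ (k + 1) (x k)) ≤ φ 0 0 + ∑ u, ∑ v, V u v * w u v := by
  have h1 : ∀ K : ℕ, ∑ k ∈ range K, (φ k (x k) - φ (k + 1) (x k)) + φ K (x K) ≤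
      φ 0 (x 0) + ∑ k ∈ range K, ∑ u, ∑ v, |x (k + 1) u v - x k u v| * w u v := by
    intro K
    induction K with
    | zero => simp
    | succ K ih =>
      rw [Finset.sum_range_succ, Finset.sum_range_succ]
      have := hjump (K + 1) (x K) (x (K + 1)) (hx _) (hx _)
      linarith
  have h2 := hjump 0 0 (x 0) h0 (hx 0)
  have h3 : ∑ u, ∑ v, |x 0 u v - (0 : Matrix G G ℝ) u v| * w u v +
      ∑ k ∈ range K, ∑ u, ∑ v, |x (k + 1) u v - x k u v| * w u v ≤ ∑ u, ∑ v, V u v * w u v := by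
    rw [Finset.sum_comm (s := range K), ← Finset.sum_add_distrib]
    refine Finset.sum_le_sum fun u _ => ?_
    rw [Finset.sum_comm (s := range K), ← Finset.sum_add_distrib]
    refine Finset.sum_le_sum fun v _ => ?_
    rw [← Finset.sum_mul, ← add_mul, Matrix.zero_apply, sub_zero]
    exact mul_le_mul_of_nonneg_right (hV u v) (hw u v)
  have h4 := h1 K
  have h5 := hφ K (x K)
  linarith

end Crest.Agent.R72
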