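import Crest.Agent.R72.Mixed
import Crest.Agent.R72.Jump

/-! # R72 task GapSum: summing the gaps over the scales -/

set_option autoImplicit false

namespace Crest.Agent.R72

open Matrix Finset
open scoped MatrixOrder

variable {G : Type*} [CommRing G] [Fintype G] [DecidableEq G]

namespace GapSum

theorem pure_diag_succ (k : ℕ) (x : Matrix G G ℝ) : pure (k + 1) (k + 1) x ≤ pure k k x :=
  (pure_succ_left k (k + 1) x).trans (pure_succ_right k k x)

theorem pure_sub_eq (k L : ℕ) (x : Matrix G G ℝ) :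
    pure k k x - pure (k + L) (k + L) x =
      ∑ i ∈ range L, (pure (k + i) (k + i) x - pure (k + 1 + i) (k + 1 + i) x) := by
  have h := Finset.sum_range_sub' (fun i => pure (k + i) (k + i) x) L
  rw [add_zero] at h
  rw [← h]
  refine Finset.sum_congr rfl fun i _ => ?_
  rw [show k + 1 + i = k + (i + 1) by ring]

theorem sum_pure_const (K L : ℕ) (y : Matrix G G ℝ) :
    ∑ k ∈ range K, (pure k k y - pure (k + L) (k + L) y) ≤ L * cub y := by
  simp only [pure_sub_eq]
  rw [Finset.sum_comm]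
  calc _ ≤ ∑ _i ∈ range L, cub y := by
        refine Finset.sum_le_sum fun i _ => ?_
        have h := Finset.sum_range_sub' (fun k => pure (k + i) (k + i) y) K
        rw [h]
        have := pure_le_cub (0 + i) (0 + i) y
        have := pure_nonneg (K + i) (K + i) y
        linarith
    _ = L * cub y := by simp

end GapSum

/-- One scale.  Let `s = 2^k`, `f_k = Fp (k+1) k`, `ref_k = f_k 0 + f_k (-5 s)`, `c' = t·2s`,
`c'' = (-5-t)·2s`.  `Gap c' ≤ Gap c' + Gap c''` (`Gap_nonneg`), and by `Gap_le` this is at most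
`½ [f_k((2t+2)s) + f_k((-2t-7)s)] + ½ [f_k((2t+3)s) + f_k((-2t-8)s)] - [f_{k+1}(t·2s) + f_{k+1}((-5-t)·2s)]`.
Each bracket has offsets summing to `-5` units, so `Fp_mixed` (with `L = l+5`) compares it with
`ref_k`, resp. `ref_{k+1}`. -/
theorem Gap_le_ref (k l : ℕ) (t : ℤ) (ht : |t| ≤ 2 ^ l) (x y : Matrix G G ℝ) :
    Gap k x y ((t : G) * 2 ^ (k + 1)) ≤
      ((Fp (k + 1) k x y 0 + Fp (k + 1) k x y (((-5 * 2 ^ k : ℤ)) : G))
        - (Fp (k + 2) (k + 1) x y 0 + Fp (k + 2) (k + 1) x y (((-5 * 2 ^ (k + 1) : ℤ)) : G)))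
      + 128 / 3 * ((pure k k x - pure (k + (l + 6)) (k + (l + 6)) x)
        + (pure k k y - pure (k + (l + 6)) (k + (l + 6)) y)) := by
  have hl : (1 : ℤ) ≤ 2 ^ l := one_le_pow₀ (by norm_num)
  have hp : (2 : ℤ) ^ (l + 5) = 32 * 2 ^ l := by ring
  have ht' := abs_le.mp ht
  have b : ∀ a : ℤ, -(16 * 2 ^ l) ≤ a → a ≤ 16 * 2 ^ l → 2 * |a| ≤ 2 ^ (l + 5) := by
    intro a h1 h2
    have := abs_le.mpr ⟨h1, h2⟩
    rw [hp]; linarith
  have h0 := Gap_nonneg k x y (((-5 - t : ℤ) : G) * 2 ^ (k + 1))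
  have h1 := Gap_le k x y ((t : G) * 2 ^ (k + 1))
  have h2 := Gap_le k x y (((-5 - t : ℤ) : G) * 2 ^ (k + 1))
  have m1 := abs_le.mp (Fp_mixed k (l + 5) (2 * t + 2) (-2 * t - 7) (b _ (by linarith) (by linarith))
    (b _ (by linarith) (by linarith)) x y)
  have m2 := abs_le.mp (Fp_mixed k (l + 5) (2 * t + 3) (-2 * t - 8) (b _ (by linarith) (by linarith))
    (b _ (by linarith) (by linarith)) x y)
  have m3 := abs_le.mp (Fp_mixed (k + 1) (l + 5) t (-5 - t) (b _ (by linarith) (by linarith))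
    (b _ (by linarith) (by linarith)) x y)
  have e1 : (t : G) * 2 ^ (k + 1) + 2 * 2 ^ k = ((2 * t + 2 : ℤ) : G) * 2 ^ k := by
    push_cast; ring
  have e2 : (t : G) * 2 ^ (k + 1) + 3 * 2 ^ k = ((2 * t + 3 : ℤ) : G) * 2 ^ k := by
    push_cast; ring
  have e3 : ((-5 - t : ℤ) : G) * 2 ^ (k + 1) + 2 * 2 ^ k = ((-2 * t - 8 : ℤ) : G) * 2 ^ k := by
    push_cast; ring
  have e4 : ((-5 - t : ℤ) : G) * 2 ^ (k + 1) + 3 * 2 ^ k = ((-2 * t - 7 : ℤ) : G) * 2 ^ k := by
    push_cast; ring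
  have e5 : ((2 * t + 2 + (-2 * t - 7) : ℤ) : G) * 2 ^ k = ((-5 * 2 ^ k : ℤ) : G) := by
    push_cast; ring
  have e6 : ((2 * t + 3 + (-2 * t - 8) : ℤ) : G) * 2 ^ k = ((-5 * 2 ^ k : ℤ) : G) := by
    push_cast; ring
  have e7 : ((t + (-5 - t) : ℤ) : G) * 2 ^ (k + 1) = ((-5 * 2 ^ (k + 1) : ℤ) : G) := by
    push_cast; ring
  rw [e1, e2] at h1
  rw [e3, e4] at h2
  rw [e5] at m1
  rw [e6] at m2
  rw [e7, show k + 1 + (l + 5) = k + (l + 6) by ring, show k + 1 + 1 = k + 2 from rfl] at m3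
  have p1 := GapSum.pure_diag_succ k x
  have p2 := GapSum.pure_diag_succ k y
  have p3 := GapSum.pure_diag_succ (k + (l + 5)) x
  have p4 := GapSum.pure_diag_succ (k + (l + 5)) y
  rw [show k + (l + 5) + 1 = k + (l + 6) by ring] at p3 p4
  linarith [m1.1, m2.1, m3.2]

/-- Sum `Gap_le_ref` over `k < K`.  The `ref` terms: `telescope` with `Fp_jump`
(`φ 0 0 = 2 pure 1 0 y ≤ 2 cub y`).  The pure terms: write
`π_k - π_{k+L} = ∑_{i<L} (π_{k+i} - π_{k+i+1})`, `L = l+6`, and use `telescope` with `pure_jump` for each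
`i` (for `y` plain telescoping and `pure_le_cub`). -/
theorem gapSum (K l : ℕ) (x : ℕ → Matrix G G ℝ) (y d : Matrix G G ℝ) (lam : ℝ) (hlam : 0 ≤ lam)
    (m₁ m₂ my : G → G → ℝ)
    (hm₁ : ∀ v, IsMaj (fun u => d u v) (m₁ v)) (hm₂ : ∀ u, IsMaj (fun v => d u v) (m₂ u))
    (hmy : ∀ v, IsMaj (fun w => y w v) (my v))
    (hx : ∀ k u v, |x k u v| ≤ lam * |d u v|) (V : G → G → ℝ)
    (hV : ∀ u v, |x 0 u v| + ∑ k ∈ range K, |x (k + 1) u v - x k u v| ≤ V u v)
    (t : ℕ → ℤ) (ht : ∀ k, |t k| ≤ 2 ^ l) :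
    ∑ k ∈ range K, Gap k (x k) y ((t k : G) * 2 ^ (k + 1)) ≤
      1000 * ((l : ℝ) + 1) *
        (cub y + lam * ∑ u, ∑ v, V u v * (m₂ u v * (lam * m₁ v u + my v (-u - v)))) := by
  set P : Matrix G G ℝ → Prop := fun z => ∀ u v, |z u v| ≤ lam * |d u v| with hP
  have hP0 : P 0 := fun u v => by simp; positivity
  have n1 : ∀ v u, 0 ≤ m₁ v u := fun v u => (hm₁ v).1 u
  have n2 : ∀ u v, 0 ≤ m₂ u v := fun u v => (hm₂ u).1 v
  have ny : ∀ v w, 0 ≤ my v w := fun v w => (hmy v).1 w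
  have nV : ∀ u v, 0 ≤ V u v := fun u v =>
    le_trans (add_nonneg (abs_nonneg _) (Finset.sum_nonneg fun _ _ => abs_nonneg _)) (hV u v)
  have ncub : 0 ≤ cub y := (pure_nonneg 0 0 y).trans (pure_le_cub 0 0 y)
  -- the two sums
  set A : ℝ := lam * ∑ u, ∑ v, V u v * (m₂ u v * (lam * m₁ v u)) with hA
  set B : ℝ := lam * ∑ u, ∑ v, V u v * (m₂ u v * my v (-u - v)) with hB
  have nA : 0 ≤ A := mul_nonneg hlam (Finset.sum_nonneg fun u _ => Finset.sum_nonneg fun v _ =>
    mul_nonneg (nV u v) (mul_nonneg (n2 u v) (mul_nonneg hlam (n1 v u))))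
  have nB : 0 ≤ B := mul_nonneg hlam (Finset.sum_nonneg fun u _ => Finset.sum_nonneg fun v _ =>
    mul_nonneg (nV u v) (mul_nonneg (n2 u v) (ny v _)))
  have eAB : lam * ∑ u, ∑ v, V u v * (m₂ u v * (lam * m₁ v u + my v (-u - v))) = A + B := by
    rw [hA, hB, ← mul_add, ← Finset.sum_add_distrib]
    congr 1
    refine Finset.sum_congr rfl fun u _ => ?_
    rw [← Finset.sum_add_distrib]
    exact Finset.sum_congr rfl fun v _ => by ring
  -- reference potentials
  have href := telescope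
    (fun k z => Fp (k + 1) k z y 0 + Fp (k + 1) k z y (((-5 * 2 ^ k : ℤ)) : G)) P
    (fun u v => 6 * lam * (m₂ u v * (lam * m₁ v u + 4 * my v (-u - v))))
    (fun u v => by have := n1 v u; have := n2 u v; have := ny v (-u - v); positivity)
    (fun k z => add_nonneg (Fp_nonneg _ _ _ _ _) (Fp_nonneg _ _ _ _ _)) hP0
    (fun k z z' hz hz' => by
      have hk : (0 : ℤ) < 2 ^ k := by positivity
      have j1 := Fp_jump (k + 1) k (Nat.le_succ k) le_rfl 0 (by linarith) le_rfl z z' y d lam hlam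
        m₁ m₂ my hm₁ hm₂ hmy hz hz'
      have j2 := Fp_jump (k + 1) k (Nat.le_succ k) le_rfl (-5 * 2 ^ k) le_rfl (by linarith) z z' y d
        lam hlam m₁ m₂ my hm₁ hm₂ hmy hz hz'
      rw [Int.cast_zero] at j1
      have e : ∑ u, ∑ v, |z' u v - z u v| *
          (6 * lam * (m₂ u v * (lam * m₁ v u + 4 * my v (-u - v)))) =
          2 * (3 * lam * ∑ u, ∑ v, |z' u v - z u v| *
            (m₂ u v * (lam * m₁ v u + 4 * my v (-u - v)))) := by
        simp only [Finset.mul_sum]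
        exact Finset.sum_congr rfl fun u _ => Finset.sum_congr rfl fun v _ => by ring
      rw [e]
      linarith)
    K x hx V hV
  have e1 : ∑ u, ∑ v, V u v * (6 * lam * (m₂ u v * (lam * m₁ v u + 4 * my v (-u - v)))) =
      6 * A + 24 * B := by
    rw [hA, hB]
    simp only [Finset.mul_sum, ← Finset.sum_add_distrib]
    exact Finset.sum_congr rfl fun u _ => Finset.sum_congr rfl fun v _ => by ring
  rw [e1, Fp_zero_left, Fp_zero_left] at href
  have c1 := pure_le_cub (0 + 1) 0 y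
  -- pure potentials of the changing kernel
  have hpx : ∑ k ∈ range K, (pure k k (x k) - pure (k + (l + 6)) (k + (l + 6)) (x k)) ≤
      ((l + 6 : ℕ) : ℝ) * (3 * A) := by
    simp only [GapSum.pure_sub_eq]
    rw [Finset.sum_comm]
    calc _ ≤ ∑ _i ∈ range (l + 6), 3 * A := by
          refine Finset.sum_le_sum fun i _ => ?_
          have h := telescope (fun k z => pure (k + i) (k + i) z) P
            (fun u v => 3 * lam * (m₂ u v * (lam * m₁ v u)))
            (fun u v => by have := n1 v u; have := n2 u v; positivity)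
            (fun k z => pure_nonneg _ _ _) hP0
            (fun k z z' hz hz' => by
              have j1 := pure_jump (k + i) z z' d lam hlam m₁ m₂ hm₁ hm₂ hz hz'
              have e : ∑ u, ∑ v, |z' u v - z u v| * (3 * lam * (m₂ u v * (lam * m₁ v u))) =
                  3 * lam * ∑ u, ∑ v, |z' u v - z u v| * (m₂ u v * (lam * m₁ v u)) := by
                simp only [Finset.mul_sum]
                exact Finset.sum_congr rfl fun u _ => Finset.sum_congr rfl fun v _ => by ring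
              rw [e]
              exact j1)
            K x hx V hV
          have e : ∑ u, ∑ v, V u v * (3 * lam * (m₂ u v * (lam * m₁ v u))) = 3 * A := by
            rw [hA]
            simp only [Finset.mul_sum]
            exact Finset.sum_congr rfl fun u _ => Finset.sum_congr rfl fun v _ => by ring
          rw [e, pure_zero, zero_add] at h
          exact h
      _ = _ := by simp
  have hpy := GapSum.sum_pure_const K (l + 6) y
  have hsum := Finset.sum_le_sum (s := range K) fun k _ => Gap_le_ref k l (t k) (ht k) (x k) y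
  rw [Finset.sum_add_distrib, ← Finset.mul_sum, Finset.sum_add_distrib] at hsum
  rw [eAB]
  push_cast at hpx hpy
  have hl : (0 : ℝ) ≤ l := Nat.cast_nonneg l
  have q1 : 0 ≤ (l : ℝ) * A := mul_nonneg hl nA
  have q2 : 0 ≤ (l : ℝ) * B := mul_nonneg hl nB
  have q3 : 0 ≤ (l : ℝ) * cub y := mul_nonneg hl ncub
  nlinarith

end Crest.Agent.R72
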