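import Crest.Agent.R72.Defs

/-! # R72 task Maximal: the `ℓ^{3/2}` maximal inequality on a finite ring

The proof given here is the classical one: Hopf's maximal inequality (Garsia's proof) for the
shifts `z ↦ z ± 1`, followed by the layer cake formula and Young's inequality. -/

set_option autoImplicit false

namespace Crest.Agent.R72

open Matrix Finset
open scoped MatrixOrder

namespace Maximal

variable {G : Type} [CommRing G] [Fintype G]

/-- Birkhoff sums along the shift by `u` -/
noncomputable def S (u : G) (h : G → ℝ) (n : ℕ) (z : G) : ℝ := ∑ t ∈ range n, h (z + (t : G) * u)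

omit [Fintype G] in
theorem S_succ (u : G) (h : G → ℝ) (n : ℕ) (z : G) : S u h (n + 1) z = h z + S u h n (z + u) := by
  unfold S
  rw [sum_range_succ', add_comm]
  congr 1
  · simp
  · refine sum_congr rfl fun t _ => ?_
    congr 1
    push_cast
    ring

open Classical in
/-- Hopf's maximal inequality -/
theorem hopf (u : G) (h : G → ℝ) : 0 ≤ ∑ z, if ∃ n, 0 < S u h n z then h z else 0 := by
  have h0 : ∀ z, ∃ n, (∃ n, 0 < S u h n z) → 0 < S u h n z := fun z => by
    by_cases hz : ∃ n, 0 < S u h n z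
    · exact ⟨hz.choose, fun _ => hz.choose_spec⟩
    · exact ⟨0, fun h => absurd h hz⟩
  choose w hw using h0
  let N := univ.sup w
  let U : G → ℝ := fun z => (range (N + 1)).sup' nonempty_range_add_one fun n => S u h n z
  have hU : ∀ z n, n ≤ N → S u h n z ≤ U z := fun z n hn =>
    le_sup' (fun n => S u h n z) (mem_range.2 (Nat.lt_succ_of_le hn))
  have hU0 : ∀ z, 0 ≤ U z := fun z => by simpa [S] using hU z 0 (Nat.zero_le _)
  have key : ∀ z, U z ≤ (if ∃ n, 0 < S u h n z then h z else 0) + U (z + u) := by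
    intro z
    obtain ⟨n, hn, he⟩ := exists_mem_eq_sup' (nonempty_range_add_one (n := N)) fun n => S u h n z
    have he' : U z = S u h n z := he
    split_ifs with hz
    · have h1 : 0 < U z := (hw z hz).trans_le (hU z _ (le_sup (f := w) (mem_univ z)))
      rcases n with _ | n
      · rw [he'] at h1
        simp [S] at h1
      · rw [he', S_succ]
        have := mem_range.1 hn
        exact add_le_add le_rfl (hU _ _ (by omega))
    · have h1 : S u h n z ≤ 0 := not_lt.1 fun h => hz ⟨n, h⟩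
      have := hU0 (z + u)
      linarith
  have h1 := sum_le_sum fun z (_ : z ∈ univ) => key z
  rw [sum_add_distrib, Equiv.sum_comp (Equiv.addRight u) U |> fun h => (h : ∑ z, U (z + u) = _)]
    at h1
  linarith

omit [CommRing G] in
open Classical in
/-- layer cake -/
theorem layer (g m : G → ℝ) (hm : ∀ z, 0 ≤ m z)
    (h : ∀ s, 0 < s → 0 ≤ ∑ z, if s < m z then g z - s ^ 2 else 0) :
    ∑ z, m z ^ 3 ≤ 3 * ∑ z, g z * m z := by
  let F : G → ℝ → ℝ := fun z => (Set.Ioo 0 (m z)).indicator fun s => g z - s ^ 2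
  have hc : ∀ z, Continuous fun s : ℝ => g z - s ^ 2 := fun z => by fun_prop
  have hF : ∀ z, MeasureTheory.Integrable (F z) := fun z =>
    (MeasureTheory.integrable_indicator_iff measurableSet_Ioo).2
      (((hc z).integrableOn_Icc (a := 0) (b := m z)).mono_set Set.Ioo_subset_Icc_self)
  have hI : ∀ z, ∫ s, F z s = g z * m z - m z ^ 3 / 3 := fun z => by
    rw [MeasureTheory.integral_indicator measurableSet_Ioo,
      ← MeasureTheory.integral_Ioc_eq_integral_Ioo, ← intervalIntegral.integral_of_le (hm z),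
      intervalIntegral.integral_sub (by simp) (by simp)]
    simp only [intervalIntegral.integral_const, integral_pow]
    norm_num
    ring
  have h1 : 0 ≤ ∫ s, ∑ z, F z s := by
    refine MeasureTheory.integral_nonneg fun s => ?_
    by_cases hs : 0 < s
    · refine (h s hs).trans (le_of_eq (sum_congr rfl fun z _ => ?_))
      simp [F, Set.indicator_apply, hs]
    · refine le_of_eq (sum_eq_zero fun z _ => ?_).symm
      simp [F, hs]
  rw [MeasureTheory.integral_finsetSum _ fun z _ => hF z] at h1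
  simp only [hI, sum_sub_distrib, ← sum_div] at h1
  linarith

/-- the one-sided maximal inequality -/
theorem one_sided (u : G) (f : G → ℝ) : ∃ m : G → ℝ, (∀ z, 0 ≤ m z) ∧
    (∀ n z, S u (fun t => f t ^ 2) n z ≤ n * m z ^ 2) ∧ ∑ z, m z ^ 3 ≤ 6 * ∑ z, |f z| ^ 3 := by
  classical
  let A : G → ℕ → ℝ := fun z n => S u (fun t => f t ^ 2) (n + 1) z / (n + 1 : ℕ)
  have hb : ∀ z, BddAbove (Set.range (A z)) := fun z => by
    refine ⟨∑ t, f t ^ 2, ?_⟩
    rintro _ ⟨n, rfl⟩
    refine (div_le_iff₀' (by positivity)).2 ?_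
    have := sum_le_card_nsmul (range (n + 1)) (fun t : ℕ => f (z + (t : G) * u) ^ 2) (∑ t, f t ^ 2)
      fun t _ => single_le_sum (f := fun t => f t ^ 2) (fun _ _ => sq_nonneg _) (mem_univ _)
    simpa [S] using this
  have hA0 : ∀ z n, 0 ≤ A z n := fun z n =>
    div_nonneg (sum_nonneg fun _ _ => sq_nonneg _) (by positivity)
  have hM0 : ∀ z, 0 ≤ ⨆ n, A z n := fun z => (hA0 z 0).trans (le_ciSup (hb z) 0)
  have hm : ∀ z, 0 ≤ √(⨆ n, A z n) := fun z => Real.sqrt_nonneg _
  refine ⟨fun z => √(⨆ n, A z n), hm, fun n z => ?_, ?_⟩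
  · rcases n with _ | n
    · simp [S]
    · rw [Real.sq_sqrt (hM0 z)]
      exact (div_le_iff₀' (by positivity)).1 (le_ciSup (hb z) n)
  · have h1 := layer (fun t => f t ^ 2) (fun z => √(⨆ n, A z n)) hm fun s hs => by
      refine (hopf u fun t => f t ^ 2 - s ^ 2).trans (le_of_eq (sum_congr rfl fun z _ => ?_))
      have hS : ∀ n, S u (fun t => f t ^ 2 - s ^ 2) n z = S u (fun t => f t ^ 2) n z - n * s ^ 2 :=
        fun n => by simp [S, sum_sub_distrib]
      refine if_congr ?_ rfl rfl
      rw [Real.lt_sqrt hs.le, lt_ciSup_iff (hb z)]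
      constructor
      · rintro ⟨_ | n, hn⟩
        · simp [S] at hn
        · refine ⟨n, (lt_div_iff₀' (by positivity)).2 ?_⟩
          rw [hS] at hn
          linarith
      · rintro ⟨n, hn⟩
        refine ⟨n + 1, ?_⟩
        have := (lt_div_iff₀' (by positivity)).1 hn
        rw [hS]
        linarith
    have h2 : ∀ z, 3 * (f z ^ 2 * √(⨆ n, A z n)) ≤ √(⨆ n, A z n) ^ 3 / 2 + 3 * |f z| ^ 3 := by
      intro z
      rw [← sq_abs (f z)]
      have ha := abs_nonneg (f z)
      have hb := hm z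
      generalize |f z| = a at *
      generalize √(⨆ n, A z n) = b at *
      nlinarith [mul_nonneg hb (sq_nonneg (b - 3 / 2 * a)), mul_nonneg ha (sq_nonneg (b - 3 / 2 * a)),
        mul_nonneg ha (sq_nonneg a), mul_nonneg hb (sq_nonneg a), mul_nonneg ha (sq_nonneg b)]
    have h3 := sum_le_sum fun z (_ : z ∈ univ) => h2 z
    rw [← mul_sum, sum_add_distrib, ← sum_div, ← mul_sum] at h3
    linarith

end Maximal

/-- The uncentred window maximal function of `f²` is bounded on `ℓ^{3/2}`. -/
theorem maximal : ∃ C : ℝ, 0 ≤ C ∧ ∀ (G : Type) [CommRing G] [Fintype G] [DecidableEq G]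
    (f : G → ℝ), ∃ m : G → ℝ, IsMaj f m ∧ ∑ z, m z ^ 3 ≤ C * ∑ z, |f z| ^ 3 := by
  refine ⟨48, by norm_num, fun G _ _ _ f => ?_⟩
  obtain ⟨a, ha0, ha1, ha2⟩ := Maximal.one_sided (1 : G) f
  obtain ⟨b, hb0, hb1, hb2⟩ := Maximal.one_sided (-1 : G) f
  refine ⟨fun z => a z + b z, ⟨fun z => add_nonneg (ha0 z) (hb0 z), fun j i z hi => ?_⟩, ?_⟩
  · unfold avg
    rw [div_le_iff₀' (by positivity)]
    obtain ⟨k, hk⟩ := Nat.exists_eq_add_of_le hi.le
    have h1 : ∑ t ∈ range i, f (z - i + t) ^ 2 ≤ (i + 1 : ℕ) * b z ^ 2 := by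
      refine le_trans ?_ (hb1 (i + 1) z)
      unfold Maximal.S
      rw [← sum_range_reflect _ (i + 1), sum_range_succ]
      refine le_trans (le_of_eq (sum_congr rfl fun t ht => ?_)) (le_add_of_nonneg_right (sq_nonneg _))
      have := mem_range.1 ht
      rw [show i + 1 - 1 - t = i - t by omega, Nat.cast_sub this.le]
      congr 2
      ring
    have h2 : ∑ t ∈ range k, f (z - i + (i + t : ℕ)) ^ 2 ≤ k * a z ^ 2 := by
      refine le_trans (le_of_eq (sum_congr rfl fun t _ => ?_)) (ha1 k z)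
      congr 2
      push_cast
      ring
    have h3 : ((i + 1 : ℕ) : ℝ) ≤ 2 ^ j := by exact_mod_cast hi
    have h4 : (k : ℝ) ≤ 2 ^ j := by exact_mod_cast (by omega : k ≤ 2 ^ j)
    have h5 := mul_le_mul_of_nonneg_right h3 (sq_nonneg (b z))
    have h6 := mul_le_mul_of_nonneg_right h4 (sq_nonneg (a z))
    have h7 : 0 ≤ (2 : ℝ) ^ j * (a z * b z) := mul_nonneg (by positivity) (mul_nonneg (ha0 z) (hb0 z))
    rw [hk, sum_range_add]
    nlinarith
  · have h1 : ∀ z, (a z + b z) ^ 3 ≤ 4 * (a z ^ 3 + b z ^ 3) := fun z => by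
      nlinarith [mul_nonneg (add_nonneg (ha0 z) (hb0 z)) (sq_nonneg (a z - b z))]
    have h2 := sum_le_sum fun z (_ : z ∈ univ) => h1 z
    rw [← mul_sum, sum_add_distrib] at h2
    linarith

end Crest.Agent.R72
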