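import Crest.Agent.R72.GapSum
import Crest.Agent.R72.Maximal

/-! # R72 task Key: the key proposition -/

set_option autoImplicit false

namespace Crest.Agent.R72

open Matrix Finset
open scoped MatrixOrder

namespace Key

variable {G : Type} [CommRing G] [Fintype G] [DecidableEq G]

omit [CommRing G] [DecidableEq G] in
theorem cub_nonneg (x : Matrix G G ℝ) : 0 ≤ cub x :=
  sum_nonneg fun _ _ => sum_nonneg fun _ _ => by positivity

omit [CommRing G] [DecidableEq G] in
theorem cub_transpose (x : Matrix G G ℝ) : cub xᵀ = cub x := sum_comm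

omit [CommRing G] [DecidableEq G] in
theorem tri {f g h : G → G → ℝ} (hf : ∀ u v, 0 ≤ f u v) (hg : ∀ u v, 0 ≤ g u v)
    (hh : ∀ u v, 0 ≤ h u v) : 3 * ∑ u, ∑ v, f u v * (g u v * h u v) ≤
      ∑ u, ∑ v, f u v ^ 3 + ∑ u, ∑ v, g u v ^ 3 + ∑ u, ∑ v, h u v ^ 3 := by
  simp only [mul_sum, ← sum_add_distrib]
  refine sum_le_sum fun u _ => sum_le_sum fun v _ => ?_
  have h1 := hf u v
  have h2 := hg u v
  have h3 := hh u v
  generalize f u v = x at *
  generalize g u v = y at *
  generalize h u v = z at *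
  nlinarith [mul_nonneg (add_nonneg (add_nonneg h1 h2) h3)
    (add_nonneg (add_nonneg (sq_nonneg (x - y)) (sq_nonneg (y - z))) (sq_nonneg (z - x)))]

omit [DecidableEq G] in
theorem sum_third (m : G → G → ℝ) : ∑ u, ∑ v, m u (-v - u) = ∑ u, ∑ v, m u v :=
  sum_congr rfl fun u _ => Equiv.sum_comp ((Equiv.neg G).trans (Equiv.subRight u)) (m u)

omit [DecidableEq G] in
theorem sum_third' (m : G → G → ℝ) : ∑ u, ∑ v, m v (-u - v) = ∑ u, ∑ v, m u v := by
  rw [sum_comm, sum_third]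

theorem split_offset (k l : ℕ) (o : ℤ) (ho : |o| ≤ 2 ^ (k + l)) :
    ∃ (t : ℤ) (s : ℕ), |t| ≤ 2 ^ l ∧ s ≤ 2 ^ (k + 1) ∧ o = t * 2 ^ (k + 1) + s := by
  have hp : (0 : ℤ) < 2 ^ (k + 1) := by positivity
  have h1 : (2 : ℤ) ^ (k + l) ≤ 2 ^ l * 2 ^ (k + 1) := by
    rw [← pow_add]
    exact pow_le_pow_right₀ (by norm_num) (by omega)
  obtain ⟨h2, h3⟩ := abs_le.1 (ho.trans h1)
  have h4 := Int.emod_nonneg o hp.ne'
  have h5 := Int.emod_lt_of_pos o hp
  refine ⟨o / 2 ^ (k + 1), (o % 2 ^ (k + 1)).toNat, abs_le.2 ⟨?_, ?_⟩, ?_, ?_⟩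
  · exact (Int.le_ediv_iff_mul_le hp).2 (by linarith)
  · exact Int.ediv_le_of_le_mul hp h3
  · rw [Int.toNat_le]
    push_cast
    exact h5.le
  · rw [Int.toNat_of_nonneg h4]
    exact (Int.ediv_mul_add_emod _ _).symm

end Key

/-- Take majorants (`maximal`) of all rows and columns of `d, b, c`.  Write
`o k = t k · 2^(k+1) + s k` with `0 ≤ s k < 2^(k+1)`, `|t k| ≤ 2^l` (Euclidean division), use `loc_le_Gap` and
`gapSum` three times: `(x, y, d) = (aᵀ, c, dᵀ)`, `(a, bᵀ, d)` and `(b, cᵀ, b)` (the last with constant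
kernel, `lam = 1`, `V = |b|`).  `M u v` is the sum of the four products of two majorants that occur in the
first two; `|d| m m' ≤ (|d|³ + m³ + m'³)/3` and the bijections `(u,v) ↦ (v, -u-v)` etc. give the bound for
`∑ |d| M` and for the third application. -/
theorem key : ∃ C : ℝ, 0 ≤ C ∧ ∀ (G : Type) [CommRing G] [Fintype G] [DecidableEq G]
    (d b c : Matrix G G ℝ), ∃ M : G → G → ℝ, (∀ u v, 0 ≤ M u v) ∧
      (∑ u, ∑ v, |d u v| * M u v ≤ C * (cub d + cub b + cub c)) ∧
      ∀ (K l : ℕ) (lam : ℝ) (a : ℕ → Matrix G G ℝ) (V : G → G → ℝ) (o : ℕ → ℤ), 0 ≤ lam →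
        (∀ k u v, |a k u v| ≤ lam * |d u v|) →
        (∀ u v, |a 0 u v| + ∑ k ∈ range K, |a (k + 1) u v - a k u v| ≤ V u v) →
        (∀ k, |o k| ≤ 2 ^ (k + l)) →
        ∑ k ∈ range K, |loc k (a k) b c (o k : G)| ≤
          C * ((l : ℝ) + 1) *
            (cub d + cub b + cub c + lam * (1 + lam) * ∑ u, ∑ v, V u v * M u v) := by
  obtain ⟨C, hC, hmax⟩ := maximal
  refine ⟨8000 * (3 + C), by positivity, fun G _ _ _ d b c => ?_⟩
  have hrow : ∀ x : Matrix G G ℝ, ∃ m : G → G → ℝ, (∀ u, IsMaj (fun v => x u v) (m u)) ∧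
      ∑ u, ∑ v, m u v ^ 3 ≤ C * cub x := fun x => by
    choose m hm using fun u => hmax G fun v => x u v
    refine ⟨m, fun u => (hm u).1, ?_⟩
    unfold cub
    rw [mul_sum]
    exact sum_le_sum fun u _ => (hm u).2
  obtain ⟨dr, hdr, sdr⟩ := hrow d
  obtain ⟨dc, hdc, sdc⟩ := hrow dᵀ
  obtain ⟨br, hbr, sbr⟩ := hrow b
  obtain ⟨bc, hbc, sbc⟩ := hrow bᵀ
  obtain ⟨cr, hcr, scr⟩ := hrow c
  obtain ⟨cc, hcc, scc⟩ := hrow cᵀ
  rw [Key.cub_transpose] at sdc sbc scc
  have hd0 := Key.cub_nonneg d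
  have hb0 := Key.cub_nonneg b
  have hc0 := Key.cub_nonneg c
  have hCd := mul_nonneg hC hd0
  have hCb := mul_nonneg hC hb0
  have hCc := mul_nonneg hC hc0
  refine ⟨fun u v => dr u v * dc v u + dc v u * cc u (-v - u) + dr u v * br v (-u - v),
    fun u v => add_nonneg (add_nonneg (mul_nonneg ((hdr _).1 _) ((hdc _).1 _))
      (mul_nonneg ((hdc _).1 _) ((hcc _).1 _))) (mul_nonneg ((hdr _).1 _) ((hbr _).1 _)), ?_, ?_⟩
  · have h1 := Key.tri (f := fun u v => |d u v|) (g := dr) (h := fun u v => dc v u)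
      (fun _ _ => abs_nonneg _) (fun _ _ => (hdr _).1 _) (fun _ _ => (hdc _).1 _)
    have h2 := Key.tri (f := fun u v => |d u v|) (g := fun u v => dc v u)
      (h := fun u v => cc u (-v - u))
      (fun _ _ => abs_nonneg _) (fun _ _ => (hdc _).1 _) (fun _ _ => (hcc _).1 _)
    have h3 := Key.tri (f := fun u v => |d u v|) (g := dr) (h := fun u v => br v (-u - v))
      (fun _ _ => abs_nonneg _) (fun _ _ => (hdr _).1 _) (fun _ _ => (hbr _).1 _)
    rw [sum_comm (f := fun u v => dc v u ^ 3)] at h1 h2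
    rw [Key.sum_third fun u v => cc u v ^ 3] at h2
    rw [Key.sum_third' fun u v => br u v ^ 3] at h3
    change _ ≤ cub d + _ + _ at h1 h2 h3
    simp only [mul_add (|d _ _|), sum_add_distrib]
    nlinarith
  · intro K l lam a V o hlam ha hV ho
    choose t s ht hs hts using fun k => Key.split_offset k l (o k) (ho k)
    have hV0 : ∀ u v, 0 ≤ V u v := fun u v =>
      le_trans (add_nonneg (abs_nonneg _) (sum_nonneg fun _ _ => abs_nonneg _)) (hV u v)
    have g1 := gapSum K l (fun k => (a k)ᵀ) c dᵀ lam hlam dr dc cc hdr hdc hcc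
      (fun k u v => ha k v u) (fun u v => V v u) (fun u v => hV v u) t ht
    have g2 := gapSum K l a bᵀ d lam hlam dc dr br hdc hdr hbr ha V hV t ht
    have g3 := gapSum K l (fun _ => b) cᵀ b 1 zero_le_one bc br cr hbc hbr hcr
      (fun _ _ _ => by rw [one_mul]) (fun u v => |b u v|) (fun u v => by simp) t ht
    rw [sum_comm (f := fun u v => V v u * _)] at g1
    rw [Key.cub_transpose] at g2 g3
    have h1 := Key.tri (f := fun u v => |b u v|) (g := br) (h := fun u v => bc v u)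
      (fun _ _ => abs_nonneg _) (fun _ _ => (hbr _).1 _) (fun _ _ => (hbc _).1 _)
    have h2 := Key.tri (f := fun u v => |b u v|) (g := br) (h := fun u v => cr v (-u - v))
      (fun _ _ => abs_nonneg _) (fun _ _ => (hbr _).1 _) (fun _ _ => (hcr _).1 _)
    rw [sum_comm (f := fun u v => bc v u ^ 3)] at h1
    rw [Key.sum_third' fun u v => cr u v ^ 3] at h2
    change _ ≤ cub b + _ + _ at h1 h2
    simp only [one_mul, mul_add (br _ _), mul_add (|b _ _|), sum_add_distrib] at g3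
    set W := lam * (1 + lam) * ∑ u, ∑ v,
      V u v * (dr u v * dc v u + dc v u * cc u (-v - u) + dr u v * br v (-u - v)) with hW
    have hW0 : 0 ≤ W := mul_nonneg (by positivity) (sum_nonneg fun u _ => sum_nonneg fun v _ =>
      mul_nonneg (hV0 u v) (add_nonneg (add_nonneg (mul_nonneg ((hdr _).1 _) ((hdc _).1 _))
      (mul_nonneg ((hdc _).1 _) ((hcc _).1 _))) (mul_nonneg ((hdr _).1 _) ((hbr _).1 _))))
    have w1 : lam * ∑ u, ∑ v, V u v * (dc v u * (lam * dr u v + cc u (-v - u))) ≤ W := by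
      rw [hW, mul_assoc]
      refine mul_le_mul_of_nonneg_left ?_ hlam
      simp only [mul_sum]
      refine sum_le_sum fun u _ => sum_le_sum fun v _ => ?_
      rw [mul_left_comm (1 + lam)]
      refine mul_le_mul_of_nonneg_left ?_ (hV0 u v)
      have e1 := mul_nonneg ((hdr u).1 v) ((hdc v).1 u)
      have e2 := mul_nonneg ((hdc v).1 u) ((hcc u).1 (-v - u))
      have e3 := mul_nonneg ((hdr u).1 v) ((hbr v).1 (-u - v))
      nlinarith [mul_nonneg hlam e2, mul_nonneg hlam e3]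
    have w2 : lam * ∑ u, ∑ v, V u v * (dr u v * (lam * dc v u + br v (-u - v))) ≤ W := by
      rw [hW, mul_assoc]
      refine mul_le_mul_of_nonneg_left ?_ hlam
      simp only [mul_sum]
      refine sum_le_sum fun u _ => sum_le_sum fun v _ => ?_
      rw [mul_left_comm (1 + lam)]
      refine mul_le_mul_of_nonneg_left ?_ (hV0 u v)
      have e1 := mul_nonneg ((hdr u).1 v) ((hdc v).1 u)
      have e2 := mul_nonneg ((hdc v).1 u) ((hcc u).1 (-v - u))
      have e3 := mul_nonneg ((hdr u).1 v) ((hbr v).1 (-u - v))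
      nlinarith [mul_nonneg hlam e2, mul_nonneg hlam e3]
    have hloc : ∑ k ∈ range K, |loc k (a k) b c (o k : G)| ≤ 64 / 9 *
        (∑ k ∈ range K, Gap k (a k)ᵀ c ((t k : G) * 2 ^ (k + 1)) +
          ∑ k ∈ range K, Gap k (a k) bᵀ ((t k : G) * 2 ^ (k + 1)) +
          ∑ k ∈ range K, Gap k b cᵀ ((t k : G) * 2 ^ (k + 1))) := by
      rw [← sum_add_distrib, ← sum_add_distrib, mul_sum]
      refine sum_le_sum fun k _ => ?_
      have e : (o k : G) = (t k : G) * 2 ^ (k + 1) + (s k : G) := by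
        rw [hts k]
        push_cast
        rfl
      rw [e]
      exact loc_le_Gap k (a k) b c _ (s k) (hs k)
    have hl : (0 : ℝ) ≤ 1000 * ((l : ℝ) + 1) := by positivity
    refine hloc.trans ((mul_le_mul_of_nonneg_left (add_le_add (add_le_add g1 g2) g3)
      (by norm_num)).trans ?_)
    rw [← mul_add, ← mul_add, mul_left_comm,
      show 8000 * (3 + C) * ((l : ℝ) + 1) * (cub d + cub b + cub c + W) =
        1000 * ((l : ℝ) + 1) * (8 * (3 + C) * (cub d + cub b + cub c + W)) by ring]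
    refine mul_le_mul_of_nonneg_left ?_ hl
    have hCW := mul_nonneg hC hW0
    nlinarith

end Crest.Agent.R72
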