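import Crest.Agent.R72.MatQ

/-! # R72 task Local: the local trilinear inequality -/

set_option autoImplicit false

namespace Crest.Agent.R72

open Matrix Finset
open scoped MatrixOrder

variable {ι : Type*} [Fintype ι] [DecidableEq ι]

namespace Local

theorem sq_nonneg_of_symm {Y : Matrix ι ι ℝ} (hY : Yᵀ = Y) : 0 ≤ Y * Y := by
  have := transpose_mul_self_nonneg Y
  rwa [hY] at this

theorem mul_transpose_nonneg (X : Matrix ι ι ℝ) : 0 ≤ X * Xᵀ := by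
  have := transpose_mul_self_nonneg Xᵀ
  rwa [transpose_transpose] at this

/-- one half of the Hölder estimate -/
theorem tr_young {Y Y' N : Matrix ι ι ℝ} (h : Nᵀ * N ≤ Y * Y) :
    trace (rt (Y' * Y') * (N * Nᵀ)) ≤ psi (Y' * Y') / 3 + 2 / 3 * psi (Y * Y) := by
  have h1 := young (mul_transpose_nonneg N) (rt_nonneg (Y' * Y'))
  have h2 : psi (N * Nᵀ) ≤ psi (Y * Y) := by
    rw [psi_mul_transpose]; exact psi_mono (transpose_mul_self_nonneg N) h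
  have h3 : psi (Y' * Y') = trace (rt (Y' * Y') * rt (Y' * Y') * rt (Y' * Y')) := rfl
  rw [trace_mul_comm]
  linarith

theorem contr_mul {P Q : Matrix ι ι ℝ} (hP : Pᵀ * P ≤ 1) (hQ : Qᵀ * Q ≤ 1) :
    (P * Q)ᵀ * (P * Q) ≤ 1 := by
  have := conj_le hP Q
  rw [Matrix.mul_one] at this
  refine le_trans (le_of_eq ?_) (this.trans hQ)
  simp only [transpose_mul, Matrix.mul_assoc]

/-- the grouped terms -/
theorem mid {K C R R' Y Y' : Matrix ι ι ℝ} (hK : Kᵀ * K ≤ 1) (hR : 0 ≤ R) (hR' : 0 ≤ R')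
    (h1 : C * Cᵀ ≤ R * R) (h2 : Cᵀ * C ≤ R' * R') (hY : Yᵀ = Y) (hY' : Y'ᵀ = Y') :
    |trace (K * Y * C * Y')| ≤ (trace (R * Y * Y) + trace (R' * Y' * Y')) / 2 := by
  have h := block_cs hR hR' h1 h2 (K * Y)ᵀ Y'
  rw [transpose_transpose, hY', transpose_mul, hY] at h
  have h3 : 0 ≤ Y * R * Y := by
    have := conj_le hR Y
    rwa [hY, Matrix.mul_zero, Matrix.zero_mul] at this
  have h4 := trace_mul_mono h3 hK
  have e1 : trace (K * Y * R * (Y * Kᵀ)) = trace (Y * R * Y * (Kᵀ * K)) := by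
    simp only [Matrix.mul_assoc]
    rw [trace_mul_comm K]
    simp only [Matrix.mul_assoc]
  have e2 : trace (Y * R * Y * 1) = trace (R * Y * Y) := by
    rw [Matrix.mul_one, Matrix.mul_assoc, trace_mul_comm]
  have e3 : trace (Y' * R' * Y') = trace (R' * Y' * Y') := by
    rw [Matrix.mul_assoc, trace_mul_comm]
  linarith

omit [DecidableEq ι] in
theorem expand8 (A B C L₀ R₀ L₁ R₁ L₂ R₂ : Matrix ι ι ℝ) :
    trace ((L₀ + R₀) * A * (L₁ + R₁) * B * (L₂ + R₂) * C) =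
      trace (L₀ * A * L₁ * B * L₂ * C) + trace (R₀ * A * R₁ * B * R₂ * C)
      + trace (R₀ * A * (L₁ + R₁) * B * L₂ * C) + trace (L₀ * A * R₁ * B * (L₂ + R₂) * C)
      + trace ((L₀ + R₀) * A * L₁ * B * R₂ * C) := by
  simp only [Matrix.add_mul, Matrix.mul_add, trace_add]
  ring

theorem inv_facts {R : Matrix ι ι ℝ} (hR : R.PosDef) :
    R⁻¹ * R = 1 ∧ R * R⁻¹ = 1 ∧ (R⁻¹)ᵀ = R⁻¹ := by
  have hu : IsUnit R.det := (Matrix.isUnit_iff_isUnit_det R).1 hR.isUnit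
  refine ⟨Matrix.nonsing_inv_mul R hu, Matrix.mul_nonsing_inv R hu, ?_⟩
  rw [transpose_nonsing_inv, symm_of_nonneg hR.posSemidef.nonneg]

theorem H_eq {R H Y : Matrix ι ι ℝ} (hR : R.PosDef) (e : R * Y + Y * R = R * H * R) :
    H = R⁻¹ * Y + Y * R⁻¹ := by
  obtain ⟨h1, h2, -⟩ := inv_facts hR
  have h3 : R⁻¹ * (R * Y + Y * R) * R⁻¹ = R⁻¹ * (R * H * R) * R⁻¹ := by rw [e]
  have h4 : R⁻¹ * (R * H * R) * R⁻¹ = H := by
    rw [show R⁻¹ * (R * H * R) * R⁻¹ = (R⁻¹ * R) * H * (R * R⁻¹) by simp only [Matrix.mul_assoc],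
      h1, h2, Matrix.one_mul, Matrix.mul_one]
  have h5 : R⁻¹ * (R * Y + Y * R) * R⁻¹ = (R⁻¹ * R) * Y * R⁻¹ + R⁻¹ * Y * (R * R⁻¹) := by
    simp only [Matrix.mul_add, Matrix.add_mul, Matrix.mul_assoc]
  rw [h5, h4, h1, h2, Matrix.one_mul, Matrix.mul_one] at h3
  rw [← h3, add_comm]

theorem contr_right {R A : Matrix ι ι ℝ} (hR : R.PosDef) (h : Aᵀ * A ≤ R * R) :
    (A * R⁻¹)ᵀ * (A * R⁻¹) ≤ 1 := by
  obtain ⟨h1, h2, h3⟩ := inv_facts hR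
  have := conj_le h R⁻¹
  rw [h3, show R⁻¹ * (R * R) * R⁻¹ = (R⁻¹ * R) * (R * R⁻¹) by simp only [Matrix.mul_assoc],
    h1, h2, Matrix.one_mul] at this
  refine le_trans (le_of_eq ?_) this
  simp only [transpose_mul, h3, Matrix.mul_assoc]

theorem contr_left {R A : Matrix ι ι ℝ} (hR : R.PosDef) (h : A * Aᵀ ≤ R * R) :
    (R⁻¹ * A) * (R⁻¹ * A)ᵀ ≤ 1 := by
  have := contr_right (A := Aᵀ) hR (by rwa [transpose_transpose])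
  obtain ⟨-, -, h3⟩ := inv_facts hR
  refine le_trans (le_of_eq ?_) this
  simp only [transpose_mul, h3, transpose_transpose]

theorem sandwich {R H : Matrix ι ι ℝ} (hR : Rᵀ = R) (hH : Hᵀ = H) (hH' : H * H ≤ 1) :
    0 ≤ R * R + R * H * R ∧ 0 ≤ R * R - R * H * R := by
  have one_nonneg : (0 : Matrix ι ι ℝ) ≤ 1 := by
    have := transpose_mul_self_nonneg (1 : Matrix ι ι ℝ)
    rwa [Matrix.mul_one, transpose_one] at this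
  have h1 : H ≤ 1 := le_of_sq_le one_nonneg hH (by rwa [Matrix.mul_one])
  have h2 : -H ≤ 1 := le_of_sq_le one_nonneg (by rw [transpose_neg, hH])
    (by rwa [Matrix.mul_one, neg_mul_neg])
  have h3 := conj_le h1 R
  have h4 := conj_le h2 R
  rw [hR, Matrix.mul_one] at h3 h4
  refine ⟨?_, sub_nonneg.2 h3⟩
  have := sub_nonneg.2 h4
  rwa [Matrix.mul_neg, Matrix.neg_mul, sub_neg_eq_add] at this

end Local

open Local

/-- Hölder for three symmetric matrices and three contractions, in AM-GM form.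
With `|Y| := rt (Y * Y)`: `block_cs` for `C = Y₂`, `R = R' = |Y₂|`, `Xᵀ = U Y₁ V`, `Z = W Y₀`;
`tr (|Y₂| Vᵀ Y₁ Uᵀ U Y₁ V) ≤ tr (|Y₂| Vᵀ Y₁² V) ≤ ⅓ psi (Y₂²) + ⅔ psi (Vᵀ Y₁² V)` (`young`),
`psi (Vᵀ Y₁² V) = psi (Y₁ V Vᵀ Y₁) ≤ psi (Y₁²)` (`psi_mul_transpose`, `psi_mono`); the same for `Z`. -/
theorem holder3 {Y₀ Y₁ Y₂ U V W : Matrix ι ι ℝ} (h₀ : Y₀ᵀ = Y₀) (h₁ : Y₁ᵀ = Y₁) (h₂ : Y₂ᵀ = Y₂)
    (hU : Uᵀ * U ≤ 1) (hV : V * Vᵀ ≤ 1) (hW : Wᵀ * W ≤ 1) :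
    |trace (Y₀ * U * Y₁ * V * Y₂ * W)| ≤ (psi (Y₀ * Y₀) + psi (Y₁ * Y₁) + psi (Y₂ * Y₂)) / 3 := by
  have hA := rt_nonneg (Y₂ * Y₂)
  have hAA := rt_mul_rt (sq_nonneg_of_symm h₂)
  have h := block_cs (C := Y₂) hA hA (by rw [h₂, hAA]) (by rw [h₂, hAA]) (U * Y₁ * V)ᵀ (W * Y₀)
  rw [transpose_transpose] at h
  have e0 : trace (Y₀ * U * Y₁ * V * Y₂ * W) = trace (U * Y₁ * V * Y₂ * (W * Y₀)) := by
    simp only [Matrix.mul_assoc]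
    rw [trace_mul_comm Y₀]
    simp only [Matrix.mul_assoc]
  have e1 : trace (U * Y₁ * V * rt (Y₂ * Y₂) * (U * Y₁ * V)ᵀ)
      = trace (rt (Y₂ * Y₂) * ((Y₁ * V)ᵀ * (Uᵀ * U) * (Y₁ * V))) := by
    rw [Matrix.mul_assoc (U * Y₁ * V), trace_mul_comm]
    simp only [transpose_mul, Matrix.mul_assoc]
  have b1 := trace_mul_mono hA (conj_le hU (Y₁ * V))
  rw [Matrix.mul_one] at b1
  have b2 := tr_young (Y := Y₁) (Y' := Y₂) (N := (Y₁ * V)ᵀ) (by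
    have := conj_le hV Y₁
    rw [h₁, Matrix.mul_one] at this
    refine le_trans (le_of_eq ?_) this
    simp only [transpose_mul, transpose_transpose, h₁, Matrix.mul_assoc])
  rw [transpose_transpose] at b2
  have e2 : trace ((W * Y₀)ᵀ * rt (Y₂ * Y₂) * (W * Y₀))
      = trace (rt (Y₂ * Y₂) * ((W * Y₀) * (W * Y₀)ᵀ)) := by
    rw [Matrix.mul_assoc, trace_mul_comm, Matrix.mul_assoc]
  have b3 := tr_young (Y := Y₀) (Y' := Y₂) (N := W * Y₀) (by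
    have := conj_le hW Y₀
    rw [h₀, Matrix.mul_one] at this
    refine le_trans (le_of_eq ?_) this
    simp only [transpose_mul, h₀, Matrix.mul_assoc])
  rw [e0]
  linarith

/-- With `A = rt (Y*Y)`, `Y₊ = (A+Y)/2`, `Y₋ = (A-Y)/2`:
`tr A³ = tr (Y (Y₊² - Y₋²)) ≤ ½ tr (R Y₊²) + ½ tr (R Y₋²) = ½ tr (R Y²)` (no commutation needed). -/
theorem psi_sq_le {R Y : Matrix ι ι ℝ} (hY : Yᵀ = Y) (h1 : 0 ≤ (1 / 2 : ℝ) • R + Y)
    (h2 : 0 ≤ (1 / 2 : ℝ) • R - Y) : psi (Y * Y) ≤ 1 / 2 * trace (R * Y * Y) := by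
  have hAA := rt_mul_rt (sq_nonneg_of_symm hY)
  have hA := rt_symm (Y * Y)
  have hpsi : psi (Y * Y) = trace (rt (Y * Y) * rt (Y * Y) * rt (Y * Y)) := rfl
  set A := rt (Y * Y) with hAdef
  have b1 := trace_mul_nonneg h2 (sq_nonneg_of_symm (Y := A + Y) (by rw [transpose_add, hA, hY]))
  have b2 := trace_mul_nonneg h1 (sq_nonneg_of_symm (Y := A - Y) (by rw [transpose_sub, hA, hY]))
  simp only [Matrix.mul_add, Matrix.add_mul, Matrix.mul_sub, Matrix.sub_mul, trace_add, trace_sub,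
    Matrix.smul_mul, trace_smul, smul_eq_mul, hAA] at b1 b2
  have e1 : trace (Y * (A * Y)) = psi (Y * Y) := by
    rw [trace_mul_comm, Matrix.mul_assoc, ← hAA, ← Matrix.mul_assoc, hAA, hpsi, hAA]
  have e2 : trace (Y * (Y * A)) = psi (Y * Y) := by
    rw [← Matrix.mul_assoc, hpsi, hAA]
  rw [Matrix.mul_assoc]
  linarith

/-- contractions are contractions on both sides (`1 - X Xᵀ = (1 - X Xᵀ)² + X (1 - Xᵀ X) Xᵀ`) -/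
theorem mul_transpose_le_one {X : Matrix ι ι ℝ} (h : Xᵀ * X ≤ 1) : X * Xᵀ ≤ 1 := by
  have h1 := transpose_mul_self_nonneg (1 - X * Xᵀ)
  have h2 := conj_le (sub_nonneg.2 h) Xᵀ
  rw [Matrix.mul_zero, Matrix.zero_mul, transpose_transpose] at h2
  rw [← sub_nonneg]
  refine le_trans (add_nonneg h1 h2) (le_of_eq ?_)
  simp only [transpose_sub, transpose_one, transpose_mul, transpose_transpose, Matrix.mul_sub,
    Matrix.sub_mul, Matrix.mul_one, Matrix.one_mul, Matrix.mul_assoc]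
  abel

theorem Local.transpose_mul_le_one {X : Matrix ι ι ℝ} (h : X * Xᵀ ≤ 1) : Xᵀ * X ≤ 1 := by
  have := mul_transpose_le_one (X := Xᵀ) (by rwa [transpose_transpose])
  rwa [transpose_transpose] at this

/-- The local lemma for invertible roots.  `H_i = R_i⁻¹ Y_i + Y_i R_i⁻¹`; expand the trace into
8 terms (`L` = `R⁻¹ Y`, `R` = `Y R⁻¹`).  `LLL` and `RRR` are `holder3` terms (contractions
`A R₁⁻¹, B R₂⁻¹, C R₀⁻¹`, resp. `R₀⁻¹ A, R₁⁻¹ B, R₂⁻¹ C`), each `≤ (1/6) ∑ tr (R_i Y_i²)` by `psi_sq_le`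
and `lyap_bounds`.  The other six group as
`tr (Y₀ R₀⁻¹ A H₁ B R₂⁻¹ Y₂ C)`, `tr (R₀⁻¹ Y₀ A Y₁ R₁⁻¹ B H₂ C)`, `tr (H₀ A R₁⁻¹ Y₁ B Y₂ R₂⁻¹ C)`;
the first is `tr (K Y₂ C Y₀)` with `K = R₀⁻¹ A H₁ B R₂⁻¹` a contraction, so `block_cs` bounds it by
`½ (tr (R₂ Y₂²) + tr (R₀ Y₀²))`; the other two are cyclic copies. -/
theorem local_posDef {A B C H₀ H₁ H₂ R₀ R₁ R₂ Y₀ Y₁ Y₂ : Matrix ι ι ℝ}
    (hR₀ : R₀.PosDef) (hR₁ : R₁.PosDef) (hR₂ : R₂.PosDef)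
    (hH₀ : H₀ᵀ = H₀) (hH₁ : H₁ᵀ = H₁) (hH₂ : H₂ᵀ = H₂)
    (hH₀' : H₀ * H₀ ≤ 1) (hH₁' : H₁ * H₁ ≤ 1) (hH₂' : H₂ * H₂ ≤ 1)
    (hA₀ : A * Aᵀ ≤ R₀ * R₀) (hA₁ : Aᵀ * A ≤ R₁ * R₁) (hB₁ : B * Bᵀ ≤ R₁ * R₁)
    (hB₂ : Bᵀ * B ≤ R₂ * R₂) (hC₂ : C * Cᵀ ≤ R₂ * R₂) (hC₀ : Cᵀ * C ≤ R₀ * R₀)
    (hY₀ : Y₀ᵀ = Y₀) (hY₁ : Y₁ᵀ = Y₁) (hY₂ : Y₂ᵀ = Y₂)
    (e₀ : R₀ * Y₀ + Y₀ * R₀ = R₀ * H₀ * R₀) (e₁ : R₁ * Y₁ + Y₁ * R₁ = R₁ * H₁ * R₁)
    (e₂ : R₂ * Y₂ + Y₂ * R₂ = R₂ * H₂ * R₂) :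
    |trace (H₀ * A * H₁ * B * H₂ * C)| ≤
      4 / 3 * (trace (R₀ * Y₀ * Y₀) + trace (R₁ * Y₁ * Y₁) + trace (R₂ * Y₂ * Y₂)) := by
  have n₀ : 0 ≤ R₀ := hR₀.posSemidef.nonneg
  have n₁ : 0 ≤ R₁ := hR₁.posSemidef.nonneg
  have n₂ : 0 ≤ R₂ := hR₂.posSemidef.nonneg
  have p : ∀ {R H Y : Matrix ι ι ℝ}, R.PosDef → Hᵀ = H → H * H ≤ 1 → Yᵀ = Y →
      R * Y + Y * R = R * H * R → psi (Y * Y) ≤ 1 / 2 * trace (R * Y * Y) := by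
    intro R H Y hR hH hH' hY e
    obtain ⟨s1, s2⟩ := sandwich (symm_of_nonneg hR.posSemidef.nonneg) hH hH'
    obtain ⟨l1, l2⟩ := lyap_bounds hR hY e s1 s2
    exact psi_sq_le hY l1 l2
  have p₀ := p hR₀ hH₀ hH₀' hY₀ e₀
  have p₁ := p hR₁ hH₁ hH₁' hY₁ e₁
  have p₂ := p hR₂ hH₂ hH₂' hY₂ e₂
  have cA := contr_right hR₁ hA₁
  have cB := contr_right hR₂ hB₂
  have cC := contr_right hR₀ hC₀
  have dA := Local.transpose_mul_le_one (contr_left hR₀ hA₀)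
  have dB := Local.transpose_mul_le_one (contr_left hR₁ hB₁)
  have dC := Local.transpose_mul_le_one (contr_left hR₂ hC₂)
  have cH₀ : H₀ᵀ * H₀ ≤ 1 := by rwa [hH₀]
  have cH₁ : H₁ᵀ * H₁ ≤ 1 := by rwa [hH₁]
  have cH₂ : H₂ᵀ * H₂ ≤ 1 := by rwa [hH₂]
  have t1 := holder3 hY₀ hY₁ hY₂ cA (mul_transpose_le_one cB) cC
  have t2 := holder3 hY₀ hY₁ hY₂ dA (mul_transpose_le_one dB) dC
  have t3 := mid (contr_mul (contr_mul dA cH₁) cB) n₂ n₀ hC₂ hC₀ hY₂ hY₀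
  have t4 := mid (contr_mul (contr_mul dB cH₂) cC) n₀ n₁ hA₀ hA₁ hY₀ hY₁
  have t5 := mid (contr_mul (contr_mul dC cH₀) cA) n₁ n₂ hB₁ hB₂ hY₁ hY₂
  have E := expand8 A B C (R₀⁻¹ * Y₀) (Y₀ * R₀⁻¹) (R₁⁻¹ * Y₁) (Y₁ * R₁⁻¹) (R₂⁻¹ * Y₂) (Y₂ * R₂⁻¹)
  rw [← H_eq hR₀ e₀, ← H_eq hR₁ e₁, ← H_eq hR₂ e₂] at E
  have c1 : trace (R₀⁻¹ * Y₀ * A * (R₁⁻¹ * Y₁) * B * (R₂⁻¹ * Y₂) * C)
      = trace (Y₀ * (A * R₁⁻¹) * Y₁ * (B * R₂⁻¹) * Y₂ * (C * R₀⁻¹)) := by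
    simp only [Matrix.mul_assoc]
    rw [trace_mul_comm R₀⁻¹]
    simp only [Matrix.mul_assoc]
  have c2 : trace (Y₀ * R₀⁻¹ * A * (Y₁ * R₁⁻¹) * B * (Y₂ * R₂⁻¹) * C)
      = trace (Y₀ * (R₀⁻¹ * A) * Y₁ * (R₁⁻¹ * B) * Y₂ * (R₂⁻¹ * C)) := by
    simp only [Matrix.mul_assoc]
  have c3 : trace (Y₀ * R₀⁻¹ * A * H₁ * B * (R₂⁻¹ * Y₂) * C)
      = trace (R₀⁻¹ * A * H₁ * (B * R₂⁻¹) * Y₂ * C * Y₀) := by
    simp only [Matrix.mul_assoc]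
    rw [trace_mul_comm Y₀]
    simp only [Matrix.mul_assoc]
  have c4 : trace (R₀⁻¹ * Y₀ * A * (Y₁ * R₁⁻¹) * B * H₂ * C)
      = trace (R₁⁻¹ * B * H₂ * (C * R₀⁻¹) * Y₀ * A * Y₁) := by
    rw [show R₀⁻¹ * Y₀ * A * (Y₁ * R₁⁻¹) * B * H₂ * C
        = (R₀⁻¹ * Y₀ * A * Y₁) * (R₁⁻¹ * B * H₂ * C) by simp only [Matrix.mul_assoc],
      trace_mul_comm]
    simp only [Matrix.mul_assoc]
  have c5 : trace (H₀ * A * (R₁⁻¹ * Y₁) * B * (Y₂ * R₂⁻¹) * C)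
      = trace (R₂⁻¹ * C * H₀ * (A * R₁⁻¹) * Y₁ * B * Y₂) := by
    rw [show H₀ * A * (R₁⁻¹ * Y₁) * B * (Y₂ * R₂⁻¹) * C
        = (H₀ * A * R₁⁻¹ * Y₁ * B * Y₂) * (R₂⁻¹ * C) by simp only [Matrix.mul_assoc],
      trace_mul_comm]
    simp only [Matrix.mul_assoc]
  rw [E, c1, c2, c3, c4, c5, abs_le]
  rw [abs_le] at t1 t2 t3 t4 t5
  constructor <;> linarith [t1.1, t1.2, t2.1, t2.2, t3.1, t3.2, t4.1, t4.2, t5.1, t5.2]

/-- the error term of the regularisation -/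
noncomputable def Local.err (R H : Matrix ι ι ℝ) (ε : ℝ) : ℝ :=
  ε * trace ((H * R + R * H + ε • H) * (H * R + R * H + ε • H)) / 4

omit [DecidableEq ι] in
theorem Local.continuous_err (R H : Matrix ι ι ℝ) : Continuous (Local.err R H) := by
  unfold Local.err
  have h : Continuous fun ε : ℝ => H * R + R * H + ε • H := by fun_prop
  exact (continuous_id.mul (h.matrix_mul h).matrix_trace).div_const _

theorem Local.reg {m H : Matrix ι ι ℝ} {t ε : ℝ} (hm : 0 ≤ m) (hH : Hᵀ = H) (hε : 0 < ε)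
    (q : QB m (rt m * H * rt m) t) :
    m ≤ (rt m + ε • 1) * (rt m + ε • 1) ∧ ∃ Y : Matrix ι ι ℝ, Yᵀ = Y ∧
      (rt m + ε • 1) * Y + Y * (rt m + ε • 1) = (rt m + ε • 1) * H * (rt m + ε • 1) ∧
      trace ((rt m + ε • 1) * Y * Y) ≤ t / 2 + Local.err (rt m) H ε := by
  have hR := rt_symm m
  have hRR := rt_mul_rt hm
  have hR0 := rt_nonneg m
  unfold QB at q
  generalize rt m = R at *
  have hpos := posDef_add_smul_one hR0 hε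
  have hsym := symm_of_nonneg hpos.posSemidef.nonneg
  constructor
  · have h1 : 0 ≤ ε • R := smul_nonneg' hR0 hε.le
    have h2 : 0 ≤ ε • (R + ε • (1 : Matrix ι ι ℝ)) := smul_nonneg' hpos.posSemidef.nonneg hε.le
    rw [← sub_nonneg]
    refine le_trans (add_nonneg h1 h2) (le_of_eq ?_)
    simp only [Matrix.mul_add, Matrix.add_mul, Matrix.mul_smul, Matrix.smul_mul, Matrix.mul_one,
      Matrix.one_mul, hRR, smul_add]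
    abel
  obtain ⟨Y, hY, e⟩ := lyap_exists (E := (R + ε • 1) * H * (R + ε • 1)) hpos
    (by rw [transpose_mul, transpose_mul, hsym, hH, Matrix.mul_assoc])
  refine ⟨Y, hY, e, ?_⟩
  set M := H * R + R * H + ε • H with hM
  have hMs : Mᵀ = M := by
    simp only [hM, transpose_add, transpose_mul, transpose_smul, hR, hH]
    abel
  have e1 : (R + ε • 1) * H * (R + ε • 1) = R * H * R + ε • M := by
    simp only [hM, Matrix.mul_add, Matrix.add_mul, Matrix.mul_smul, Matrix.smul_mul, Matrix.mul_one,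
      Matrix.one_mul, smul_add]
    abel
  have e2 : trace ((R + ε • 1) * Y * Y) = trace (R * Y * Y) + ε * trace (Y * Y) := by
    simp only [Matrix.add_mul, Matrix.smul_mul, Matrix.one_mul, trace_add, trace_smul, smul_eq_mul]
  have e3 : 2 * trace ((R + ε • 1) * Y * Y) = trace (R * H * R * Y) + ε * trace (M * Y) := by
    have h1 : trace (((R + ε • 1) * Y + Y * (R + ε • 1)) * Y) = trace ((R * H * R + ε • M) * Y) := by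
      rw [e, e1]
    rw [Matrix.add_mul, trace_add, Matrix.mul_assoc Y, trace_mul_comm Y, Matrix.add_mul (R * H * R),
      trace_add, Matrix.smul_mul, trace_smul, smul_eq_mul] at h1
    linarith
  have b1 := q Y hY
  have b2 : 0 ≤ trace ((1 : Matrix ι ι ℝ) * ((M - (2 : ℝ) • Y) * (M - (2 : ℝ) • Y))) := by
    refine trace_mul_nonneg ?_ (sq_nonneg_of_symm (by rw [transpose_sub, transpose_smul, hMs, hY]))
    have := transpose_mul_self_nonneg (1 : Matrix ι ι ℝ)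
    rwa [Matrix.mul_one, transpose_one] at this
  simp only [Matrix.one_mul, Matrix.mul_sub, Matrix.sub_mul, Matrix.mul_smul, Matrix.smul_mul,
    trace_sub, trace_smul, smul_eq_mul, trace_mul_comm Y M] at b2
  have b3 := mul_nonneg hε.le b2
  unfold Local.err
  rw [← hM]
  nlinarith

/-- Regularise: `R_ε = rt m + ε`, `Y_ε` from `lyap_exists`.  Then
`2 tr (R_ε Y_ε²) = 2 tr (R_ε H R_ε Y_ε) - 2 tr (R_ε Y_ε²) ≤ t + 2 tr ((R_ε H R_ε - R H R) Y_ε)`, and the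
last term is `O(ε)`: `R_ε H R_ε - R H R = ε M`, `M = H R + R H + ε H`, `2 |tr (M Y)| ≤ tr (Mᵀ M) + tr Y²`, and
`tr Y_ε² ≤ tr R_ε² / 4` from `tr ((R_ε/2 + Y_ε) (R_ε/2 - Y_ε)) ≥ 0` (`lyap_bounds`).  The bound is a
polynomial in `ε`; let `ε → 0`. -/
theorem local_QB {A B C H₀ H₁ H₂ m₀ m₁ m₂ : Matrix ι ι ℝ} {t₀ t₁ t₂ : ℝ}
    (hm₀ : 0 ≤ m₀) (hm₁ : 0 ≤ m₁) (hm₂ : 0 ≤ m₂)
    (hH₀ : H₀ᵀ = H₀) (hH₁ : H₁ᵀ = H₁) (hH₂ : H₂ᵀ = H₂)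
    (hH₀' : H₀ * H₀ ≤ 1) (hH₁' : H₁ * H₁ ≤ 1) (hH₂' : H₂ * H₂ ≤ 1)
    (hA₀ : A * Aᵀ ≤ m₀) (hA₁ : Aᵀ * A ≤ m₁) (hB₁ : B * Bᵀ ≤ m₁)
    (hB₂ : Bᵀ * B ≤ m₂) (hC₂ : C * Cᵀ ≤ m₂) (hC₀ : Cᵀ * C ≤ m₀)
    (q₀ : QB m₀ (rt m₀ * H₀ * rt m₀) t₀) (q₁ : QB m₁ (rt m₁ * H₁ * rt m₁) t₁)
    (q₂ : QB m₂ (rt m₂ * H₂ * rt m₂) t₂) :
    |trace (H₀ * A * H₁ * B * H₂ * C)| ≤ 2 / 3 * (t₀ + t₁ + t₂) := by
  set f : ℝ → ℝ := fun ε => 4 / 3 * ((t₀ / 2 + Local.err (rt m₀) H₀ ε)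
    + (t₁ / 2 + Local.err (rt m₁) H₁ ε) + (t₂ / 2 + Local.err (rt m₂) H₂ ε)) with hf
  have hcont : Continuous f := by
    have c₀ := Local.continuous_err (rt m₀) H₀
    have c₁ := Local.continuous_err (rt m₁) H₁
    have c₂ := Local.continuous_err (rt m₂) H₂
    simp only [hf]
    fun_prop
  have h0 : f 0 = 2 / 3 * (t₀ + t₁ + t₂) := by
    simp only [hf, Local.err, zero_mul, zero_div, add_zero]; ring
  have hlim : Filter.Tendsto f (nhdsWithin 0 (Set.Ioi 0)) (nhds (2 / 3 * (t₀ + t₁ + t₂))) := by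
    rw [← h0]; exact (hcont.tendsto 0).mono_left nhdsWithin_le_nhds
  refine ge_of_tendsto hlim (eventually_nhdsWithin_of_forall fun ε hε => ?_)
  have hε' : 0 < ε := hε
  obtain ⟨k₀, Y₀, s₀, e₀, b₀⟩ := Local.reg hm₀ hH₀ hε' q₀
  obtain ⟨k₁, Y₁, s₁, e₁, b₁⟩ := Local.reg hm₁ hH₁ hε' q₁
  obtain ⟨k₂, Y₂, s₂, e₂, b₂⟩ := Local.reg hm₂ hH₂ hε' q₂
  have := local_posDef (posDef_add_smul_one (rt_nonneg m₀) hε')
    (posDef_add_smul_one (rt_nonneg m₁) hε') (posDef_add_smul_one (rt_nonneg m₂) hε')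
    hH₀ hH₁ hH₂ hH₀' hH₁' hH₂' (hA₀.trans k₀) (hA₁.trans k₁) (hB₁.trans k₁) (hB₂.trans k₂)
    (hC₂.trans k₂) (hC₀.trans k₀) s₀ s₁ s₂ e₀ e₁ e₂
  simp only [hf]
  linarith

theorem Local.ratio_sq_le {P M : ι → ℝ} (hP : ∀ i, 0 ≤ P i) (hM : ∀ i, 0 ≤ M i) :
    diagonal (fun i => (P i - M i) / (P i + M i)) * diagonal (fun i => (P i - M i) / (P i + M i))
      ≤ (1 : Matrix ι ι ℝ) := by
  rw [← sub_nonneg, diagonal_mul_diagonal, ← diagonal_one, diagonal_sub]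
  refine diagonal_nonneg fun i => ?_
  have h1 : |(P i - M i) / (P i + M i)| ≤ 1 := by
    rw [abs_div, abs_of_nonneg (add_nonneg (hP i) (hM i))]
    refine div_le_one_of_le₀ ?_ (add_nonneg (hP i) (hM i))
    rw [abs_le]; constructor <;> linarith [hP i, hM i]
  have h2 := abs_le.1 h1
  nlinarith [h2.1, h2.2]

theorem Local.dsq_ratio {P M : ι → ℝ} (hP : ∀ i, 0 ≤ P i) (hM : ∀ i, 0 ≤ M i) :
    dsq (fun i => (P i + M i) / 2) * diagonal (fun i => (P i - M i) / (P i + M i))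
      * dsq (fun i => (P i + M i) / 2) = diagonal (fun i => (P i - M i) / 2) := by
  unfold dsq
  rw [diagonal_mul_diagonal, diagonal_mul_diagonal]
  congr 1
  funext i
  have h0 : 0 ≤ (P i + M i) / 2 := by linarith [hP i, hM i]
  rw [mul_right_comm, Real.mul_self_sqrt h0]
  rcases eq_or_ne (P i + M i) 0 with h | h
  · have h1 : P i = 0 := by linarith [hP i, hM i]
    have h2 : M i = 0 := by linarith [hP i, hM i]
    simp [h1, h2]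
  · field_simp

theorem Local.mul_tr_eq (a : Matrix ι ι ℝ) (W : ι → ℝ) {W' : ι → ℝ} (hW' : ∀ i, 0 ≤ W' i) :
    (dsq W * a * dsq W') * (dsq W * a * dsq W')ᵀ = cj W (gram aᵀ W') := by
  simp only [cj, gram, transpose_mul, dsq_symm, transpose_transpose, ← dsq_mul_dsq hW',
    Matrix.mul_assoc]

theorem Local.tr_mul_eq (a : Matrix ι ι ℝ) {W : ι → ℝ} (W' : ι → ℝ) (hW : ∀ i, 0 ≤ W i) :
    (dsq W * a * dsq W')ᵀ * (dsq W * a * dsq W') = cj W' (gram a W) := by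
  simp only [cj, gram, transpose_mul, dsq_symm, ← dsq_mul_dsq hW, Matrix.mul_assoc]

/-- Weighted form: `local_QB` with `A = dsq W₀ * a * dsq W₁` etc., `W_i = (P_i+M_i)/2`,
`H_i = diagonal ((P_i-M_i)/(P_i+M_i))`, `m_i = cj W_i S_i`, and `gapW_eq`, `QB_of_gap`. -/
theorem localW (a b c : Matrix ι ι ℝ) {S₀ S₁ S₂ : Matrix ι ι ℝ} {P₀ M₀ P₁ M₁ P₂ M₂ : ι → ℝ}
    (hP₀ : ∀ i, 0 ≤ P₀ i) (hM₀ : ∀ i, 0 ≤ M₀ i) (hP₁ : ∀ i, 0 ≤ P₁ i) (hM₁ : ∀ i, 0 ≤ M₁ i)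
    (hP₂ : ∀ i, 0 ≤ P₂ i) (hM₂ : ∀ i, 0 ≤ M₂ i)
    (ha₀ : gram aᵀ (fun i => (P₁ i + M₁ i) / 2) ≤ S₀) (hc₀ : gram c (fun i => (P₂ i + M₂ i) / 2) ≤ S₀)
    (ha₁ : gram a (fun i => (P₀ i + M₀ i) / 2) ≤ S₁) (hb₁ : gram bᵀ (fun i => (P₂ i + M₂ i) / 2) ≤ S₁)
    (hb₂ : gram b (fun i => (P₁ i + M₁ i) / 2) ≤ S₂) (hc₂ : gram cᵀ (fun i => (P₀ i + M₀ i) / 2) ≤ S₂) :
    |trace (diagonal (fun i => (P₀ i - M₀ i) / 2) * a * diagonal (fun i => (P₁ i - M₁ i) / 2) * b *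
        diagonal (fun i => (P₂ i - M₂ i) / 2) * c)| ≤
      8 / 9 * (gapW S₀ P₀ M₀ + gapW S₁ P₁ M₁ + gapW S₂ P₂ M₂) := by
  have w₀ : ∀ i, 0 ≤ (P₀ i + M₀ i) / 2 := fun i => by linarith [hP₀ i, hM₀ i]
  have w₁ : ∀ i, 0 ≤ (P₁ i + M₁ i) / 2 := fun i => by linarith [hP₁ i, hM₁ i]
  have w₂ : ∀ i, 0 ≤ (P₂ i + M₂ i) / 2 := fun i => by linarith [hP₂ i, hM₂ i]
  have hS₀ : 0 ≤ S₀ := (gram_nonneg _ w₁).trans ha₀
  have hS₁ : 0 ≤ S₁ := (gram_nonneg _ w₀).trans ha₁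
  have hS₂ : 0 ≤ S₂ := (gram_nonneg _ w₁).trans hb₂
  obtain ⟨g₀, g₀', G₀⟩ := gapW_eq hS₀ hP₀ hM₀
  obtain ⟨g₁, g₁', G₁⟩ := gapW_eq hS₁ hP₁ hM₁
  obtain ⟨g₂, g₂', G₂⟩ := gapW_eq hS₂ hP₂ hM₂
  have q₀ := QB_of_gap g₀ g₀'
  have q₁ := QB_of_gap g₁ g₁'
  have q₂ := QB_of_gap g₂ g₂'
  rw [← G₀] at q₀
  rw [← G₁] at q₁
  rw [← G₂] at q₂
  have key := local_QB
    (A := dsq (fun i => (P₀ i + M₀ i) / 2) * a * dsq (fun i => (P₁ i + M₁ i) / 2))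
    (B := dsq (fun i => (P₁ i + M₁ i) / 2) * b * dsq (fun i => (P₂ i + M₂ i) / 2))
    (C := dsq (fun i => (P₂ i + M₂ i) / 2) * c * dsq (fun i => (P₀ i + M₀ i) / 2))
    (cj_nonneg _ hS₀) (cj_nonneg _ hS₁) (cj_nonneg _ hS₂)
    (diagonal_transpose _) (diagonal_transpose _) (diagonal_transpose _)
    (Local.ratio_sq_le hP₀ hM₀) (Local.ratio_sq_le hP₁ hM₁) (Local.ratio_sq_le hP₂ hM₂)
    (by rw [Local.mul_tr_eq _ _ w₁]; exact cj_mono _ ha₀)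
    (by rw [Local.tr_mul_eq _ _ w₀]; exact cj_mono _ ha₁)
    (by rw [Local.mul_tr_eq _ _ w₂]; exact cj_mono _ hb₁)
    (by rw [Local.tr_mul_eq _ _ w₁]; exact cj_mono _ hb₂)
    (by rw [Local.mul_tr_eq _ _ w₀]; exact cj_mono _ hc₂)
    (by rw [Local.tr_mul_eq _ _ w₂]; exact cj_mono _ hc₀) q₀ q₁ q₂
  rw [← Local.dsq_ratio hP₀ hM₀, ← Local.dsq_ratio hP₁ hM₁, ← Local.dsq_ratio hP₂ hM₂]
  refine le_trans (le_of_eq ?_) (key.trans (le_of_eq (by ring)))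
  congr 1
  simp only [Matrix.mul_assoc]
  rw [trace_mul_comm (dsq fun i => (P₀ i + M₀ i) / 2)]
  simp only [Matrix.mul_assoc]

end Crest.Agent.R72
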