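import Crest.Agent.R72.Defs

/-! # R72 task MatA: square roots, Heinz block inequality, Lyapunov equation -/

set_option autoImplicit false

namespace Crest.Agent.R72

open Matrix Finset
open scoped MatrixOrder

variable {ι : Type*} [Fintype ι] [DecidableEq ι]

theorem rt_nonneg (T : Matrix ι ι ℝ) : 0 ≤ rt T := by
  exact CFC.sqrt_nonneg T

theorem rt_mul_rt {T : Matrix ι ι ℝ} (hT : 0 ≤ T) : rt T * rt T = T := by
  exact CFC.sqrt_mul_sqrt_self T hT

theorem symm_of_nonneg {T : Matrix ι ι ℝ} (hT : 0 ≤ T) : Tᵀ = T := by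
  have h := (Matrix.nonneg_iff_posSemidef.mp hT).isHermitian
  simpa [Matrix.IsHermitian, Matrix.conjTranspose_eq_transpose_of_trivial] using h

theorem rt_symm (T : Matrix ι ι ℝ) : (rt T)ᵀ = rt T := symm_of_nonneg (rt_nonneg T)

theorem rt_unique {R T : Matrix ι ι ℝ} (hR : 0 ≤ R) (h : R * R = T) : rt T = R := by
  exact CFC.sqrt_unique h hR

theorem rt_smul_sq {T : Matrix ι ι ℝ} (hT : 0 ≤ T) {t : ℝ} (ht : 0 ≤ t) :
    rt ((t ^ 2) • T) = t • rt T := by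
  refine rt_unique ?_ ?_
  · exact Matrix.nonneg_iff_posSemidef.mpr
      ((Matrix.nonneg_iff_posSemidef.mp (rt_nonneg T)).smul ht)
  · rw [Matrix.smul_mul, Matrix.mul_smul, smul_smul, rt_mul_rt hT, sq]

theorem smul_nonneg' {T : Matrix ι ι ℝ} (hT : 0 ≤ T) {t : ℝ} (ht : 0 ≤ t) : 0 ≤ t • T := by
  exact Matrix.nonneg_iff_posSemidef.mpr ((Matrix.nonneg_iff_posSemidef.mp hT).smul ht)

/-- congruence preserves the order -/
theorem conj_le {S T : Matrix ι ι ℝ} (h : S ≤ T) (X : Matrix ι ι ℝ) :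
    Xᵀ * S * X ≤ Xᵀ * T * X := by
  rw [Matrix.le_iff] at h ⊢
  have := h.conjTranspose_mul_mul_same X
  rw [Matrix.conjTranspose_eq_transpose_of_trivial] at this
  rwa [← Matrix.sub_mul, ← Matrix.mul_sub]

theorem transpose_mul_self_nonneg (X : Matrix ι ι ℝ) : 0 ≤ Xᵀ * X := by
  have := Matrix.posSemidef_conjTranspose_mul_self X
  rw [Matrix.conjTranspose_eq_transpose_of_trivial] at this
  exact Matrix.nonneg_iff_posSemidef.mpr this

theorem diagonal_nonneg {W : ι → ℝ} (hW : ∀ i, 0 ≤ W i) : 0 ≤ diagonal W := by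
  exact Matrix.nonneg_iff_posSemidef.mpr (Matrix.PosSemidef.diagonal hW)

theorem trace_mul_nonneg {A B : Matrix ι ι ℝ} (hA : 0 ≤ A) (hB : 0 ≤ B) : 0 ≤ trace (A * B) := by
  have h := conj_le hB (rt A)
  rw [Matrix.mul_zero, Matrix.zero_mul, rt_symm] at h
  have h2 := (Matrix.nonneg_iff_posSemidef.mp h).trace_nonneg
  rwa [Matrix.trace_mul_cycle, rt_mul_rt hA] at h2

theorem trace_mul_mono {A B C : Matrix ι ι ℝ} (hA : 0 ≤ A) (h : B ≤ C) :
    trace (A * B) ≤ trace (A * C) := by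
  have h2 := trace_mul_nonneg hA (sub_nonneg.mpr h)
  rw [Matrix.mul_sub, Matrix.trace_sub] at h2
  linarith

namespace MatA

theorem quad_nonneg {T : Matrix ι ι ℝ} (hT : 0 ≤ T) (v : ι → ℝ) : 0 ≤ v ⬝ᵥ (T *ᵥ v) := by
  simpa using (Matrix.nonneg_iff_posSemidef.mp hT).dotProduct_mulVec_nonneg v

theorem quad_sq {J : Matrix ι ι ℝ} (hJ : Jᵀ = J) (v : ι → ℝ) :
    v ⬝ᵥ ((J * J) *ᵥ v) = (J *ᵥ v) ⬝ᵥ (J *ᵥ v) := by
  rw [← Matrix.mulVec_mulVec, Matrix.dotProduct_mulVec, ← Matrix.mulVec_transpose, hJ]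

theorem dot_pos {v : ι → ℝ} (hv : v ≠ 0) : 0 < v ⬝ᵥ v := by
  have h := (Matrix.PosDef.one (n := ι) (R := ℝ)).dotProduct_mulVec_pos hv
  simpa using h

theorem nonneg_of_eigen {Z : Matrix ι ι ℝ} (hZ : Zᵀ = Z)
    (h : ∀ (v : ι → ℝ) (lam : ℝ), v ≠ 0 → Z *ᵥ v = lam • v → 0 ≤ lam) : 0 ≤ Z := by
  have hH : Z.IsHermitian := by
    simpa [Matrix.IsHermitian, Matrix.conjTranspose_eq_transpose_of_trivial] using hZ
  rw [Matrix.nonneg_iff_posSemidef, hH.posSemidef_iff_eigenvalues_nonneg]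
  intro i
  refine h (hH.eigenvectorBasis i) _ ?_ (hH.mulVec_eigenvectorBasis i)
  intro h0
  exact hH.eigenvectorBasis.orthonormal.ne_zero i (by ext j; exact congrFun h0 j)

theorem blocks_nonneg {A B : Matrix ι ι ℝ} (hA : 0 ≤ A) (hB : 0 ≤ B) :
    0 ≤ (fromBlocks A 0 0 B : Matrix (ι ⊕ ι) (ι ⊕ ι) ℝ) := by
  have e : (fromBlocks A 0 0 B : Matrix (ι ⊕ ι) (ι ⊕ ι) ℝ) =
      (fromBlocks (rt A) 0 0 (rt B))ᵀ * fromBlocks (rt A) 0 0 (rt B) := by
    simp [Matrix.fromBlocks_transpose, Matrix.fromBlocks_multiply, rt_symm, rt_mul_rt hA,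
      rt_mul_rt hB]
  rw [e]
  exact transpose_mul_self_nonneg _

theorem trace_blocks (A B C D : Matrix ι ι ℝ) :
    trace (fromBlocks A B C D) = trace A + trace D := by
  simp [Matrix.trace, Fintype.sum_sum_type]

end MatA

/-- (L).  Proof: if `(D - J) v = λ v` with `λ < 0`, `v ≠ 0`, then `J v = D v - λ v`, so
`|J v|² = |D v|² - 2 λ ⟨D v, v⟩ + λ² |v|² > |D v|²`, contradicting `J² ≤ D²`.
So all eigenvalues of the symmetric matrix `D - J` are nonnegative. -/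
theorem le_of_sq_le {D J : Matrix ι ι ℝ} (hD : 0 ≤ D) (hJ : Jᵀ = J) (h : J * J ≤ D * D) :
    J ≤ D := by
  rw [← sub_nonneg]
  refine MatA.nonneg_of_eigen (by rw [Matrix.transpose_sub, hJ, symm_of_nonneg hD]) ?_
  intro v lam hv hl
  by_contra hneg
  push Not at hneg
  have hJv : J *ᵥ v = D *ᵥ v - lam • v := by
    rw [← hl, Matrix.sub_mulVec]; abel
  have h1 := MatA.quad_nonneg (sub_nonneg.mpr h) v
  rw [Matrix.sub_mulVec, dotProduct_sub, MatA.quad_sq hJ, MatA.quad_sq (symm_of_nonneg hD), hJv]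
    at h1
  have h2 := MatA.quad_nonneg hD v
  have h3 : 0 < v ⬝ᵥ v := MatA.dot_pos hv
  simp only [dotProduct_sub, sub_dotProduct, dotProduct_smul, smul_dotProduct, smul_eq_mul] at h1
  rw [dotProduct_comm (D *ᵥ v) v] at h1
  have h4 : 0 < lam * lam * (v ⬝ᵥ v) := mul_pos (mul_pos_of_neg_of_neg hneg hneg) h3
  nlinarith

theorem rt_mono {S T : Matrix ι ι ℝ} (hS : 0 ≤ S) (h : S ≤ T) : rt S ≤ rt T := by
  refine le_of_sq_le (rt_nonneg T) (rt_symm S) ?_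
  rwa [rt_mul_rt hS, rt_mul_rt (hS.trans h)]

/-- Heinz block inequality.  Proof: apply `le_of_sq_le` (index type `ι ⊕ ι`) to
`D = fromBlocks R 0 0 R'` and `J = ± fromBlocks 0 C Cᵀ 0`; then `D ± J ≥ 0`, and conjugate by
`fromBlocks X 0 Z 0` and take the trace. -/
theorem block_cs {R R' C : Matrix ι ι ℝ} (hR : 0 ≤ R) (hR' : 0 ≤ R')
    (h1 : C * Cᵀ ≤ R * R) (h2 : Cᵀ * C ≤ R' * R') (X Z : Matrix ι ι ℝ) :
    2 * |trace (Xᵀ * C * Z)| ≤ trace (Xᵀ * R * X) + trace (Zᵀ * R' * Z) := by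
  have key : ∀ C : Matrix ι ι ℝ, C * Cᵀ ≤ R * R → Cᵀ * C ≤ R' * R' →
      2 * trace (Xᵀ * C * Z) ≤ trace (Xᵀ * R * X) + trace (Zᵀ * R' * Z) := by
    intro C h1 h2
    have hD : 0 ≤ (fromBlocks R 0 0 R' : Matrix (ι ⊕ ι) (ι ⊕ ι) ℝ) := MatA.blocks_nonneg hR hR'
    have hJ : (fromBlocks 0 C Cᵀ 0 : Matrix (ι ⊕ ι) (ι ⊕ ι) ℝ)ᵀ = fromBlocks 0 C Cᵀ 0 := by
      simp [Matrix.fromBlocks_transpose]
    have hsq : (fromBlocks 0 C Cᵀ 0 : Matrix (ι ⊕ ι) (ι ⊕ ι) ℝ) * fromBlocks 0 C Cᵀ 0 ≤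
        fromBlocks R 0 0 R' * fromBlocks R 0 0 R' := by
      rw [← sub_nonneg]
      have := MatA.blocks_nonneg (sub_nonneg.mpr h1) (sub_nonneg.mpr h2)
      convert this using 1
      simp [Matrix.fromBlocks_multiply, sub_eq_add_neg, Matrix.fromBlocks_neg,
        Matrix.fromBlocks_add]
    have h3 := conj_le (le_of_sq_le hD hJ hsq) (fromBlocks X 0 Z 0)
    have h4 := (Matrix.le_iff.mp h3).trace_nonneg
    simp only [Matrix.trace_sub, Matrix.fromBlocks_transpose, Matrix.fromBlocks_multiply,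
      MatA.trace_blocks, Matrix.transpose_zero, Matrix.mul_zero, Matrix.zero_mul, add_zero,
      zero_add, Matrix.trace_add, Matrix.trace_zero] at h4
    have h5 : trace (Zᵀ * Cᵀ * X) = trace (Xᵀ * C * Z) := by
      rw [← Matrix.trace_transpose]
      simp [Matrix.transpose_mul, Matrix.mul_assoc]
    linarith
  have a1 := key C h1 h2
  have a2 := key (-C) (by simpa using h1) (by simpa using h2)
  simp only [Matrix.mul_neg, Matrix.neg_mul, Matrix.trace_neg] at a2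
  rcases abs_cases (trace (Xᵀ * C * Z)) with h | h <;> linarith [h.1]

/-- Lyapunov equation.  Proof: the linear map `Y ↦ μ Y + Y μ` is injective
(`tr (Yᵀ (μ Y + Y μ)) = tr (Yᵀ μ Y) + tr (Y μ Yᵀ)`), hence surjective; the transpose of a solution
is a solution. -/
theorem lyap_exists {μ E : Matrix ι ι ℝ} (hμ : μ.PosDef) (hE : Eᵀ = E) :
    ∃ Y : Matrix ι ι ℝ, Yᵀ = Y ∧ μ * Y + Y * μ = E := by
  have hs : μᵀ = μ := symm_of_nonneg (Matrix.nonneg_iff_posSemidef.mpr hμ.posSemidef)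
  let L : Matrix ι ι ℝ →ₗ[ℝ] Matrix ι ι ℝ := LinearMap.mulLeft ℝ μ + LinearMap.mulRight ℝ μ
  have hL : ∀ Y, L Y = μ * Y + Y * μ := fun Y => rfl
  have hinj : Function.Injective L := by
    rw [injective_iff_map_eq_zero]
    intro Y hY
    rw [hL] at hY
    have h0 : 0 ≤ μ := Matrix.nonneg_iff_posSemidef.mpr hμ.posSemidef
    have e : trace (Yᵀ * μ * Y) + trace (Yᵀᵀ * μ * Yᵀ) = 0 := by
      have : trace (Yᵀ * (μ * Y + Y * μ)) = 0 := by rw [hY]; simp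
      rw [Matrix.mul_add, Matrix.trace_add, ← Matrix.mul_assoc, ← Matrix.mul_assoc] at this
      rw [Matrix.transpose_transpose, Matrix.trace_mul_cycle Y μ Yᵀ]
      exact this
    have p1 := conj_le h0 Y
    have p2 := conj_le h0 Yᵀ
    rw [Matrix.mul_zero, Matrix.zero_mul] at p1 p2
    have q1 := (Matrix.nonneg_iff_posSemidef.mp p1).trace_nonneg
    have q2 := (Matrix.nonneg_iff_posSemidef.mp p2).trace_nonneg
    have z : Yᵀ * μ * Y = 0 :=
      (Matrix.nonneg_iff_posSemidef.mp p1).trace_eq_zero_iff.mp (by linarith)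
    ext i j
    by_contra hne
    have hv : (fun a => Y a j) ≠ 0 := fun h => hne (congrFun h i)
    have := hμ.dotProduct_mulVec_pos hv
    have z2 := congrFun (congrFun z j) j
    simp only [Matrix.mul_apply, Matrix.transpose_apply, Matrix.zero_apply] at z2
    simp only [star_trivial, dotProduct, Matrix.mulVec, Finset.mul_sum] at this
    rw [Finset.sum_comm] at this
    simp only [Finset.sum_mul] at z2
    have : (0 : ℝ) < 0 := by
      calc (0 : ℝ) < _ := this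
        _ = _ := ?_
        _ = 0 := z2
      refine Finset.sum_congr rfl fun a _ => Finset.sum_congr rfl fun b _ => by ring
    exact lt_irrefl _ this
  obtain ⟨Y, hY⟩ := LinearMap.injective_iff_surjective.mp hinj E
  refine ⟨Y, hinj ?_, hY⟩
  rw [hY, hL, ← hE, ← hY, hL]
  simp [Matrix.transpose_add, Matrix.transpose_mul, hs, add_comm]

/-- Proof: if `Z v = λ v`, `v ≠ 0`, then `vᵀ (μ Z + Z μ) v = 2 λ vᵀ μ v`, so `λ ≥ 0`. -/
theorem lyap_nonneg {μ Z : Matrix ι ι ℝ} (hμ : μ.PosDef) (hZ : Zᵀ = Z)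
    (h : 0 ≤ μ * Z + Z * μ) : 0 ≤ Z := by
  have hs : μᵀ = μ := symm_of_nonneg (Matrix.nonneg_iff_posSemidef.mpr hμ.posSemidef)
  refine MatA.nonneg_of_eigen hZ ?_
  intro v lam hv hl
  have h1 := MatA.quad_nonneg h v
  have h2 : 0 < v ⬝ᵥ (μ *ᵥ v) := by simpa using hμ.dotProduct_mulVec_pos hv
  have h3 : v ⬝ᵥ ((Z * μ) *ᵥ v) = lam * (v ⬝ᵥ (μ *ᵥ v)) := by
    rw [← Matrix.mulVec_mulVec, Matrix.dotProduct_mulVec, ← Matrix.mulVec_transpose, hZ, hl,
      smul_dotProduct, smul_eq_mul]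
  rw [Matrix.add_mulVec, dotProduct_add, h3, ← Matrix.mulVec_mulVec, hl, Matrix.mulVec_smul,
    dotProduct_smul, smul_eq_mul] at h1
  by_contra hneg
  push Not at hneg
  nlinarith

/-- a solution of `μ Y + Y μ = E` with `-μ² ≤ E ≤ μ²` has `-μ/2 ≤ Y ≤ μ/2`
(apply `lyap_nonneg` to `μ/2 ∓ Y`). -/
theorem lyap_bounds {μ E Y : Matrix ι ι ℝ} (hμ : μ.PosDef) (hY : Yᵀ = Y)
    (h : μ * Y + Y * μ = E) (h1 : 0 ≤ μ * μ + E) (h2 : 0 ≤ μ * μ - E) :
    0 ≤ (1 / 2 : ℝ) • μ + Y ∧ 0 ≤ (1 / 2 : ℝ) • μ - Y := by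
  have hs : μᵀ = μ := symm_of_nonneg (Matrix.nonneg_iff_posSemidef.mpr hμ.posSemidef)
  constructor
  · refine lyap_nonneg hμ (by simp [Matrix.transpose_add, hs, hY]) ?_
    convert h1 using 1
    rw [← h]
    simp only [Matrix.mul_add, Matrix.add_mul, Matrix.mul_smul, Matrix.smul_mul]
    module
  · refine lyap_nonneg hμ (by simp [Matrix.transpose_sub, hs, hY]) ?_
    convert h2 using 1
    rw [← h]
    simp only [Matrix.mul_sub, Matrix.sub_mul, Matrix.mul_smul, Matrix.smul_mul]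
    module

theorem posDef_add_smul_one {μ : Matrix ι ι ℝ} (hμ : 0 ≤ μ) {ε : ℝ} (hε : 0 < ε) :
    (μ + ε • (1 : Matrix ι ι ℝ)).PosDef := by
  exact Matrix.PosDef.posSemidef_add (Matrix.nonneg_iff_posSemidef.mp hμ)
    (Matrix.PosDef.one.smul hε)

end Crest.Agent.R72
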