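import Crest.Agent.R72.MatA

/-! # R72 task MatPsi: the potential `psi T = tr T^{3/2}` -/

set_option autoImplicit false
set_option linter.unusedSectionVars false

namespace Crest.Agent.R72

open Matrix Finset
open scoped MatrixOrder

variable {ι : Type*} [Fintype ι] [DecidableEq ι]

namespace MatPsi

theorem young_id (x μ : Matrix ι ι ℝ) :
    trace ((x - μ) * (x - μ) * (x + (1 / 2 : ℝ) • μ)) =
      trace (x * x * x) + 1 / 2 * trace (μ * μ * μ) - 3 / 2 * trace (x * x * μ) := by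
  have h1 : trace (x * μ * x) = trace (x * x * μ) := by
    rw [trace_mul_comm (x * μ) x, Matrix.mul_assoc]
  have h2 : trace (μ * x * x) = trace (x * x * μ) := by
    rw [Matrix.mul_assoc, trace_mul_comm]
  have h3 : trace (x * μ * μ) = trace (μ * μ * x) := by
    rw [Matrix.mul_assoc, trace_mul_comm]
  have h4 : trace (μ * x * μ) = trace (μ * μ * x) := by
    rw [trace_mul_comm (μ * x) μ, Matrix.mul_assoc]
  simp only [Matrix.sub_mul, Matrix.mul_sub, Matrix.mul_add, Matrix.mul_smul, trace_add, trace_sub,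
    trace_smul, smul_eq_mul, h1, h2, h3, h4]
  ring

theorem sq_nonneg_of_symm {x : Matrix ι ι ℝ} (hx : xᵀ = x) : 0 ≤ x * x := by
  have := transpose_mul_self_nonneg x
  rwa [hx] at this

theorem psi_eq {T : Matrix ι ι ℝ} (hT : 0 ≤ T) : psi T = trace (rt T * T) := by
  unfold psi
  rw [Matrix.mul_assoc, rt_mul_rt hT]

theorem eq_zero_of_trace {A : Matrix ι ι ℝ} (h : trace (Aᵀ * A) = 0) : A = 0 := by
  have := (trace_conjTranspose_mul_self_eq_zero_iff (A := A)).1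
  rw [conjTranspose_eq_transpose_of_trivial] at this
  exact this h

theorem eq_zero_of_mul {A : Matrix ι ι ℝ} (h : Aᵀ * A = 0) : A = 0 :=
  eq_zero_of_trace (by rw [h, trace_zero])

/-- `tr (Dᵀ L D) = 0` and `L ≥ 0` give `L D = 0` -/
theorem mul_eq_zero_of_trace {L D : Matrix ι ι ℝ} (hL : 0 ≤ L) (h : trace (Dᵀ * L * D) = 0) :
    L * D = 0 := by
  have h1 : (rt L * D)ᵀ * (rt L * D) = Dᵀ * L * D := by
    rw [transpose_mul, rt_symm, Matrix.mul_assoc, ← Matrix.mul_assoc (rt L), rt_mul_rt hL,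
      Matrix.mul_assoc]
  have h2 : rt L * D = 0 := eq_zero_of_trace (by rw [h1, h])
  calc L * D = rt L * (rt L * D) := by rw [← Matrix.mul_assoc, rt_mul_rt hL]
    _ = 0 := by rw [h2, Matrix.mul_zero]

/-- `|(A R) u v| ≤ |row_u A| * √(T v v)` for `R = rt T` -/
theorem entry_le (A : Matrix ι ι ℝ) {T : Matrix ι ι ℝ} (hT : 0 ≤ T) (u v : ι) :
    |(A * rt T) u v| ≤ √(∑ w, A u w ^ 2) * √(T v v) := by
  have h1 : T v v = ∑ w, rt T w v ^ 2 := by
    conv_lhs => rw [← rt_mul_rt hT]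
    rw [Matrix.mul_apply]
    refine Finset.sum_congr rfl fun w _ => ?_
    have : rt T v w = rt T w v := by
      conv_lhs => rw [← rt_symm T]
      rfl
    rw [this, sq]
  rw [h1, Matrix.mul_apply, ← Real.sqrt_mul (Finset.sum_nonneg fun _ _ => sq_nonneg _)]
  exact Real.abs_le_sqrt (Finset.sum_mul_sq_le_sq_mul_sq _ _ _)

end MatPsi

open MatPsi

/-- Young's inequality.  With `x = rt T`:
`tr x³ + ½ tr μ³ - (3/2) tr (x² μ) = tr ((x-μ)² (x + μ/2)) ≥ 0` (`trace_mul_nonneg`). -/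
theorem young {T μ : Matrix ι ι ℝ} (hT : 0 ≤ T) (hμ : 0 ≤ μ) :
    3 / 2 * trace (T * μ) - 1 / 2 * trace (μ * μ * μ) ≤ psi T := by
  have hs : (rt T - μ)ᵀ = rt T - μ := by
    rw [transpose_sub, rt_symm, symm_of_nonneg hμ]
  have h1 : 0 ≤ (rt T - μ) * (rt T - μ) := sq_nonneg_of_symm hs
  have h2 : 0 ≤ rt T + (1 / 2 : ℝ) • μ :=
    add_nonneg (rt_nonneg T) (smul_nonneg' hμ (by norm_num))
  have h3 := trace_mul_nonneg h1 h2
  rw [young_id, rt_mul_rt hT] at h3
  unfold psi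
  rw [rt_mul_rt hT]
  linarith

theorem psi_nonneg (T : Matrix ι ι ℝ) : 0 ≤ psi T :=
  trace_mul_nonneg (sq_nonneg_of_symm (rt_symm T)) (rt_nonneg T)

theorem psi_zero : psi (0 : Matrix ι ι ℝ) = 0 := by
  rw [psi_eq le_rfl, Matrix.mul_zero, trace_zero]

theorem psi_sq {R : Matrix ι ι ℝ} (hR : 0 ≤ R) : psi (R * R) = trace (R * R * R) := by
  unfold psi
  rw [rt_unique hR rfl]

/-- `young` at `μ = rt m` -/
theorem breg_nonneg {a m : Matrix ι ι ℝ} (ha : 0 ≤ a) (hm : 0 ≤ m) : 0 ≤ breg a m := by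
  have h := young ha (rt_nonneg m)
  have h1 : trace (rt m * rt m * rt m) = psi m := rfl
  have h2 := psi_eq hm
  unfold breg
  rw [Matrix.mul_sub, trace_sub, trace_mul_comm (rt m) a]
  linarith

theorem psi_jump {T T' : Matrix ι ι ℝ} (hT : 0 ≤ T) (hT' : 0 ≤ T') :
    psi T' - psi T ≤ 3 / 2 * trace (rt T' * (T' - T)) := by
  have h := breg_nonneg hT hT'
  unfold breg at h
  rw [Matrix.mul_sub, trace_sub] at h ⊢
  linarith

theorem psi_mono {S T : Matrix ι ι ℝ} (hS : 0 ≤ S) (h : S ≤ T) : psi S ≤ psi T := by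
  have h1 := breg_nonneg (hS.trans h) hS
  have h2 := trace_mul_nonneg (rt_nonneg S) (sub_nonneg.2 h)
  unfold breg at h1
  linarith

namespace MatPsi

theorem gap_breg (a a' m : Matrix ι ι ℝ) :
    breg a m / 2 + breg a' m / 2 = gap a a' + breg ((1 / 2 : ℝ) • (a + a')) m := by
  unfold breg gap
  simp only [Matrix.mul_sub, Matrix.mul_add, Matrix.mul_smul, trace_add, trace_sub,
    trace_smul, smul_eq_mul]
  ring

theorem breg_self (m : Matrix ι ι ℝ) : breg m m = 0 := by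
  unfold breg
  simp

theorem mid_nonneg {a a' : Matrix ι ι ℝ} (ha : 0 ≤ a) (ha' : 0 ≤ a') :
    0 ≤ (1 / 2 : ℝ) • (a + a') :=
  smul_nonneg' (add_nonneg ha ha') (by norm_num)

end MatPsi

theorem gap_nonneg {a a' : Matrix ι ι ℝ} (ha : 0 ≤ a) (ha' : 0 ≤ a') : 0 ≤ gap a a' := by
  have h := gap_breg a a' ((1 / 2 : ℝ) • (a + a'))
  have hm := mid_nonneg ha ha'
  have h1 := breg_nonneg ha hm
  have h2 := breg_nonneg ha' hm
  rw [breg_self] at h
  linarith

theorem gap_comm (a a' : Matrix ι ι ℝ) : gap a a' = gap a' a := by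
  unfold gap
  rw [add_comm a a']
  ring

/-- `½ breg a m + ½ breg a' m = gap a a' + breg ((a+a')/2) m` -/
theorem gap_le_breg {a a' m : Matrix ι ι ℝ} (ha : 0 ≤ a) (ha' : 0 ≤ a') (hm : 0 ≤ m) :
    gap a a' ≤ breg a m / 2 + breg a' m / 2 := by
  have h := gap_breg a a' m
  have h1 := breg_nonneg (mid_nonneg ha ha') hm
  linarith

theorem psi_smul_sq {T : Matrix ι ι ℝ} (hT : 0 ≤ T) {t : ℝ} (ht : 0 ≤ t) :
    psi ((t ^ 2) • T) = t ^ 3 * psi T := by
  unfold psi
  rw [rt_smul_sq hT ht]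
  simp only [Matrix.smul_mul, Matrix.mul_smul, trace_smul, smul_eq_mul]
  ring

theorem psi_diagonal {d : ι → ℝ} (hd : ∀ i, 0 ≤ d i) :
    psi (diagonal d) = ∑ i, √(d i) ^ 3 := by
  have h1 : rt (diagonal d) = diagonal fun i => √(d i) := by
    refine rt_unique (diagonal_nonneg fun i => Real.sqrt_nonneg _) ?_
    rw [diagonal_mul_diagonal]
    congr 1
    funext i
    exact Real.mul_self_sqrt (hd i)
  unfold psi
  rw [h1, diagonal_mul_diagonal, diagonal_mul_diagonal, trace_diagonal]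
  refine Finset.sum_congr rfl fun i _ => ?_
  ring

/-- With `L = rt (X Xᵀ)`, `R = rt (Xᵀ X)` and `D = X R - L X` one has `L D + D R = 0`, hence
`tr (Dᵀ L D) = 0`, `L D = 0`, `Xᵀ D = 0`, and `tr R³ - tr L³ = tr (Xᵀ D) = 0`. -/
theorem psi_mul_transpose (X : Matrix ι ι ℝ) : psi (X * Xᵀ) = psi (Xᵀ * X) := by
  have hP : 0 ≤ X * Xᵀ := by
    have := transpose_mul_self_nonneg Xᵀ
    rwa [transpose_transpose] at this
  have hQ : 0 ≤ Xᵀ * X := transpose_mul_self_nonneg X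
  set L := rt (X * Xᵀ) with hL
  set R := rt (Xᵀ * X) with hR
  have hLL : L * L = X * Xᵀ := rt_mul_rt hP
  have hRR : R * R = Xᵀ * X := rt_mul_rt hQ
  set D := X * R - L * X with hD
  have h1 : L * D + D * R = 0 := by
    have e1 : L * (L * X) = X * Xᵀ * X := by rw [← Matrix.mul_assoc, hLL]
    have e2 : X * R * R = X * Xᵀ * X := by rw [Matrix.mul_assoc, hRR, Matrix.mul_assoc]
    rw [hD, Matrix.mul_sub, Matrix.sub_mul, e1, e2, Matrix.mul_assoc L X R]
    abel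
  have h2 : trace (Dᵀ * L * D) + trace (Dᵀ * D * R) = 0 := by
    rw [← trace_add, Matrix.mul_assoc, Matrix.mul_assoc, ← Matrix.mul_add, h1, Matrix.mul_zero,
      trace_zero]
  have h3 : 0 ≤ trace (Dᵀ * L * D) := by
    have h0 := conj_le (rt_nonneg (X * Xᵀ)) D
    rw [Matrix.mul_zero, Matrix.zero_mul] at h0
    have := trace_mul_nonneg h0 (zero_le_one (α := Matrix ι ι ℝ))
    rwa [Matrix.mul_one] at this
  have h4 : 0 ≤ trace (Dᵀ * D * R) := trace_mul_nonneg (transpose_mul_self_nonneg D) (rt_nonneg _)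
  have h5 : L * D = 0 := mul_eq_zero_of_trace (rt_nonneg _) (by linarith)
  have h6 : Xᵀ * D = 0 := by
    apply eq_zero_of_mul
    rw [transpose_mul, transpose_transpose, Matrix.mul_assoc, ← Matrix.mul_assoc X, ← hLL,
      Matrix.mul_assoc L, h5, Matrix.mul_zero, Matrix.mul_zero]
  have h7 : trace (Xᵀ * (X * R)) = trace (Xᵀ * (L * X)) := by
    rw [← sub_eq_zero, ← trace_sub, ← Matrix.mul_sub, ← hD, h6, trace_zero]
  rw [psi_eq hP, psi_eq hQ, ← hL, ← hR, ← Matrix.mul_assoc, trace_mul_comm _ Xᵀ, ← h7,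
    ← Matrix.mul_assoc, trace_mul_comm]

/-- entrywise jump bound.  With `T' = A'ᵀ A' + Z`, `R = rt T'`, `δ = A' - A`:
`T' - T = A'ᵀ δ + δᵀ A`, `tr (R A'ᵀ δ) = ∑ (A' R) u v * δ u v`, `tr (R δᵀ A) = ∑ δ u v * (A R) u v`
and `|(A R) u v| ≤ |row_u A| * |col_v R| = |row_u A| * √(T' v v)` (Cauchy-Schwarz). -/
theorem psi_jump_entry (A A' : Matrix ι ι ℝ) {Z : Matrix ι ι ℝ} (hZ : 0 ≤ Z) :
    psi (A'ᵀ * A' + Z) - psi (Aᵀ * A + Z) ≤
      3 / 2 * ∑ u, ∑ v, |A' u v - A u v| *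
        (√(∑ w, A' u w ^ 2) + √(∑ w, A u w ^ 2)) * √((A'ᵀ * A' + Z) v v) := by
  have hT : 0 ≤ Aᵀ * A + Z := add_nonneg (transpose_mul_self_nonneg A) hZ
  have hT' : 0 ≤ A'ᵀ * A' + Z := add_nonneg (transpose_mul_self_nonneg A') hZ
  refine (psi_jump hT hT').trans (mul_le_mul_of_nonneg_left ?_ (by norm_num))
  set T' := A'ᵀ * A' + Z with hT'def
  set R := rt T' with hR
  have hRs : Rᵀ = R := rt_symm T'
  have h1 : T' - (Aᵀ * A + Z) = A'ᵀ * (A' - A) + (A' - A)ᵀ * A := by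
    rw [hT'def, transpose_sub, Matrix.mul_sub, Matrix.sub_mul]
    abel
  have h2 : ∀ B : Matrix ι ι ℝ, trace ((A' - A)ᵀ * B) = ∑ u, ∑ v, (A' u v - A u v) * B u v := by
    intro B
    rw [Finset.sum_comm]
    simp only [trace, diag_apply, Matrix.mul_apply, transpose_apply, Matrix.sub_apply]
  have h3 : trace (R * (A'ᵀ * (A' - A))) = trace ((A' - A)ᵀ * (A' * R)) := by
    rw [← trace_transpose, transpose_mul, transpose_mul, transpose_transpose, hRs,
      Matrix.mul_assoc]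
  have h4 : trace (R * ((A' - A)ᵀ * A)) = trace ((A' - A)ᵀ * (A * R)) := by
    rw [trace_mul_comm, Matrix.mul_assoc]
  rw [h1, Matrix.mul_add, trace_add, h3, h4, h2, h2, ← Finset.sum_add_distrib]
  refine Finset.sum_le_sum fun u _ => ?_
  rw [← Finset.sum_add_distrib]
  refine Finset.sum_le_sum fun v _ => ?_
  have e1 := entry_le A' hT' u v
  have e2 := entry_le A hT' u v
  have e3 : (A' u v - A u v) * (A' * R) u v ≤ |A' u v - A u v| * |(A' * R) u v| := by
    rw [← abs_mul]; exact le_abs_self _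
  have e4 : (A' u v - A u v) * (A * R) u v ≤ |A' u v - A u v| * |(A * R) u v| := by
    rw [← abs_mul]; exact le_abs_self _
  have e5 := mul_le_mul_of_nonneg_left e1 (abs_nonneg (A' u v - A u v))
  have e6 := mul_le_mul_of_nonneg_left e2 (abs_nonneg (A' u v - A u v))
  calc _ ≤ |A' u v - A u v| * (√(∑ w, A' u w ^ 2) * √(T' v v))
        + |A' u v - A u v| * (√(∑ w, A u w ^ 2) * √(T' v v)) := by
        exact add_le_add (e3.trans e5) (e4.trans e6)
    _ = _ := by ring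

end Crest.Agent.R72
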