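import Crest.Agent.R72.MatPsi

/-! # R72 task MatQ: the quadratic form `QB`, mixed differences, weighted potentials -/

set_option autoImplicit false

namespace Crest.Agent.R72

open Matrix Finset
open scoped MatrixOrder

variable {ι : Type*} [Fintype ι] [DecidableEq ι]

namespace MatQ

omit [DecidableEq ι] in
lemma cyc (A B C : Matrix ι ι ℝ) : trace (A * (B * C)) = trace (B * (C * A)) := by
  rw [trace_mul_comm, Matrix.mul_assoc]

omit [DecidableEq ι] in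
lemma half_add_sub (m E : Matrix ι ι ℝ) : (1 / 2 : ℝ) • (m + E + (m - E)) = m := by module

lemma mid_nonneg {m E : Matrix ι ι ℝ} (h1 : 0 ≤ m + E) (h2 : 0 ≤ m - E) : 0 ≤ m := by
  rw [← half_add_sub m E]
  exact smul_nonneg' (add_nonneg h1 h2) (by norm_num)

lemma dif_symm {m E : Matrix ι ι ℝ} (h1 : 0 ≤ m + E) (h2 : 0 ≤ m - E) : Eᵀ = E := by
  have a := symm_of_nonneg h1
  rw [transpose_add, symm_of_nonneg (mid_nonneg h1 h2)] at a
  exact add_left_cancel a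

lemma sq_nonneg' {Y : Matrix ι ι ℝ} (hY : Yᵀ = Y) : 0 ≤ Y * Y := by
  have := transpose_mul_self_nonneg Y
  rwa [hY] at this

lemma QB_eps {m E μ Y : Matrix ι ι ℝ} (h1 : 0 ≤ m + E) (h2 : 0 ≤ m - E) (hμ : μ.PosDef)
    (hm : m ≤ μ * μ) (hY : Yᵀ = Y) :
    2 * trace (E * Y) - 2 * trace (μ * Y * Y) ≤
      4 / 3 * (psi (m + E) / 2 + psi (m - E) / 2 - 3 / 2 * trace (m * μ)
        + 1 / 2 * trace (μ * μ * μ)) := by
  have hμ0 : 0 ≤ μ := hμ.posSemidef.nonneg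
  obtain ⟨Z, hZ, e⟩ := lyap_exists hμ (dif_symm h1 h2)
  obtain ⟨b1, b2⟩ := lyap_bounds hμ hZ e (h1.trans (by gcongr)) (h2.trans (by gcongr))
  have hh : 0 ≤ (1 / 2 : ℝ) • μ := smul_nonneg' hμ0 (by norm_num)
  have c1 : 0 ≤ μ + Z := by
    have := add_nonneg hh b1
    rwa [← add_assoc, ← add_smul, add_halves, one_smul] at this
  have c2 : 0 ≤ μ - Z := by
    have := add_nonneg hh b2
    rwa [← add_sub_assoc, ← add_smul, add_halves, one_smul] at this
  have y1 := young h1 c1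
  have y2 := young h2 c2
  have y3 := trace_mul_nonneg hμ0 (sq_nonneg' (Y := Y - Z) (by rw [transpose_sub, hY, hZ]))
  generalize psi (m + E) = p1 at *
  generalize psi (m - E) = p2 at *
  subst e
  simp only [Matrix.mul_add, Matrix.add_mul, Matrix.mul_sub, Matrix.sub_mul, trace_add, trace_sub,
    Matrix.mul_assoc] at y1 y2 y3 ⊢
  have := cyc Z μ Y
  have := cyc Z μ Z
  have := cyc Z Z μ
  linarith

lemma breg_le {c E : Matrix ι ι ℝ} {t : ℝ} (hc : 0 ≤ c) (h1 : 0 ≤ c + E) (h : QB c E t) :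
    psi (c + E) - psi c - 3 / 2 * trace (rt c * E) ≤ t := by
  obtain ⟨δ, hδ⟩ : ∃ δ, δ = rt (c + E) - rt c := ⟨_, rfl⟩
  have e1 : rt (c + E) = rt c + δ := by rw [hδ]; abel
  have e2 : E = δ * δ + rt c * δ + δ * rt c := by
    have := rt_mul_rt h1
    rw [e1, Matrix.mul_add, Matrix.add_mul, Matrix.add_mul, rt_mul_rt hc] at this
    have h3 : c + E = c + (δ * δ + rt c * δ + δ * rt c) := by rw [← this]; abel
    exact add_left_cancel h3
  have h4 := h ((1 / 2 : ℝ) • δ) (by rw [transpose_smul, hδ, transpose_sub, rt_symm, rt_symm])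
  unfold psi
  rw [e1]
  generalize rt c = μ at *
  clear hδ e1 h1 h
  subst e2
  simp only [Matrix.mul_add, Matrix.add_mul, trace_add, Matrix.mul_assoc, Matrix.mul_smul,
    Matrix.smul_mul, trace_smul, smul_eq_mul] at h4 ⊢
  have := cyc δ μ δ
  have := cyc δ δ μ
  have := cyc δ μ μ
  have := cyc μ δ μ
  linarith

end MatQ

open MatQ

/-- (Q1).  For `ε > 0` let `μ = rt m + ε`, `μ Y₀ + Y₀ μ = E` (`lyap_exists`), so `μ ± Y₀ ≥ 0`
(`lyap_bounds`, as `μ² ≥ m`), and `Q := tr (E Y₀) = 2 tr (μ Y₀²)`.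
For symmetric `Y`: `2 tr (E Y) - 2 tr (μ Y²) ≤ Q` (expand `tr (μ (Y - Y₀)²) ≥ 0`).
`young` for `(m ± E, μ ± Y₀)` averaged gives
`½ psi (m+E) + ½ psi (m-E) ≥ (3/2) tr (m μ) - ½ tr μ³ + (3/4) Q`.
Both sides of the resulting inequality are polynomials in `ε`; let `ε → 0`. -/
theorem QB_of_gap {m E : Matrix ι ι ℝ} (h1 : 0 ≤ m + E) (h2 : 0 ≤ m - E) :
    QB m E (4 / 3 * gap (m + E) (m - E)) := by
  intro Y hY
  have hm := mid_nonneg h1 h2
  have hR := rt_nonneg m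
  have key : ∀ ε : ℝ, 0 < ε → 2 * trace (E * Y) - 2 * trace (rt m * Y * Y) ≤
      4 / 3 * gap (m + E) (m - E) + (2 * ε * trace (Y * Y) + 2 * ε ^ 2 * trace (rt m)
        + 2 / 3 * ε ^ 3 * trace (1 : Matrix ι ι ℝ)) := fun ε hε => by
    have := QB_eps h1 h2 (posDef_add_smul_one hR hε) (by
      have e : (rt m + ε • (1 : Matrix ι ι ℝ)) * (rt m + ε • 1) =
          m + ((2 * ε) • rt m + (ε * ε) • 1) := by
        simp only [Matrix.mul_add, Matrix.add_mul, Matrix.mul_smul, Matrix.smul_mul,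
          Matrix.mul_one, Matrix.one_mul, rt_mul_rt hm]
        module
      rw [e]
      exact le_add_of_nonneg_right (add_nonneg (smul_nonneg' hR (by positivity))
        (smul_nonneg' (Matrix.PosSemidef.one).nonneg (by positivity)))) hY
    unfold gap
    rw [half_add_sub]
    generalize psi (m + E) = p1 at *
    generalize psi (m - E) = p2 at *
    unfold psi
    simp only [Matrix.mul_add, Matrix.add_mul, Matrix.mul_smul, Matrix.smul_mul,
      Matrix.mul_one, Matrix.one_mul, rt_mul_rt hm, trace_add, trace_smul, smul_eq_mul] at this ⊢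
    linarith
  have hc : Continuous fun ε : ℝ => 4 / 3 * gap (m + E) (m - E) + (2 * ε * trace (Y * Y)
      + 2 * ε ^ 2 * trace (rt m) + 2 / 3 * ε ^ 3 * trace (1 : Matrix ι ι ℝ)) := by fun_prop
  have ht := (hc.tendsto 0).mono_left (nhdsWithin_le_nhds (s := Set.Ioi 0))
  have := ge_of_tendsto ht (eventually_nhdsWithin_of_forall fun ε hε => key ε hε)
  simpa using this

/-- (Q2).  With `μ = rt c`, `δ = rt (c + E) - μ`: `E = δ² + μ δ + δ μ`, and testing `QB` with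
`Y = δ/2` gives exactly `tr δ³ + (3/2) tr (μ δ²) = breg (c+E) c`.  Same for `-E` with
`Y = -δ'/2`; the linear terms cancel in the average. -/
theorem gap_le_of_QB {c E : Matrix ι ι ℝ} {t : ℝ} (h1 : 0 ≤ c + E) (h2 : 0 ≤ c - E)
    (h : QB c E t) : gap (c + E) (c - E) ≤ t := by
  have hc := mid_nonneg h1 h2
  have a1 := breg_le hc h1 h
  have a2 := breg_le (E := -E) (t := t) hc (by rwa [← sub_eq_add_neg]) fun Y hY => by
    have := h (-Y) (by rw [transpose_neg, hY])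
    simpa using this
  unfold gap
  rw [half_add_sub]
  rw [← sub_eq_add_neg, Matrix.mul_neg, trace_neg] at a2
  linarith

theorem QB_mono {m m' E : Matrix ι ι ℝ} {t : ℝ} (hm : 0 ≤ m) (h : m ≤ m') (hQ : QB m E t) :
    QB m' E t := by
  intro Y hY
  have a := hQ Y hY
  have b := trace_mul_mono (sq_nonneg' hY) (rt_mono hm h)
  rw [trace_mul_comm, trace_mul_comm (Y * Y), ← Matrix.mul_assoc, ← Matrix.mul_assoc] at b
  linarith

theorem QB_neg {m E : Matrix ι ι ℝ} {t : ℝ} (hQ : QB m E t) : QB m (-E) t := by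
  intro Y hY
  have := hQ (-Y) (by rw [transpose_neg, hY])
  simpa using this

/-- test the two hypotheses with `Y/2` -/
theorem QB_add {m E E' : Matrix ι ι ℝ} {t t' : ℝ} (h : QB m E t) (h' : QB m E' t') :
    QB m (E + E') (2 * t + 2 * t') := by
  intro Y hY
  have a := h ((1 / 2 : ℝ) • Y) (by rw [transpose_smul, hY])
  have b := h' ((1 / 2 : ℝ) • Y) (by rw [transpose_smul, hY])
  simp only [Matrix.add_mul, Matrix.mul_smul, Matrix.smul_mul, trace_add, trace_smul,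
    smul_eq_mul] at a b ⊢
  linarith

theorem QB_avg {m E E' : Matrix ι ι ℝ} {t t' : ℝ} (h : QB m E t) (h' : QB m E' t') :
    QB m ((1 / 2 : ℝ) • (E + E')) ((t + t') / 2) := by
  intro Y hY
  have a := h Y hY
  have b := h' Y hY
  simp only [Matrix.add_mul, Matrix.smul_mul, trace_add, trace_smul, smul_eq_mul] at a b ⊢
  linarith

/-- `rt (m/4) = rt m / 2`; test with `Y/2` -/
theorem QB_quarter {m E : Matrix ι ι ℝ} {t : ℝ} (hm : 0 ≤ m) (h : QB m E t) :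
    QB ((1 / 4 : ℝ) • m) E (2 * t) := by
  intro Y hY
  have a := h ((1 / 2 : ℝ) • Y) (by rw [transpose_smul, hY])
  rw [show (1 / 4 : ℝ) = (1 / 2) ^ 2 by norm_num, rt_smul_sq hm (by norm_num)]
  simp only [Matrix.mul_smul, Matrix.smul_mul, trace_smul, smul_eq_mul] at a ⊢
  linarith

/-- `QB_of_gap` for the two pairs, `QB_quarter`, `QB_mono`, `QB_avg`. -/
theorem QB_half {a₁ a₂ a₁' a₂' : Matrix ι ι ℝ} (h₁ : 0 ≤ a₁) (h₂ : 0 ≤ a₂) (h₁' : 0 ≤ a₁')
    (h₂' : 0 ≤ a₂') :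
    QB ((1 / 2 : ℝ) • ((1 / 2 : ℝ) • (a₁ + a₂) + (1 / 2 : ℝ) • (a₁' + a₂')))
      ((1 / 2 : ℝ) • ((1 / 2 : ℝ) • (a₁' + a₂') - (1 / 2 : ℝ) • (a₁ + a₂)))
      (4 / 3 * (gap a₁ a₁' + gap a₂ a₂')) := by
  have key : ∀ {a a' b b' M : Matrix ι ι ℝ}, 0 ≤ a → 0 ≤ a' → 0 ≤ b → 0 ≤ b' →
      M = (1 / 4 : ℝ) • (a + a') + (1 / 4 : ℝ) • (b + b') →
      QB M ((1 / 2 : ℝ) • (a' - a)) (2 * (4 / 3 * gap a a')) := by
    intro a a' b b' M ha ha' hb hb' hM
    have e1 : (1 / 2 : ℝ) • (a + a') + (1 / 2 : ℝ) • (a' - a) = a' := by module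
    have e2 : (1 / 2 : ℝ) • (a + a') - (1 / 2 : ℝ) • (a' - a) = a := by module
    have hm : 0 ≤ (1 / 2 : ℝ) • (a + a') := smul_nonneg' (add_nonneg ha ha') (by norm_num)
    have q := QB_of_gap (e1.symm ▸ ha') (e2.symm ▸ ha)
    rw [e1, e2, gap_comm] at q
    refine QB_mono (smul_nonneg' hm (by norm_num)) ?_ (QB_quarter hm q)
    have e3 : M = (1 / 4 : ℝ) • ((1 / 2 : ℝ) • (a + a')) +
        ((1 / 8 : ℝ) • (a + a') + (1 / 4 : ℝ) • (b + b')) := by rw [hM]; module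
    rw [e3]
    exact le_add_of_nonneg_right (add_nonneg (smul_nonneg' (add_nonneg ha ha') (by norm_num))
      (smul_nonneg' (add_nonneg hb hb') (by norm_num)))
  have q := QB_avg
    (key (M := (1 / 2 : ℝ) • ((1 / 2 : ℝ) • (a₁ + a₂) + (1 / 2 : ℝ) • (a₁' + a₂')))
      h₁ h₁' h₂ h₂' (by module)) (key h₂ h₂' h₁ h₁' (by module))
  convert q using 1
  · module
  · ring

/-- mixed second difference.  With `c = (a+a')/2 + (b+b')/2`, `α = (a'-a)/2`, `β = (b'-b)/2` the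
expression is `2 gap (c+(α+β)) (c-(α+β)) - 2 gap (c+(α-β)) (c-(α-β))`; both gaps are `≥ 0` and
`≤ 2 t + 2 t'` by `QB_mono`, `QB_neg`, `QB_add`, `gap_le_of_QB`. -/
theorem mixed_QB {a a' b b' : Matrix ι ι ℝ} {t t' : ℝ} (ha : 0 ≤ a) (ha' : 0 ≤ a') (hb : 0 ≤ b)
    (hb' : 0 ≤ b')
    (h : QB ((1 / 2 : ℝ) • (a + a')) ((1 / 2 : ℝ) • (a' - a)) t)
    (h' : QB ((1 / 2 : ℝ) • (b + b')) ((1 / 2 : ℝ) • (b' - b)) t') :
    |psi (a + b) + psi (a' + b') - psi (a' + b) - psi (a + b')| ≤ 4 * t + 4 * t' := by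
  have hA : 0 ≤ (1 / 2 : ℝ) • (a + a') := smul_nonneg' (add_nonneg ha ha') (by norm_num)
  have hB : 0 ≤ (1 / 2 : ℝ) • (b + b') := smul_nonneg' (add_nonneg hb hb') (by norm_num)
  obtain ⟨c, hc⟩ : ∃ c, c = (1 / 2 : ℝ) • (a + a') + (1 / 2 : ℝ) • (b + b') := ⟨_, rfl⟩
  have q1 : QB c _ t := QB_mono hA (hc ▸ le_add_of_nonneg_right hB) h
  have q2 : QB c _ t' := QB_mono hB (hc ▸ le_add_of_nonneg_left hA) h'
  have e1 : c + ((1 / 2 : ℝ) • (a' - a) + (1 / 2 : ℝ) • (b' - b)) = a' + b' := by rw [hc]; module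
  have e2 : c - ((1 / 2 : ℝ) • (a' - a) + (1 / 2 : ℝ) • (b' - b)) = a + b := by rw [hc]; module
  have e3 : c + ((1 / 2 : ℝ) • (a' - a) + -((1 / 2 : ℝ) • (b' - b))) = a' + b := by
    rw [hc]; module
  have e4 : c - ((1 / 2 : ℝ) • (a' - a) + -((1 / 2 : ℝ) • (b' - b))) = a + b' := by
    rw [hc]; module
  have g1 := gap_le_of_QB (e1.symm ▸ add_nonneg ha' hb') (e2.symm ▸ add_nonneg ha hb)
    (QB_add q1 q2)
  have g2 := gap_le_of_QB (e3.symm ▸ add_nonneg ha' hb) (e4.symm ▸ add_nonneg ha hb')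
    (QB_add q1 (QB_neg q2))
  rw [e1, e2] at g1
  rw [e3, e4] at g2
  have g3 := gap_nonneg (add_nonneg ha' hb') (add_nonneg ha hb)
  have g4 := gap_nonneg (add_nonneg ha' hb) (add_nonneg ha hb')
  unfold gap at g1 g2 g3 g4
  rw [show a' + b + (a + b') = a' + b' + (a + b) by abel] at g2 g4
  rw [abs_le]
  constructor <;> linarith

/-- `mixed_QB` + `QB_half` -/
theorem mixed_half {a₁ a₂ a₁' a₂' b₁ b₂ b₁' b₂' : Matrix ι ι ℝ}
    (h₁ : 0 ≤ a₁) (h₂ : 0 ≤ a₂) (h₁' : 0 ≤ a₁') (h₂' : 0 ≤ a₂')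
    (g₁ : 0 ≤ b₁) (g₂ : 0 ≤ b₂) (g₁' : 0 ≤ b₁') (g₂' : 0 ≤ b₂') :
    |psi ((1 / 2 : ℝ) • (a₁ + a₂) + (1 / 2 : ℝ) • (b₁ + b₂))
      + psi ((1 / 2 : ℝ) • (a₁' + a₂') + (1 / 2 : ℝ) • (b₁' + b₂'))
      - psi ((1 / 2 : ℝ) • (a₁' + a₂') + (1 / 2 : ℝ) • (b₁ + b₂))
      - psi ((1 / 2 : ℝ) • (a₁ + a₂) + (1 / 2 : ℝ) • (b₁' + b₂'))|
      ≤ 16 / 3 * (gap a₁ a₁' + gap a₂ a₂' + gap b₁ b₁' + gap b₂ b₂') := by
  have hh : ∀ {x y : Matrix ι ι ℝ}, 0 ≤ x → 0 ≤ y → 0 ≤ (1 / 2 : ℝ) • (x + y) := fun hx hy =>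
    smul_nonneg' (add_nonneg hx hy) (by norm_num)
  have := mixed_QB (hh h₁ h₂) (hh h₁' h₂') (hh g₁ g₂) (hh g₁' g₂') (QB_half h₁ h₂ h₁' h₂')
    (QB_half g₁ g₂ g₁' g₂')
  linarith

/-! ### weighted potentials -/

theorem dsq_symm (W : ι → ℝ) : (dsq W)ᵀ = dsq W := by
  exact diagonal_transpose _

theorem dsq_mul_dsq {W : ι → ℝ} (hW : ∀ i, 0 ≤ W i) : dsq W * dsq W = diagonal W := by
  unfold dsq
  rw [diagonal_mul_diagonal]
  congr 1
  funext i
  exact Real.mul_self_sqrt (hW i)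

theorem cj_nonneg (W : ι → ℝ) {S : Matrix ι ι ℝ} (hS : 0 ≤ S) : 0 ≤ cj W S := by
  have := conj_le hS (dsq W)
  rwa [dsq_symm, Matrix.mul_zero, Matrix.zero_mul] at this

theorem cj_mono (W : ι → ℝ) {S S' : Matrix ι ι ℝ} (h : S ≤ S') : cj W S ≤ cj W S' := by
  have := conj_le h (dsq W)
  rwa [dsq_symm] at this

theorem cj_add (W : ι → ℝ) (S S' : Matrix ι ι ℝ) : cj W (S + S') = cj W S + cj W S' := by
  simp only [cj, Matrix.mul_add, Matrix.add_mul]

theorem cj_smul (W : ι → ℝ) (t : ℝ) (S : Matrix ι ι ℝ) : cj W (t • S) = t • cj W S := by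
  simp only [cj, Matrix.mul_smul, Matrix.smul_mul]

theorem gram_nonneg (x : Matrix ι ι ℝ) {W : ι → ℝ} (hW : ∀ i, 0 ≤ W i) : 0 ≤ gram x W := by
  have := conj_le (diagonal_nonneg hW) x
  rwa [Matrix.mul_zero, Matrix.zero_mul] at this

theorem gram_mono (x : Matrix ι ι ℝ) {W W' : ι → ℝ} (h : ∀ i, W i ≤ W' i) :
    gram x W ≤ gram x W' := by
  refine conj_le ?_ x
  rw [← sub_nonneg, diagonal_sub]
  exact diagonal_nonneg fun i => sub_nonneg.2 (h i)

theorem gram_avg (x : Matrix ι ι ℝ) (W W' : ι → ℝ) :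
    gram x (fun i => (W i + W' i) / 2) = (1 / 2 : ℝ) • (gram x W + gram x W') := by
  have : diagonal (fun i => (W i + W' i) / 2) = (1 / 2 : ℝ) • (diagonal W + diagonal W') := by
    rw [diagonal_add, ← diagonal_smul]
    congr 1
    funext i
    simp only [Pi.smul_apply, smul_eq_mul]
    ring
  simp only [gram, this, Matrix.mul_smul, Matrix.smul_mul, Matrix.mul_add, Matrix.add_mul]

theorem gram_smul (x : Matrix ι ι ℝ) (t : ℝ) (W : ι → ℝ) :
    gram x (fun i => t * W i) = t • gram x W := by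
  have : diagonal (fun i => t * W i) = t • diagonal W := by
    rw [← diagonal_smul]; rfl
  simp only [gram, this, Matrix.mul_smul, Matrix.smul_mul]

theorem gram_zero (W : ι → ℝ) : gram (0 : Matrix ι ι ℝ) W = 0 := by
  simp [gram]

theorem Psi_nonneg (S : Matrix ι ι ℝ) (W : ι → ℝ) : 0 ≤ Psi S W := psi_nonneg _

theorem Psi_zero (W : ι → ℝ) : Psi (0 : Matrix ι ι ℝ) W = 0 := by
  simp [Psi, cj, psi_zero]

/-- convexity in `S` -/
theorem Psi_convS {S S' : Matrix ι ι ℝ} (hS : 0 ≤ S) (hS' : 0 ≤ S') (W : ι → ℝ) :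
    Psi ((1 / 2 : ℝ) • (S + S')) W ≤ Psi S W / 2 + Psi S' W / 2 := by
  have := gap_nonneg (cj_nonneg W hS) (cj_nonneg W hS')
  unfold gap at this
  unfold Psi
  rw [cj_smul, cj_add]
  linarith

theorem gapW_four {S : Matrix ι ι ℝ} (hS : 0 ≤ S) (P M : ι → ℝ) :
    gapW ((4 : ℝ) • S) P M = 8 * gapW S P M := by
  have : ∀ W, Psi ((4 : ℝ) • S) W = 8 * Psi S W := fun W => by
    unfold Psi
    rw [cj_smul, show (4 : ℝ) = 2 ^ 2 by norm_num, psi_smul_sq (cj_nonneg W hS) (by norm_num)]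
    norm_num
  unfold gapW
  rw [this, this, this]
  ring

/-- With `W = (P+M)/2`, `h = (P-M)/(P+M)` (`0/0 = 0`), `m = cj W S`, `R = rt m`, `H = diagonal h`:
`P = W (1+h)`, `dsq P = dsq (1+h) * dsq W`, so with `X = dsq (1+h) * R`,
`Psi S P = psi (X Xᵀ) = psi (Xᵀ X) = psi (m + R H R)` (`psi_mul_transpose`); likewise
`Psi S M = psi (m - R H R)`.  Hence `gapW S P M = gap (m + RHR) (m - RHR)`. -/
theorem gapW_eq {S : Matrix ι ι ℝ} (hS : 0 ≤ S) {P M : ι → ℝ} (hP : ∀ i, 0 ≤ P i)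
    (hM : ∀ i, 0 ≤ M i) :
    let m := cj (fun i => (P i + M i) / 2) S
    let E := rt m * diagonal (fun i => (P i - M i) / (P i + M i)) * rt m
    0 ≤ m + E ∧ 0 ≤ m - E ∧ gapW S P M = gap (m + E) (m - E) := by
  intro m E
  have hm : 0 ≤ m := cj_nonneg _ hS
  have key : ∀ (Q h : ι → ℝ), (∀ i, 0 ≤ 1 + h i) → (∀ i, Q i = (1 + h i) * ((P i + M i) / 2)) →
      0 ≤ m + rt m * diagonal h * rt m ∧ Psi S Q = psi (m + rt m * diagonal h * rt m) := by
    intro Q h hh hQ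
    have e1 : dsq Q = dsq (fun i => 1 + h i) * dsq (fun i => (P i + M i) / 2) := by
      unfold dsq
      rw [diagonal_mul_diagonal]
      congr 1
      funext i
      rw [hQ, Real.sqrt_mul (hh i)]
    have e2 : dsq Q = dsq (fun i => (P i + M i) / 2) * dsq (fun i => 1 + h i) := by
      rw [← dsq_symm Q, e1, transpose_mul, dsq_symm, dsq_symm]
    have e3 : (dsq (fun i => 1 + h i) * rt m)ᵀ * (dsq (fun i => 1 + h i) * rt m) =
        m + rt m * diagonal h * rt m := by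
      rw [transpose_mul, dsq_symm, rt_symm, Matrix.mul_assoc, ← Matrix.mul_assoc (dsq _),
        dsq_mul_dsq hh, ← diagonal_add, diagonal_one, Matrix.add_mul, Matrix.one_mul,
        Matrix.mul_add, rt_mul_rt hm, Matrix.mul_assoc]
    have e4 : (dsq (fun i => 1 + h i) * rt m) * (dsq (fun i => 1 + h i) * rt m)ᵀ = cj Q S := by
      rw [transpose_mul, dsq_symm, rt_symm, Matrix.mul_assoc, ← Matrix.mul_assoc (rt m),
        rt_mul_rt hm]
      unfold cj
      nth_rewrite 1 [e1]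
      rw [e2]
      simp only [m, cj, Matrix.mul_assoc]
    refine ⟨e3 ▸ transpose_mul_self_nonneg _, ?_⟩
    unfold Psi
    rw [← e4, psi_mul_transpose, e3]
  have hs : ∀ i, P i + M i = 0 ∨ 0 < P i + M i := fun i =>
    (add_nonneg (hP i) (hM i)).eq_or_lt.imp_left Eq.symm
  obtain ⟨a1, a2⟩ := key P (fun i => (P i - M i) / (P i + M i)) (fun i => by
      rcases hs i with h | h
      · simp [h]
      · rw [one_add_div h.ne']; exact div_nonneg (by linarith [hP i]) h.le) (fun i => by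
      rcases hs i with h | h
      · have h1 : P i = 0 := by linarith [hP i, hM i]
        have h2 : M i = 0 := by linarith [hP i, hM i]
        simp [h1, h2]
      · field_simp; ring)
  obtain ⟨b1, b2⟩ := key M (fun i => -((P i - M i) / (P i + M i))) (fun i => by
      rcases hs i with h | h
      · simp [h]
      · rw [← neg_div, one_add_div h.ne']; exact div_nonneg (by linarith [hM i]) h.le) (fun i => by
      rcases hs i with h | h
      · have h1 : P i = 0 := by linarith [hP i, hM i]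
        have h2 : M i = 0 := by linarith [hP i, hM i]
        simp [h1, h2]
      · field_simp; ring)
  rw [← diagonal_neg, Matrix.mul_neg, Matrix.neg_mul, ← sub_eq_add_neg] at b1 b2
  refine ⟨a1, b1, ?_⟩
  unfold gapW gap
  rw [a2, b2, half_add_sub]
  rfl

/-- convexity in the weight -/
theorem gapW_nonneg {S : Matrix ι ι ℝ} (hS : 0 ≤ S) {P M : ι → ℝ} (hP : ∀ i, 0 ≤ P i)
    (hM : ∀ i, 0 ≤ M i) : 0 ≤ gapW S P M := by
  obtain ⟨a, b, c⟩ := gapW_eq hS hP hM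
  rw [c]
  exact gap_nonneg a b

end Crest.Agent.R72
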