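import Crest.Agent.R72.Win

/-! # R72 task Mixed: changing the offset of the plane costs pure gaps -/

set_option autoImplicit false

namespace Crest.Agent.R72

open Matrix Finset
open scoped MatrixOrder

variable {G : Type*} [CommRing G] [Fintype G] [DecidableEq G]

namespace Mixed

/-- the short-window matrix `α(p)` -/
noncomputable def al (k : ℕ) (W : G → ℝ) (x : Matrix G G ℝ) (p : G) : Matrix G G ℝ :=
  cj W (gram x (win k p))

theorem al_nonneg (k : ℕ) (W : G → ℝ) (x : Matrix G G ℝ) (p : G) : 0 ≤ al k W x p :=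
  cj_nonneg W (gram_nonneg x (win_nonneg k p))

omit [CommRing G] in
theorem cj_gram_sum {n : ℕ} (W : G → ℝ) (x : Matrix G G ℝ) (V : ℕ → G → ℝ) (c : ℝ) :
    cj W (gram x (fun z => (∑ i ∈ range n, V i z) / c))
      = c⁻¹ • ∑ i ∈ range n, cj W (gram x (V i)) := by
  have h1 : diagonal (fun z => (∑ i ∈ range n, V i z) / c)
      = c⁻¹ • ∑ i ∈ range n, diagonal (V i) := by
    ext u v
    simp only [Matrix.smul_apply, Matrix.sum_apply, diagonal_apply, smul_eq_mul]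
    split_ifs with h
    · rw [div_eq_inv_mul]
    · simp
  simp only [cj, gram, h1, Matrix.mul_smul, Matrix.smul_mul, Matrix.mul_sum, Matrix.sum_mul]

theorem al_add (k L : ℕ) (W : G → ℝ) (x : Matrix G G ℝ) (q : G) :
    al (k + L) W x q = ((2 : ℝ) ^ L)⁻¹ • ∑ i ∈ range (2 ^ L), al k W x (q + (i : G) * 2 ^ k) := by
  unfold al
  rw [win_add]
  exact cj_gram_sum W x (fun i => win k (q + (i : G) * 2 ^ k)) _

theorem al_succ (k : ℕ) (W : G → ℝ) (x : Matrix G G ℝ) (p : G) :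
    al (k + 1) W x p = (1 / 2 : ℝ) • (al k W x p + al k W x (p + 2 ^ k)) := by
  unfold al
  rw [win_succ, gram_avg, cj_smul, cj_add]

omit [CommRing G] in
theorem sum_breg {n : ℕ} (hn : 0 < n) (A : ℕ → Matrix G G ℝ) (m : Matrix G G ℝ)
    (hm : m = ((n : ℝ))⁻¹ • ∑ i ∈ range n, A i) :
    ∑ i ∈ range n, breg (A i) m = ∑ i ∈ range n, psi (A i) - n * psi m := by
  have hn' : (n : ℝ) ≠ 0 := by positivity
  have h0 : ∑ i ∈ range n, (A i - m) = 0 := by
    rw [sum_sub_distrib, sum_const, card_range, ← Nat.cast_smul_eq_nsmul ℝ, hm, smul_smul,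
      mul_inv_cancel₀ hn', one_smul, sub_self]
  have h1 : ∑ i ∈ range n, trace (rt m * (A i - m)) = 0 := by
    rw [← trace_sum, ← Matrix.mul_sum, h0, Matrix.mul_zero, trace_zero]
  simp only [breg, sum_sub_distrib, sum_const, card_range, nsmul_eq_mul, ← Finset.mul_sum, h1]
  ring

omit [DecidableEq G] in
theorem sum_shift (f : G → ℝ) (c : G) : ∑ p, f (p + c) = ∑ p, f p :=
  Equiv.sum_comp (Equiv.addRight c) f

omit [DecidableEq G] in
theorem sum_neg_shift (f : G → ℝ) (c : G) : ∑ p, f (c - p) = ∑ p, f p :=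
  Equiv.sum_comp (Equiv.subLeft c) f

/-- the estimate for one weight and a natural shift -/
theorem gap_nat (k L t : ℕ) (ht : 2 * t ≤ 2 ^ L) (W : G → ℝ) (x : Matrix G G ℝ) :
    ∑ p, gap (al k W x p) (al k W x (p + (t : G) * 2 ^ k))
      ≤ 2 * (∑ p, psi (al k W x p) - ∑ q, psi (al (k + L) W x q)) := by
  set n : ℕ := 2 ^ L with hn
  have hnpos : 0 < n := by positivity
  have htn : t ≤ n := by omega
  set B : G → ℕ → ℝ := fun q i => breg (al k W x (q + (i : G) * 2 ^ k)) (al (k + L) W x q) with hB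
  have hB0 : ∀ q i, 0 ≤ B q i := fun q i => breg_nonneg (al_nonneg _ _ _ _) (al_nonneg _ _ _ _)
  have hBs : ∀ q, ∑ i ∈ range n, B q i
      = ∑ i ∈ range n, psi (al k W x (q + (i : G) * 2 ^ k)) - n * psi (al (k + L) W x q) := by
    intro q
    refine sum_breg hnpos (fun i => al k W x (q + (i : G) * 2 ^ k)) _ ?_
    rw [al_add, hn]
    push_cast
    rfl
  set g : G → ℝ := fun p => gap (al k W x p) (al k W x (p + (t : G) * 2 ^ k)) with hg
  have hg0 : ∀ p, 0 ≤ g p := fun p => gap_nonneg (al_nonneg _ _ _ _) (al_nonneg _ _ _ _)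
  have h1 : ∀ q, ∑ i ∈ range (n - t), g (q + (i : G) * 2 ^ k) ≤ ∑ i ∈ range n, B q i := by
    intro q
    have h2 : ∀ i ∈ range (n - t), g (q + (i : G) * 2 ^ k) ≤ B q i / 2 + B q (t + i) / 2 := by
      intro i _
      have := gap_le_breg (al_nonneg k W x (q + (i : G) * 2 ^ k))
        (al_nonneg k W x (q + ((t + i : ℕ) : G) * 2 ^ k)) (al_nonneg (k + L) W x q)
      have e : q + (i : G) * 2 ^ k + (t : G) * 2 ^ k = q + ((t + i : ℕ) : G) * 2 ^ k := by
        push_cast; ring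
      simp only [hg, hB, e]
      exact this
    have h3 : ∑ i ∈ range (n - t), B q i ≤ ∑ i ∈ range n, B q i :=
      sum_le_sum_of_subset_of_nonneg (range_subset_range.2 (Nat.sub_le _ _))
        (fun i _ _ => hB0 q i)
    have h4 : ∑ i ∈ range (n - t), B q (t + i) ≤ ∑ i ∈ range n, B q i := by
      have : ∑ i ∈ range n, B q i = ∑ i ∈ range t, B q i + ∑ i ∈ range (n - t), B q (t + i) := by
        rw [← sum_range_add, Nat.add_sub_cancel' htn]
      rw [this]
      have : 0 ≤ ∑ i ∈ range t, B q i := sum_nonneg fun i _ => hB0 q i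
      linarith
    calc _ ≤ ∑ i ∈ range (n - t), (B q i / 2 + B q (t + i) / 2) := sum_le_sum h2
      _ = (∑ i ∈ range (n - t), B q i) / 2 + (∑ i ∈ range (n - t), B q (t + i)) / 2 := by
        rw [sum_add_distrib, sum_div, sum_div]
      _ ≤ _ := by linarith
  have h5 : ∑ q, ∑ i ∈ range (n - t), g (q + (i : G) * 2 ^ k) = ((n : ℝ) - t) * ∑ p, g p := by
    rw [sum_comm]
    simp only [sum_shift g, sum_const, card_range, nsmul_eq_mul, Nat.cast_sub htn]
  have h6 : ∑ q, ∑ i ∈ range n, B q i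
      = n * (∑ p, psi (al k W x p) - ∑ q, psi (al (k + L) W x q)) := by
    simp only [hBs, sum_sub_distrib, ← Finset.mul_sum]
    rw [sum_comm]
    simp only [sum_shift (fun p => psi (al k W x p)), sum_const, card_range, nsmul_eq_mul]
    ring
  have h7 : ((n : ℝ) - t) * ∑ p, g p
      ≤ n * (∑ p, psi (al k W x p) - ∑ q, psi (al (k + L) W x q)) := by
    rw [← h5, ← h6]
    exact sum_le_sum fun q _ => h1 q
  have h8 : 0 ≤ ∑ p, g p := sum_nonneg fun p _ => hg0 p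
  have h9 : (2 : ℝ) * t ≤ n := by exact_mod_cast ht
  have hnr : (0 : ℝ) < n := by exact_mod_cast hnpos
  have h10 : (n : ℝ) * ∑ p, g p
      ≤ n * (2 * (∑ p, psi (al k W x p) - ∑ q, psi (al (k + L) W x q))) := by
    nlinarith
  exact le_of_mul_le_mul_left h10 hnr

/-- the estimate for one weight and an integer shift -/
theorem gap_int (k L : ℕ) (t : ℤ) (ht : 2 * |t| ≤ 2 ^ L) (W : G → ℝ) (x : Matrix G G ℝ) :
    ∑ p, gap (al k W x p) (al k W x (p + (t : G) * 2 ^ k))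
      ≤ 2 * (∑ p, psi (al k W x p) - ∑ q, psi (al (k + L) W x q)) := by
  obtain ⟨s, rfl | rfl⟩ := t.eq_nat_or_neg
  · have hs : 2 * s ≤ 2 ^ L := by
      rw [abs_of_nonneg (by positivity)] at ht
      exact_mod_cast ht
    simpa using gap_nat k L s hs W x
  · have hs : 2 * s ≤ 2 ^ L := by
      rw [abs_neg, abs_of_nonneg (by positivity)] at ht
      exact_mod_cast ht
    refine le_trans (le_of_eq ?_) (gap_nat k L s hs W x)
    rw [← sum_shift _ ((s : G) * 2 ^ k)]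
    refine sum_congr rfl fun p _ => ?_
    rw [gap_comm]
    congr 2
    push_cast
    ring

theorem pure_add_right (j k L : ℕ) (x : Matrix G G ℝ) : pure j (k + L) x ≤ pure j k x := by
  induction L with
  | zero => exact le_rfl
  | succ L ih => exact le_trans (pure_succ_right j (k + L) x) ih

theorem pure_eq (j k : ℕ) (x : Matrix G G ℝ) :
    pure j k x = ∑ p₁ : G, ∑ p₀ : G, psi (al j (win k p₁) x p₀) := by
  unfold pure
  rw [sum_comm]
  rfl

theorem pure_gap' (k L : ℕ) (t : ℤ) (ht : 2 * |t| ≤ 2 ^ L) (x : Matrix G G ℝ) :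
    ∑ p₁ : G, ∑ p₀ : G, gap (al k (win k p₁) x p₀) (al k (win k p₁) x (p₀ + (t : G) * 2 ^ k))
      ≤ 2 * (pure k k x - pure (k + L) (k + L) x) := by
  have h1 := pure_add_right (k + L) k L x
  have h2 : ∑ p₁ : G, ∑ p₀ : G,
      gap (al k (win k p₁) x p₀) (al k (win k p₁) x (p₀ + (t : G) * 2 ^ k))
      ≤ 2 * (pure k k x - pure (k + L) k x) := by
    rw [pure_eq, pure_eq, ← sum_sub_distrib, Finset.mul_sum]
    exact sum_le_sum fun p₁ _ => gap_int k L t ht _ x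
  linarith

theorem Fp_eq (j k : ℕ) (x y : Matrix G G ℝ) (c d : G) :
    Fp j k x y (c + d) = ∑ p₁ : G, ∑ p₀ : G,
      psi (al j (win k p₁) x (p₀ + c) + al j (win k p₁) y (-p₁ - p₀ + d)) := by
  unfold Fp
  rw [sum_comm]
  refine sum_congr rfl fun p₁ _ => ?_
  rw [← sum_shift _ c]
  refine sum_congr rfl fun p₀ _ => ?_
  have e : c + d - (p₀ + c) - p₁ = -p₁ - p₀ + d := by ring
  rw [e, Psi, cj_add]
  rfl

end Mixed

open Mixed

/-- WLOG `t ≥ 0` (`gap_comm` and the shift `p₀ ↦ p₀ - t 2^k`).  Fix `p₁`, write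
`α(p) = cj (win k p₁) (gram x (win k p))`, `m_q = cj (win k p₁) (gram x (win (k+L) q))`, the average of
`α(q + i 2^k)`, `i < 2^L` (`win_add`).  Then `∑_{i<2^L} breg (α(q + i 2^k)) m_q = ∑_i psi α(..) - 2^L psi m_q`
(the linear term cancels).  For `i + t < 2^L`, `gap_le_breg` bounds `gap (α(q+i2^k)) (α(q+(i+t)2^k))`; summing over
`q` and over the `2^L - t ≥ 2^L / 2` admissible `i` gives
`(2^L - t) ∑_p gap ≤ 2^L (∑_p psi α(p) - ∑_q psi m_q)`.  Finally `pure (k+L) (k+L) ≤ pure (k+L) k`. -/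
theorem pure_gap (k L : ℕ) (t : ℤ) (ht : 2 * |t| ≤ 2 ^ L) (x : Matrix G G ℝ) :
    ∑ p₀ : G, ∑ p₁ : G, gap (cj (win k p₁) (gram x (win k p₀)))
        (cj (win k p₁) (gram x (win k (p₀ + (t : G) * 2 ^ k))))
      ≤ 2 * (pure k k x - pure (k + L) (k + L) x) := by
  rw [sum_comm]
  exact pure_gap' k L t ht x

/-- Write the four potentials as sums over `(p₀, p₁)` of `psi (a + b)`, `psi (a' + b')`,
`psi (a' + b)`, `psi (a + b')` with `a = α_{k+1}(p₀)`, `a' = α_{k+1}(p₀ + t 2^k)`,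
`b = β_{k+1}(-p₀-p₁)`, `b' = β_{k+1}(-p₀-p₁ + t' 2^k)`; split each window of scale `k+1` into two of
scale `k` (`win_succ`, `gram_avg`), apply `mixed_half` and `pure_gap` four times (reindex). -/
theorem Fp_mixed (k L : ℕ) (t t' : ℤ) (ht : 2 * |t| ≤ 2 ^ L) (ht' : 2 * |t'| ≤ 2 ^ L)
    (x y : Matrix G G ℝ) :
    |Fp (k + 1) k x y 0 + Fp (k + 1) k x y (((t + t' : ℤ) : G) * 2 ^ k)
      - Fp (k + 1) k x y ((t : G) * 2 ^ k) - Fp (k + 1) k x y ((t' : G) * 2 ^ k)|
      ≤ 64 / 3 * ((pure k k x - pure (k + L) (k + L) x) + (pure k k y - pure (k + L) (k + L) y)) := by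
  set c : G := (t : G) * 2 ^ k with hc
  set d : G := (t' : G) * 2 ^ k with hd
  have e1 := Fp_eq (k + 1) k x y 0 0
  have e2 := Fp_eq (k + 1) k x y c d
  have e3 := Fp_eq (k + 1) k x y c 0
  have e4 := Fp_eq (k + 1) k x y 0 d
  have e5 : ((t + t' : ℤ) : G) * 2 ^ k = c + d := by rw [hc, hd]; push_cast; ring
  simp only [add_zero, zero_add] at e1 e3 e4
  rw [e5, e1, e2, e3, e4]
  simp only [← sum_add_distrib, ← sum_sub_distrib]
  set gx : G → G → ℝ := fun p₁ p => gap (al k (win k p₁) x p) (al k (win k p₁) x (p + c)) with hgx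
  set gy : G → G → ℝ := fun p₁ p => gap (al k (win k p₁) y p) (al k (win k p₁) y (p + d)) with hgy
  have hx : ∑ p₁, ∑ p, gx p₁ p ≤ _ := pure_gap' k L t ht x
  have hy : ∑ p₁, ∑ p, gy p₁ p ≤ _ := pure_gap' k L t' ht' y
  have key : ∀ p₁ p₀ : G,
      |psi (al (k + 1) (win k p₁) x p₀ + al (k + 1) (win k p₁) y (-p₁ - p₀))
        + psi (al (k + 1) (win k p₁) x (p₀ + c) + al (k + 1) (win k p₁) y (-p₁ - p₀ + d))
        - psi (al (k + 1) (win k p₁) x (p₀ + c) + al (k + 1) (win k p₁) y (-p₁ - p₀))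
        - psi (al (k + 1) (win k p₁) x p₀ + al (k + 1) (win k p₁) y (-p₁ - p₀ + d))|
      ≤ 16 / 3 * (gx p₁ p₀ + gx p₁ (p₀ + 2 ^ k) + gy p₁ (-p₁ - p₀) + gy p₁ (-p₁ + 2 ^ k - p₀)) := by
    intro p₁ p₀
    simp only [al_succ]
    refine le_trans (mixed_half (al_nonneg _ _ _ _) (al_nonneg _ _ _ _) (al_nonneg _ _ _ _)
      (al_nonneg _ _ _ _) (al_nonneg _ _ _ _) (al_nonneg _ _ _ _) (al_nonneg _ _ _ _)
      (al_nonneg _ _ _ _)) (le_of_eq ?_)
    have f1 : p₀ + c + 2 ^ k = p₀ + 2 ^ k + c := by ring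
    have f2 : -p₁ - p₀ + 2 ^ k = -p₁ + 2 ^ k - p₀ := by ring
    have f3 : -p₁ - p₀ + d + 2 ^ k = -p₁ + 2 ^ k - p₀ + d := by ring
    rw [f1, f2, f3]
  refine le_trans (abs_sum_le_sum_abs _ _) ?_
  refine le_trans (sum_le_sum fun p₁ _ =>
    (abs_sum_le_sum_abs _ _).trans (sum_le_sum fun p₀ _ => key p₁ p₀)) ?_
  have hs : ∀ p₁ : G, ∑ p₀, 16 / 3 *
      (gx p₁ p₀ + gx p₁ (p₀ + 2 ^ k) + gy p₁ (-p₁ - p₀) + gy p₁ (-p₁ + 2 ^ k - p₀))
      = 32 / 3 * (∑ p, gx p₁ p) + 32 / 3 * ∑ p, gy p₁ p := by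
    intro p₁
    rw [← Finset.mul_sum]
    simp only [sum_add_distrib, sum_shift (gx p₁), sum_neg_shift (gy p₁)]
    ring
  simp only [hs, sum_add_distrib, ← Finset.mul_sum]
  linarith

end Crest.Agent.R72
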