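import Crest.Agent.R72.Local

/-! # R72 task Win: windows, monotonicity of the potentials, local form versus gaps -/

set_option autoImplicit false
set_option linter.unusedSectionVars false

namespace Crest.Agent.R72

open Matrix Finset
open scoped MatrixOrder

variable {G : Type*} [CommRing G] [Fintype G] [DecidableEq G]

namespace Win

theorem sub_sum_le {n n' s : ℕ} (h : s + n ≤ n') {f : ℕ → ℝ} (hf : ∀ i, 0 ≤ f i) :
    ∑ i ∈ range n, f (s + i) ≤ ∑ i ∈ range n', f i := by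
  calc ∑ i ∈ range n, f (s + i) ≤ ∑ i ∈ range s, f i + ∑ i ∈ range n, f (s + i) :=
        le_add_of_nonneg_left (sum_nonneg fun i _ => hf i)
    _ = ∑ i ∈ range (s + n), f i := (sum_range_add f s n).symm
    _ ≤ _ := sum_le_sum_of_subset_of_nonneg (range_mono h) fun i _ _ => hf i

omit [DecidableEq G] in
theorem shift (t : G) (f : G → ℝ) : ∑ p, f (p + t) = ∑ p, f p :=
  Equiv.sum_comp (Equiv.addRight t) f

omit [DecidableEq G] in
theorem shift' (t : G) (f : G → ℝ) : ∑ p, f (p - t) = ∑ p, f p :=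
  Equiv.sum_comp (Equiv.subRight t) f

omit [DecidableEq G] in
theorem reflect (t : G) (f : G → ℝ) : ∑ p, f (t - p) = ∑ p, f p :=
  Equiv.sum_comp (Equiv.subLeft t) f

end Win

open Win

theorem win_nonneg (k : ℕ) (p x : G) : 0 ≤ win k p x := by
  unfold win
  refine div_nonneg (sum_nonneg fun j _ => ?_) (by positivity)
  split_ifs <;> norm_num

theorem win_succ (k : ℕ) (p : G) :
    win (k + 1) p = fun x => (win k p x + win k (p + 2 ^ k) x) / 2 := by
  funext x
  unfold win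
  rw [pow_succ 2 k, mul_two, sum_range_add]
  have : ∀ j : ℕ, p + ((2 ^ k + j : ℕ) : G) = p + 2 ^ k + (j : G) := fun j => by
    push_cast; ring
  simp only [this]
  rw [pow_succ]
  field_simp

theorem win_zero (p x : G) : win 0 p x = if p = x then 1 else 0 := by
  unfold win
  rw [pow_zero, sum_range_one, Nat.cast_zero, add_zero, pow_zero, div_one]

theorem sum_win_mul (k : ℕ) (p : G) (g : G → ℝ) : ∑ x, win k p x * g x = avg k g p := by
  unfold win avg
  simp only [div_mul_eq_mul_div, sum_mul]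
  rw [← sum_div, sum_comm]
  simp

theorem sum_win_left (k : ℕ) (x : G) : ∑ p, win k p x = 1 := by
  unfold win
  rw [← sum_div, sum_comm]
  have : ∀ j : ℕ, ∑ p : G, (if p + (j : G) = x then (1 : ℝ) else 0) = 1 := fun j => by
    simp [← eq_sub_iff_add_eq]
  simp [this]

theorem win_ne_zero {k : ℕ} {p x : G} (h : win k p x ≠ 0) :
    ∃ i : ℕ, i < 2 ^ k ∧ x = p + (i : G) := by
  by_contra hc
  apply h
  unfold win
  rw [sum_eq_zero, zero_div]
  intro j hj
  rw [if_neg]
  intro e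
  exact hc ⟨j, mem_range.1 hj, e.symm⟩

/-- a window contained in a longer one -/
theorem win_le {j j' s : ℕ} (h : s + 2 ^ j ≤ 2 ^ j') (p x : G) :
    2 ^ j * win j p x ≤ 2 ^ j' * win j' (p - (s : G)) x := by
  unfold win
  rw [mul_div_cancel₀ _ (by positivity), mul_div_cancel₀ _ (by positivity)]
  have := sub_sum_le h (f := fun i : ℕ => if p - (s : G) + (i : G) = x then (1 : ℝ) else 0)
    fun i => by split_ifs <;> norm_num
  refine le_trans (le_of_eq (sum_congr rfl fun i _ => ?_)) this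
  have e : p - (s : G) + ((s + i : ℕ) : G) = p + (i : G) := by push_cast; ring
  rw [e]

theorem avg_le {j j' s : ℕ} (h : s + 2 ^ j ≤ 2 ^ j') (p : G) {g : G → ℝ} (hg : ∀ x, 0 ≤ g x) :
    2 ^ j * avg j g p ≤ 2 ^ j' * avg j' g (p - (s : G)) := by
  unfold avg
  rw [mul_div_cancel₀ _ (by positivity), mul_div_cancel₀ _ (by positivity)]
  have := sub_sum_le h (f := fun i : ℕ => g (p - (s : G) + (i : G))) fun i => hg _
  refine le_trans (le_of_eq (sum_congr rfl fun i _ => ?_)) this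
  have e : p - (s : G) + ((s + i : ℕ) : G) = p + (i : G) := by push_cast; ring
  rw [e]

/-- a long window is the average of the short ones inside it -/
theorem win_add (k L : ℕ) (q : G) :
    win (k + L) q = fun x => (∑ i ∈ range (2 ^ L), win k (q + (i : G) * 2 ^ k) x) / 2 ^ L := by
  induction L generalizing q with
  | zero => funext x; simp
  | succ L ih =>
    rw [← add_assoc, win_succ, ih, ih]
    funext x
    rw [pow_succ 2 L, mul_two, sum_range_add]
    have : ∀ i : ℕ, q + ((2 ^ L + i : ℕ) : G) * 2 ^ k = q + 2 ^ (k + L) + (i : G) * 2 ^ k :=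
      fun i => by push_cast; ring
    simp only [this]
    rw [pow_succ]
    field_simp

theorem Fp_nonneg (j k : ℕ) (x y : Matrix G G ℝ) (c : G) : 0 ≤ Fp j k x y c := by
  exact sum_nonneg fun _ _ => sum_nonneg fun _ _ => Psi_nonneg _ _

theorem pure_nonneg (j k : ℕ) (x : Matrix G G ℝ) : 0 ≤ pure j k x := by
  exact sum_nonneg fun _ _ => sum_nonneg fun _ _ => Psi_nonneg _ _

theorem Fp_zero_right (j k : ℕ) (x : Matrix G G ℝ) (c : G) : Fp j k x 0 c = pure j k x := by
  simp only [Fp, pure, gram_zero, add_zero]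

theorem Fp_zero_left (j k : ℕ) (y : Matrix G G ℝ) (c : G) : Fp j k 0 y c = pure j k y := by
  simp only [Fp, pure, gram_zero, zero_add]
  rw [sum_comm, sum_comm (f := fun p₀ p₁ => Psi (gram y (win j p₀)) (win k p₁))]
  refine sum_congr rfl fun p₁ _ => ?_
  rw [← reflect (c - p₁) fun p₀ => Psi (gram y (win j p₀)) (win k p₁)]
  refine sum_congr rfl fun p₀ _ => ?_
  rw [sub_right_comm]

theorem pure_zero (j k : ℕ) : pure j k (0 : Matrix G G ℝ) = 0 := by
  simp [pure, gram_zero, Psi_zero]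

/-- `S`-step: `α_{j+1}(p₀) + β_{j+1}(p₂)` is the average of `α_j(p₀) + β_j(p₂ + 2^j)` and
`α_j(p₀ + 2^j) + β_j(p₂)`; use `Psi_convS` and reindex. -/
theorem Fp_succ_left (j k : ℕ) (x y : Matrix G G ℝ) (c : G) :
    Fp (j + 1) k x y c ≤ Fp j k x y (c + 2 ^ j) := by
  have key : ∀ p₀ p₁ : G,
      Psi (gram x (win (j + 1) p₀) + gram y (win (j + 1) (c - p₀ - p₁))) (win k p₁) ≤
        Psi (gram x (win j p₀) + gram y (win j (c + 2 ^ j - p₀ - p₁))) (win k p₁) / 2 +
        Psi (gram x (win j (p₀ + 2 ^ j)) + gram y (win j (c + 2 ^ j - (p₀ + 2 ^ j) - p₁)))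
          (win k p₁) / 2 := by
    intro p₀ p₁
    refine le_trans (le_of_eq ?_) (Psi_convS
      (add_nonneg (gram_nonneg _ (win_nonneg _ _)) (gram_nonneg _ (win_nonneg _ _)))
      (add_nonneg (gram_nonneg _ (win_nonneg _ _)) (gram_nonneg _ (win_nonneg _ _))) _)
    rw [win_succ, win_succ, gram_avg, gram_avg,
      show c - p₀ - p₁ + 2 ^ j = c + 2 ^ j - p₀ - p₁ by ring,
      show c + 2 ^ j - (p₀ + 2 ^ j) - p₁ = c - p₀ - p₁ by ring]
    congr 1
    module
  refine (sum_le_sum fun p₀ _ => sum_le_sum fun p₁ _ => key p₀ p₁).trans (le_of_eq ?_)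
  simp only [sum_add_distrib, ← sum_div]
  rw [shift (2 ^ j) fun p₀ => ∑ p₁,
    Psi (gram x (win j p₀) + gram y (win j (c + 2 ^ j - p₀ - p₁))) (win k p₁)]
  unfold Fp
  ring

theorem pure_succ_left (j k : ℕ) (x : Matrix G G ℝ) : pure (j + 1) k x ≤ pure j k x := by
  rw [← Fp_zero_right (j + 1) k x 0, ← Fp_zero_right j k x (0 + 2 ^ j)]
  exact Fp_succ_left j k x 0 0

/-- `gapW_nonneg`, `win_succ` and reindexing -/
theorem pure_succ_right (j k : ℕ) (x : Matrix G G ℝ) : pure j (k + 1) x ≤ pure j k x := by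
  unfold pure
  refine sum_le_sum fun p₀ _ => ?_
  have key : ∀ p₁ : G, Psi (gram x (win j p₀)) (win (k + 1) p₁) ≤
      Psi (gram x (win j p₀)) (win k p₁) / 2 + Psi (gram x (win j p₀)) (win k (p₁ + 2 ^ k)) / 2 := by
    intro p₁
    have := gapW_nonneg (gram_nonneg x (win_nonneg j p₀)) (win_nonneg k p₁)
      (win_nonneg k (p₁ + 2 ^ k))
    rw [win_succ]
    unfold gapW at this
    linarith
  refine (sum_le_sum fun p₁ _ => key p₁).trans (le_of_eq ?_)
  simp only [sum_add_distrib, ← sum_div]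
  rw [shift (2 ^ k) fun p₁ => Psi (gram x (win j p₀)) (win k p₁)]
  ring

/-- `cj (win 0 p₁) (gram x (win 0 p₀))` is the diagonal matrix with the single entry
`x p₀ p₁ ^ 2`; use `psi_diagonal`. -/
theorem pure_zero_zero (x : Matrix G G ℝ) : pure 0 0 x = cub x := by
  unfold pure cub
  refine sum_congr rfl fun p₀ _ => sum_congr rfl fun p₁ _ => ?_
  have e : cj (win 0 p₁) (gram x (win 0 p₀)) =
      diagonal fun i => if p₁ = i then x p₀ p₁ ^ 2 else 0 := by
    ext u v
    simp only [cj, dsq, gram, diagonal_mul, mul_diagonal, win_zero]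
    rw [Matrix.mul_apply]
    simp only [mul_diagonal, transpose_apply, diagonal_apply]
    by_cases hu : p₁ = u
    · subst hu
      by_cases hv : p₁ = v
      · subst hv
        simp [sq, win_zero]
      · simp [hv]
    · by_cases huv : u = v
      · subst huv
        simp [hu]
      · simp [hu, huv]
  unfold Psi
  rw [e, psi_diagonal fun i => by split_ifs <;> positivity, sum_eq_single p₁]
  · simp [Real.sqrt_sq_eq_abs]
  · intro i _ hi
    simp [hi.symm]
  · simp

theorem pure_le_cub (j k : ℕ) (x : Matrix G G ℝ) : pure j k x ≤ cub x := by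
  induction j with
  | zero =>
    induction k with
    | zero => exact (pure_zero_zero x).le
    | succ k ih => exact (pure_succ_right 0 k x).trans ih
  | succ j ih => exact (pure_succ_left j k x).trans ih

theorem Gap_nonneg (k : ℕ) (x y : Matrix G G ℝ) (c : G) : 0 ≤ Gap k x y c := by
  exact sum_nonneg fun _ _ => sum_nonneg fun _ _ => gapW_nonneg
    (add_nonneg (gram_nonneg _ (win_nonneg _ _)) (gram_nonneg _ (win_nonneg _ _)))
    (win_nonneg _ _) (win_nonneg _ _)

theorem Gap_eq (k : ℕ) (x y : Matrix G G ℝ) (c : G) :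
    Gap k x y c = Fp (k + 2) k x y c / 2 + Fp (k + 2) k x y (c + 2 ^ k) / 2
      - Fp (k + 2) (k + 1) x y c := by
  unfold Gap Fp gapW
  simp only [sum_sub_distrib, sum_add_distrib, ← sum_div, ← win_succ]
  refine congrArg₂ (· - ·) (congrArg₂ (· + ·) rfl (congrArg (· / 2) ?_)) rfl
  refine sum_congr rfl fun p₀ _ => ?_
  rw [← shift (2 ^ k) fun p₁ => Psi (gram x (win (k + 2) p₀) +
    gram y (win (k + 2) (c + 2 ^ k - p₀ - p₁))) (win k p₁)]
  refine sum_congr rfl fun p₁ _ => ?_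
  rw [show c + 2 ^ k - p₀ - (p₁ + 2 ^ k) = c - p₀ - p₁ by ring]

/-- `Gap_eq` and `Fp_succ_left` -/
theorem Gap_le (k : ℕ) (x y : Matrix G G ℝ) (c : G) :
    Gap k x y c ≤ Fp (k + 1) k x y (c + 2 * 2 ^ k) / 2 + Fp (k + 1) k x y (c + 3 * 2 ^ k) / 2
      - Fp (k + 2) (k + 1) x y c := by
  have h1 := Fp_succ_left (k + 1) k x y c
  have h2 := Fp_succ_left (k + 1) k x y (c + 2 ^ k)
  rw [show c + 2 ^ (k + 1) = c + 2 * 2 ^ k by ring] at h1
  rw [show c + 2 ^ k + 2 ^ (k + 1) = c + 3 * 2 ^ k by ring] at h2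
  rw [Gap_eq]
  linarith

/-- For each `p₀, p₁` and `p₂ = c' + s - p₀ - p₁` apply `localW` with `P_i = win k p_i`,
`M_i = win k (p_i + 2^k)` and
`S₀ = 4 • (gram aᵀ (win (k+2) (p₁ - s)) + gram c (win (k+2) p₂))`,
`S₁ = 4 • (gram a (win (k+2) (p₀ - s)) + gram bᵀ (win (k+2) p₂))`,
`S₂ = 4 • (gram b (win (k+2) (p₁ - s)) + gram cᵀ (win (k+2) p₀))`
(`win_le` gives `win (k+1) p ≤ 2 win (k+2) (p - s)`, also for `s = 0`), then `gapW_four` and reindex
the three double sums. -/
theorem loc_le_Gap (k : ℕ) (a b c : Matrix G G ℝ) (c' : G) (s : ℕ) (hs : s ≤ 2 ^ (k + 1)) :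
    |loc k a b c (c' + (s : G))| ≤ 64 / 9 * (Gap k aᵀ c c' + Gap k a bᵀ c' + Gap k b cᵀ c') := by
  have dom : ∀ (t : ℕ), t ≤ 2 ^ (k + 1) → ∀ (x : Matrix G G ℝ) (p : G) (Z : Matrix G G ℝ), 0 ≤ Z →
      gram x (fun i => (win k p i + win k (p + 2 ^ k) i) / 2) ≤
        (4 : ℝ) • (gram x (win (k + 2) (p - (t : G))) + Z) := by
    intro t ht x p Z hZ
    rw [← win_succ, smul_add, ← gram_smul]
    refine le_add_of_le_of_nonneg (gram_mono x fun i => ?_) (smul_nonneg' hZ (by norm_num))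
    have h1 := win_le (j := k + 1) (j' := k + 2) (s := t) (by rw [pow_succ 2 (k + 1)]; omega) p i
    have h2 := win_nonneg (k + 2) (p - (t : G)) i
    have h3 : (0 : ℝ) < 2 ^ (k + 1) := by positivity
    rw [pow_succ (2 : ℝ) (k + 1), mul_assoc] at h1
    have := le_of_mul_le_mul_left h1 h3
    linarith
  have dom0 : ∀ (x : Matrix G G ℝ) (p : G) (Z : Matrix G G ℝ), 0 ≤ Z →
      gram x (fun i => (win k p i + win k (p + 2 ^ k) i) / 2) ≤
        (4 : ℝ) • (Z + gram x (win (k + 2) p)) := by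
    intro x p Z hZ
    have := dom 0 (Nat.zero_le _) x p Z hZ
    rwa [Nat.cast_zero, sub_zero, add_comm (gram _ _) Z] at this
  have gn : ∀ (x : Matrix G G ℝ) (p : G), 0 ≤ gram x (win (k + 2) p) := fun x p =>
    gram_nonneg x (win_nonneg _ _)
  have key : ∀ p₀ p₁ : G,
      |trace (diagonal (hw k p₀) * a * diagonal (hw k p₁) * b *
        diagonal (hw k (c' + (s : G) - p₀ - p₁)) * c)| ≤
      64 / 9 * (gapW (gram aᵀ (win (k + 2) (p₁ - (s : G))) +
          gram c (win (k + 2) (c' + (s : G) - p₀ - p₁))) (win k p₀) (win k (p₀ + 2 ^ k)) +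
        gapW (gram a (win (k + 2) (p₀ - (s : G))) +
          gram bᵀ (win (k + 2) (c' + (s : G) - p₀ - p₁))) (win k p₁) (win k (p₁ + 2 ^ k)) +
        gapW (gram b (win (k + 2) (p₁ - (s : G))) + gram cᵀ (win (k + 2) p₀))
          (win k (c' + (s : G) - p₀ - p₁)) (win k (c' + (s : G) - p₀ - p₁ + 2 ^ k))) := by
    intro p₀ p₁
    have h := localW a b c (win_nonneg k p₀) (win_nonneg k (p₀ + 2 ^ k)) (win_nonneg k p₁)
      (win_nonneg k (p₁ + 2 ^ k)) (win_nonneg k (c' + (s : G) - p₀ - p₁))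
      (win_nonneg k (c' + (s : G) - p₀ - p₁ + 2 ^ k))
      (dom s hs aᵀ p₁ _ (gn _ _)) (dom0 c _ _ (gn _ _))
      (dom s hs a p₀ _ (gn _ _)) (dom0 bᵀ _ _ (gn _ _))
      (dom s hs b p₁ _ (gn _ _)) (dom0 cᵀ p₀ _ (gn _ _))
    rw [gapW_four (add_nonneg (gn _ _) (gn _ _)), gapW_four (add_nonneg (gn _ _) (gn _ _)),
      gapW_four (add_nonneg (gn _ _) (gn _ _))] at h
    refine le_trans h (le_of_eq ?_)
    ring
  unfold loc
  refine (abs_sum_le_sum_abs _ _).trans ?_
  refine (sum_le_sum fun p₀ _ => (abs_sum_le_sum_abs _ _).trans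
    (sum_le_sum fun p₁ _ => key p₀ p₁)).trans (le_of_eq ?_)
  simp only [← mul_sum, sum_add_distrib]
  refine congrArg (64 / 9 * ·) (congrArg₂ (· + ·) (congrArg₂ (· + ·) ?_ ?_) ?_)
  · unfold Gap
    rw [sum_comm, ← shift' (s : G) fun q₀ => ∑ q₁, gapW (gram aᵀ (win (k + 2) q₀) +
      gram c (win (k + 2) (c' - q₀ - q₁))) (win k q₁) (win k (q₁ + 2 ^ k))]
    refine sum_congr rfl fun p₁ _ => sum_congr rfl fun p₀ _ => ?_
    rw [show c' - (p₁ - (s : G)) - p₀ = c' + (s : G) - p₀ - p₁ by ring]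
  · unfold Gap
    rw [← shift' (s : G) fun q₀ => ∑ q₁, gapW (gram a (win (k + 2) q₀) +
      gram bᵀ (win (k + 2) (c' - q₀ - q₁))) (win k q₁) (win k (q₁ + 2 ^ k))]
    refine sum_congr rfl fun p₀ _ => sum_congr rfl fun p₁ _ => ?_
    rw [show c' - (p₀ - (s : G)) - p₁ = c' + (s : G) - p₀ - p₁ by ring]
  · unfold Gap
    rw [sum_comm, ← shift' (s : G) fun q₀ => ∑ q₁, gapW (gram b (win (k + 2) q₀) +
      gram cᵀ (win (k + 2) (c' - q₀ - q₁))) (win k q₁) (win k (q₁ + 2 ^ k))]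
    refine sum_congr rfl fun p₁ _ => ?_
    rw [← reflect (c' + (s : G) - p₁) fun q₁ => gapW (gram b (win (k + 2) (p₁ - (s : G))) +
      gram cᵀ (win (k + 2) (c' - (p₁ - (s : G)) - q₁))) (win k q₁) (win k (q₁ + 2 ^ k))]
    refine sum_congr rfl fun p₀ _ => ?_
    rw [show c' - (p₁ - (s : G)) - (c' + (s : G) - p₁ - p₀) = p₀ by ring,
      show c' + (s : G) - p₁ - p₀ = c' + (s : G) - p₀ - p₁ by ring]

/-- the local form is a triple Haar difference of `τ ↦ b v (τ-u-v) * c (τ-u-v) u`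
(substitute `u = p₀ + x₀`, `v = p₁ + x₁`, `w = o - p₀ - p₁ + x₂`; note
`haar k g p = ∑ x, hw k 0 x * g (p + x)` and `hw k p x = hw k 0 (x - p)`). -/
theorem loc_eq_haar (k : ℕ) (a b c : Matrix G G ℝ) (o : G) :
    loc k a b c o = ∑ u, ∑ v, a u v *
      haar k (haar k (haar k fun τ => b v (τ - u - v) * c (τ - u - v) u)) o := by
  have hwin : ∀ p x : G, win k p x = win k 0 (x - p) := fun p x => by
    unfold win
    congr 1
    refine sum_congr rfl fun j _ => ?_
    simp only [zero_add, eq_sub_iff_add_eq']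
  have hhw : ∀ p x : G, hw k p x = hw k 0 (x - p) := fun p x => by
    unfold hw
    rw [hwin p, hwin (p + 2 ^ k), hwin (0 + 2 ^ k), zero_add, sub_sub]
  have hhaar : ∀ (g : G → ℝ) (p : G), haar k g p = ∑ x, hw k 0 x * g (p + x) := fun g p => by
    rw [← shift' p fun x => hw k 0 x * g (p + x)]
    simp only [← hhw, add_sub_cancel]
    unfold haar hw
    rw [← sum_win_mul, ← sum_win_mul, ← sum_sub_distrib, sum_div]
    refine sum_congr rfl fun x _ => ?_
    ring
  have htr : ∀ d₀ d₁ d₂ : G → ℝ, trace (diagonal d₀ * a * diagonal d₁ * b * diagonal d₂ * c) =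
      ∑ u, ∑ v, a u v * (d₀ u * (d₁ v * ∑ w, d₂ w * (b v w * c w u))) := fun d₀ d₁ d₂ => by
    unfold trace
    refine sum_congr rfl fun u _ => ?_
    rw [diag_apply, Matrix.mul_apply]
    simp only [mul_diagonal]
    simp only [Matrix.mul_apply (N := b), mul_diagonal, diagonal_mul, sum_mul, mul_sum]
    rw [sum_comm]
    refine sum_congr rfl fun v _ => sum_congr rfl fun w _ => ?_
    ring
  unfold loc
  simp only [htr]
  rw [sum_congr rfl fun p₀ _ => sum_comm, sum_comm]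
  refine sum_congr rfl fun u _ => ?_
  rw [sum_congr rfl fun p₀ _ => sum_comm, sum_comm]
  refine sum_congr rfl fun v _ => ?_
  simp only [← mul_sum]
  congr 1
  rw [hhaar, ← reflect u fun x₀ => hw k 0 x₀ *
    haar k (haar k fun τ => b v (τ - u - v) * c (τ - u - v) u) (o + x₀)]
  refine sum_congr rfl fun p₀ _ => ?_
  rw [← hhw]
  congr 1
  rw [hhaar, ← reflect v fun x₁ => hw k 0 x₁ *
    haar k (fun τ => b v (τ - u - v) * c (τ - u - v) u) (o + (u - p₀) + x₁)]
  refine sum_congr rfl fun p₁ _ => ?_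
  rw [← hhw]
  congr 1
  rw [hhaar, ← shift' (o - p₀ - p₁) fun x₂ => hw k 0 x₂ *
    (fun τ => b v (τ - u - v) * c (τ - u - v) u) (o + (u - p₀) + (v - p₁) + x₂)]
  refine sum_congr rfl fun w _ => ?_
  rw [← hhw]
  simp only [show o + (u - p₀) + (v - p₁) + (w - (o - p₀ - p₁)) - u - v = w by ring]

end Crest.Agent.R72
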